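import Vale.Agent.P352.H755.ChInt
import Vale.Agent.P352.Bdl.B2

/-!
# Existence of cutoffs
-/

set_option linter.all false

noncomputable section

open MeasureTheory Filter Topology Set
open scoped ContDiff ComplexConjugate SchwartzMap

namespace Vale.Agent.P352.H755

open GF (Ix V Fn bas eta pd bar sim o)

/-- the criterion -/
theorem ok_of {α : ℝ → ℝ} {γ : V → ℝ} {S : Set V} {z : V} {τ r M : ℝ} (hα : Tst α)
    (hint : ∫ u, α u = 1) (hsupp : ∀ t, α t ≠ 0 → |t - z o| ≤ τ)
    (hg : Tst fun x : V => α (x o) * γ x)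
    (hγ : ∀ x : V, (∀ i, i ≠ o → |x i - z i| < M) → γ x = 1)
    (hS : ∀ y ∈ S, ∀ i, |y i - z i| ≤ r) (hM : τ + 2 * r < M) :
    Ok S fun x => α (x o) * γ x := by
  refine ⟨hg, α, hα, hint, fun x hx y hy => ?_⟩
  have hcl : closure {x : V | α (x o) * γ x ≠ α (x o)} ⊆
      {x : V | |x o - z o| ≤ τ} ∩ ⋃ i ∈ {i : Ix | i ≠ o}, {x : V | M ≤ |x i - z i|} := by
    refine closure_minimal (fun w hw => ?_) ?_
    · have h1 : α (w o) ≠ 0 := by
        intro h0
        apply hw
        rw [h0, zero_mul]
      have h2 : γ w ≠ 1 := by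
        intro h0
        apply hw
        rw [h0, mul_one]
      refine ⟨hsupp _ h1, ?_⟩
      by_contra hcon
      apply h2
      apply hγ
      intro i hi
      by_contra h3
      push Not at h3
      exact hcon (Set.mem_iUnion₂.2 ⟨i, hi, h3⟩)
    · refine IsClosed.inter (isClosed_le (by fun_prop) continuous_const) ?_
      refine Set.Finite.isClosed_biUnion (Set.toFinite _) fun i _ => ?_
      exact isClosed_le continuous_const (by fun_prop)
  obtain ⟨h1, h2⟩ := hcl hx
  obtain ⟨i, hi, h3⟩ := Set.mem_iUnion₂.1 h2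
  have h1' : |x o - z o| ≤ τ := h1
  have h3' : M ≤ |x i - z i| := h3
  have hy0 := hS y hy o
  have hyi := hS y hy i
  have a0 : |x o - y o| ≤ τ + r := by
    have : x o - y o = (x o - z o) - (y o - z o) := by ring
    rw [this]
    exact (abs_sub _ _).trans (by linarith)
  have ai : M - r ≤ |x i - y i| := by
    have h4 : |x i - z i| ≤ |x i - y i| + |y i - z i| := by
      have : x i - z i = (x i - y i) + (y i - z i) := by ring
      rw [this]
      exact abs_add_le _ _
    linarith
  have hr : 0 ≤ τ + r := (abs_nonneg _).trans a0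
  have hlt : |x o - y o| < |x i - y i| := by linarith
  have hsq := sq_lt_sq.2 hlt
  have e0 : GF.eta o = 1 := by simp [GF.eta]
  have key : GF.mdot (fun m => x m - y m) (fun m => x m - y m) =
      (x 0 - y 0) ^ 2 - (x 1 - y 1) ^ 2 - (x 2 - y 2) ^ 2 - (x 3 - y 3) ^ 2 := by
    unfold GF.mdot
    simp [Fin.sum_univ_four, GF.eta, GF.o]
    ring
  rw [key]
  have ho : (o : Ix) = 0 := rfl
  rw [ho] at hsq hi
  have hi' : i ≠ 0 := hi
  fin_cases i
  · exact absurd rfl hi'
  all_goals
    simp at hsq
    nlinarith [sq_nonneg (x 1 - y 1), sq_nonneg (x 2 - y 2), sq_nonneg (x 3 - y 3)]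

/-- the product cutoff -/
def pg (α u : Vale.Agent.P352.CS) (x : V) : ℝ := α.f (x 0) * (u.f (x 1) * u.f (x 2) * u.f (x 3))

lemma tst_pg (α u : Vale.Agent.P352.CS) : Tst (pg α u) := by
  refine ⟨?_, ?_⟩
  · have cx : ∀ m : Ix, ContDiff ℝ ∞ fun x : V => x m := fun m => contDiff_apply ℝ ℝ m
    exact (α.smooth.comp (cx 0)).mul (((u.smooth.comp (cx 1)).mul (u.smooth.comp (cx 2))).mul
      (u.smooth.comp (cx 3)))
  · have hK : IsCompact (Set.univ.pi (![tsupport α.f, tsupport u.f, tsupport u.f,
        tsupport u.f] : Ix → Set ℝ)) := by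
      refine isCompact_univ_pi fun i => ?_
      fin_cases i
      · exact α.cpt
      · exact u.cpt
      · exact u.cpt
      · exact u.cpt
    refine HasCompactSupport.intro hK fun x hx => ?_
    unfold pg
    by_contra hne
    apply hx
    have n0 : α.f (x 0) ≠ 0 := fun h => hne (by rw [h]; ring)
    have n1 : u.f (x 1) ≠ 0 := fun h => hne (by rw [h]; ring)
    have n2 : u.f (x 2) ≠ 0 := fun h => hne (by rw [h]; ring)
    have n3 : u.f (x 3) ≠ 0 := fun h => hne (by rw [h]; ring)
    intro i _
    fin_cases i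
    · exact subset_tsupport _ n0
    · exact subset_tsupport _ n1
    · exact subset_tsupport _ n2
    · exact subset_tsupport _ n3

/-- the standard cutoff -/
def G0 : V → ℝ := pg alphaC (etaR 4 four_ne_zero)

lemma tst_G0 : Tst G0 := tst_pg _ _

/-- the scaled standard cutoff, with center `z` -/
def Gs (z : V) (r : ℝ) (x : V) : ℝ := r⁻¹ * G0 (r⁻¹ • (x - z))

/-- **The scaled standard cutoffs are cutoffs for the cubes.** -/
theorem ok_Gs {z : V} {r : ℝ} (hr : 0 < r) {S : Set V} (hS : ∀ y ∈ S, ∀ i, |y i - z i| ≤ 4 * r) :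
    Ok S (Gs z r) := by
  set α : ℝ → ℝ := fun t => r⁻¹ * alphaC.f (r⁻¹ * (t - z o)) with hα
  set γ : V → ℝ := fun x => (etaR 4 four_ne_zero).f (r⁻¹ * (x 1 - z 1)) *
    (etaR 4 four_ne_zero).f (r⁻¹ * (x 2 - z 2)) *
    (etaR 4 four_ne_zero).f (r⁻¹ * (x 3 - z 3)) with hγ
  have e : Gs z r = fun x => α (x o) * γ x := by
    funext x
    simp only [Gs, G0, pg, hα, hγ, Pi.smul_apply, Pi.sub_apply, smul_eq_mul]
    have : (o : Ix) = 0 := rfl
    rw [this]
    ring
  have hsm : ContDiff ℝ ∞ (Gs z r) := by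
    unfold Gs
    have h0 : ContDiff ℝ ∞ fun x : V => r⁻¹ • (x - z) := by fun_prop
    exact contDiff_const.mul (tst_G0.1.comp h0)
  have hcs : HasCompactSupport (Gs z r) := by
    have h1 : HasCompactSupport fun x : V => G0 (r⁻¹ • (x - z)) := by
      have h2 := tst_G0.2.comp_homeomorph ((Homeomorph.subRight z).trans
        (Homeomorph.smulOfNeZero r⁻¹ (inv_ne_zero hr.ne')))
      exact h2
    exact h1.mul_left
  have hTα : Tst α := by
    refine ⟨contDiff_const.mul (alphaC.smooth.comp (by fun_prop)), ?_⟩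
    have h1 : HasCompactSupport fun t : ℝ => alphaC.f (r⁻¹ * (t - z o)) := by
      have h2 := alphaC.cpt.comp_homeomorph ((Homeomorph.subRight (z o)).trans
        (Homeomorph.mulLeft₀ r⁻¹ (inv_ne_zero hr.ne')))
      exact h2
    exact h1.mul_left
  have hint : ∫ u, α u = 1 := by
    rw [hα]
    rw [integral_const_mul]
    have h1 := integral_sub_right_eq_self (μ := (volume : Measure ℝ))
      (fun t : ℝ => alphaC.f (r⁻¹ * t)) (z o)
    rw [h1, Measure.integral_comp_mul_left]
    rw [inv_inv, abs_of_pos hr, integral_alphaC, smul_eq_mul, mul_one]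
    exact inv_mul_cancel₀ hr.ne'
  rw [e]
  refine ok_of (z := z) (τ := r) (r := 4 * r) (M := 12 * r) hTα hint ?_ ?_ ?_ hS (by linarith)
  · intro t ht
    have h1 : alphaC.f (r⁻¹ * (t - z o)) ≠ 0 := fun h => ht (by rw [hα]; simp [h])
    have h2 := alphaC_supp h1
    rw [abs_mul, abs_inv, abs_of_pos hr, inv_mul_le_iff₀ hr, mul_one] at h2
    exact h2
  · rw [← e]
    exact ⟨hsm, hcs⟩
  · intro x hx
    have hh : ∀ i : Ix, i ≠ o → (etaR 4 four_ne_zero).f (r⁻¹ * (x i - z i)) = 1 := by
      intro i hi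
      apply etaR_one (R := 4) (by norm_num)
      rw [abs_mul, abs_inv, abs_of_pos hr, inv_mul_le_iff₀ hr]
      have := hx i hi
      linarith
    simp only [hγ]
    rw [hh 1 (by decide), hh 2 (by decide), hh 3 (by decide)]
    ring

/-- the cutoffs in the definition of the charges -/
theorem ok_cutoff {F : ℝ → Fn} (hF : GF.IsCutoff F) {S : Set V} (hS : IsCompact S) :
    ∀ᶠ R in atTop, ∃ g : V → ℝ, Ok S g ∧ F R = fun x => (g x : ℂ) := by
  obtain ⟨a, c, ha, hc, hint, hc1, hFR⟩ := hF
  obtain ⟨C, hC⟩ := hS.isBounded.subset_closedBall (0 : V)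
  obtain ⟨τ, hτ⟩ := ha.isCompact.isBounded.subset_closedBall (0 : ℝ)
  obtain ⟨ε, hε, hball⟩ := Metric.eventually_nhds_iff_ball.1 hc1
  obtain ⟨ρ, hρ⟩ := hc.isCompact.isBounded.subset_closedBall (0 : V)
  have hsmooth : ∀ R > 0, ContDiff ℝ ∞ (F R) := by
    intro R hR
    obtain ⟨g, hg⟩ := (hFR R hR).1
    rw [← hg]
    exact g.smooth ⊤
  have c0 : c 0 = 1 := hc1.self_of_nhds
  have haT : Tst a := by
    refine ⟨?_, ha⟩
    have e : a = fun t => (F 1 (bas o t)).re := by
      funext t
      rw [(hFR 1 one_pos).2]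
      have h1 : (fun n => if n = o then (0 : ℝ) else (bas o t : V) n / 1) = 0 := by
        funext n
        by_cases hn : n = o
        · simp [hn]
        · simp [hn, bas]
      have h2 : (bas o t : V) o = t := by simp [bas]
      rw [h1, h2, c0]
      simp
    rw [e]
    have h3 : ContDiff ℝ ∞ fun t : ℝ => (bas o t : V) := by
      refine contDiff_pi.2 fun n => ?_
      unfold bas
      by_cases hn : n = o
      · simp only [hn, if_true]
        exact contDiff_id
      · simp only [hn, if_false]
        exact contDiff_const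
    exact Complex.reCLM.contDiff.comp ((hsmooth 1 one_pos).comp h3)
  filter_upwards [eventually_gt_atTop (max 0 ((τ + 2 * C) / ε))] with R hR
  have hR0 : 0 < R := (le_max_left _ _).trans_lt hR
  have hR1 : τ + 2 * C < ε * R := by
    have := (le_max_right _ _).trans_lt hR
    rwa [div_lt_iff₀' hε] at this
  set γ : V → ℝ := fun x => c fun n => if n = o then 0 else x n / R with hγ
  have hg : F R = fun x => ((a (x o) * γ x : ℝ) : ℂ) := by
    funext x
    rw [(hFR R hR0).2 x, hγ]
    push_cast
    rfl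
  refine ⟨fun x => a (x o) * γ x, ?_, hg⟩
  refine ok_of (z := 0) (τ := τ) (r := C) (M := ε * R) haT hint ?_ ?_ ?_ ?_ hR1
  · intro t ht
    have h1 := hτ (subset_tsupport _ (Function.mem_support.2 ht))
    rw [mem_closedBall_zero_iff, Real.norm_eq_abs] at h1
    simpa using h1
  · refine ⟨?_, ?_⟩
    · have e : (fun x : V => a (x o) * γ x) = fun x => (F R x).re := by
        funext x
        rw [hg]
        simp
      rw [e]
      exact Complex.reCLM.contDiff.comp (hsmooth R hR0)
    · refine HasCompactSupport.intro (K := Metric.closedBall 0 (max τ (ρ * R)))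
        (isCompact_closedBall _ _) fun x hx => ?_
      by_contra hne
      apply hx
      have h1 : a (x o) ≠ 0 := fun h => hne (by rw [h, zero_mul])
      have h2 : γ x ≠ 0 := fun h => hne (by rw [h, mul_zero])
      have h3 := hτ (subset_tsupport _ (Function.mem_support.2 h1))
      have h4 := hρ (subset_tsupport _ (Function.mem_support.2 h2))
      rw [mem_closedBall_zero_iff, Real.norm_eq_abs] at h3
      rw [mem_closedBall_zero_iff] at h4 ⊢
      have h6 : 0 ≤ max τ (ρ * R) := ((abs_nonneg _).trans h3).trans (le_max_left _ _)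
      refine (pi_norm_le_iff_of_nonneg h6).2 fun i => ?_
      rw [Real.norm_eq_abs]
      by_cases hi : i = o
      · rw [hi]
        exact h3.trans (le_max_left _ _)
      · have h5 := (norm_le_pi_norm (fun n => if n = o then (0 : ℝ) else x n / R) i).trans h4
        simp only [hi, if_false] at h5
        rw [Real.norm_eq_abs, abs_div, abs_of_pos hR0, div_le_iff₀ hR0] at h5
        exact h5.trans (le_max_right _ _)
  · intro x hx
    apply hball
    rw [mem_ball_zero_iff, pi_norm_lt_iff hε]
    intro i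
    by_cases hi : i = o
    · simp [hi, hε]
    · simp only [hi, if_false]
      have h5 := hx i hi
      rw [Pi.zero_apply, sub_zero] at h5
      rw [Real.norm_eq_abs, abs_div, abs_of_pos hR0, div_lt_iff₀ hR0]
      exact h5
  · intro y hy i
    have h1 := hC hy
    rw [mem_closedBall_zero_iff] at h1
    have h2 := norm_le_pi_norm y i
    rw [Real.norm_eq_abs] at h2
    simpa using h2.trans h1

end Vale.Agent.P352.H755

end
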