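import Vale.Agent.P352.H731.Agr
import Vale.Agent.P352.H755.ChJ

set_option linter.all false

/-!
# P352: conformal invariance, with one improvement field for all local fields
-/

noncomputable section

open Filter Topology
open scoped SchwartzMap

namespace Vale.Agent.P352.H731

open GF (Ix V Fn Fld Theory improve IsTest)
open H15 H246 H496 H755

variable {D : Type*} [NormedAddCommGroup D] [InnerProductSpace ℂ D]
variable {Q : Theory D} {T : Ix → Ix → Fld D} {J : Ix → Fld D} {A : (V → V) → D → D}
  {K : V → D → D}

/-- **Conformal invariance.** Local conformal generators give one local scalar field `L` such that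
the improved stress tensor is traceless and its conformal charges act on all local fields, however
these are chosen (`Q₁`). -/
theorem main_conf (hT : Q.IsStress T) (hJ : IsVirial Q T J) (h : ConfGen Q A K)
    (hm : Mom Q T K ∨ Act Q J K) :
    ∃ L : Fld D, ∀ Q₁ : Theory D, IsEnl Q Q₁ → ∃ Q₂ : Theory D, IsEnl Q₁ Q₂ ∧
      Q₂.IsScalar L 2 ∧ Q₂.IsStress (improve T L) ∧ IsImpr Q₂ T (improve T L) ∧
      ConfAct Q₂ (improve T L) := by
  obtain ⟨L, hL⟩ := main_all hT hJ h hm
  refine ⟨L, fun Q₁ h₁ => ?_⟩
  obtain ⟨Q₂, h1, h2, h3, h4, h5⟩ := hL Q₁ h₁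
  exact ⟨Q₂, h1, h2, h3, h4, H755.conf_act h5⟩

end Vale.Agent.P352.H731

end
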