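import Vale.Agent.P352.H731.Nc5
import Vale.Agent.P352.H755.Kc
import Vale.Agent.P352.H121.Wd

set_option linter.all false

noncomputable section

open MeasureTheory SchwartzMap Complex Filter Topology
open scoped SchwartzMap ComplexConjugate ENNReal NNReal LineDeriv

namespace Vale.Agent.P352.H731

open GF (Ix V Fn Sch ev pd bar sim bas o)
open H246 H496 H755 H746 H993 H15 H121

variable {D : Type*} [NormedAddCommGroup D] [InnerProductSpace ℂ D]
variable {Q : GF.Theory D} {T : Ix → Ix → GF.Fld D} {J : Ix → GF.Fld D}
  {A : (V → V) → D → D} {K : V → D → D} {a b : V}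

theorem wb {a : V} (ha : GF.mdot a a = 0) : WB a :=
  fun p q β hal har hsl hsr h F G => H121.ward_beta p q β hal har hsl hsr h ha F G

/-- **The null-plane charge of the virial current vanishes on the distributions that are
covariant, with real weights, under the dilations, boosts and null rotations of the plane** -/
theorem key (hT : Q.IsStress T) (hJ : IsVirial Q T J) (h : NullCharges Q T J A K)
    (ht : TrNull T) (ha : IsNull a) (hb : IsNull b) (hab : GF.mdot a b = 1) (p q : ℝ)
    (Y : 𝓢(Mink, ℂ) → D) (hY : H846.YB Q a p q Y) (F : 𝓢(Mink, ℂ)) :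
    Cop Q A K a b (Y F) = 0 :=
  (kc_of hT hJ h ht ha hb hab).key (wb ha.1) p q Y hY F

end Vale.Agent.P352.H731

end
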