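import Vale.Agent.P352.H246.Rc8
import Vale.Agent.P352.H746.Vjm
import Mathlib.Geometry.Manifold.PartitionOfUnity

set_option linter.all false

noncomputable section

open MeasureTheory SchwartzMap Complex Filter Topology
open scoped SchwartzMap ComplexConjugate ENNReal LineDeriv FourierTransform

namespace Vale.Agent.P352.H731

open GF (Ix V Fn Sch ev pd bar sim bas)
open H246 H246R
open H746 (kf kf_apply)
open UniformSpace (Completion)

/-- reflected conjugate -/
def rc (k : 𝓢(Mink, ℂ)) : 𝓢(Mink, ℂ) :=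
  conjS (SchwartzMap.compCLMOfContinuousLinearEquiv ℂ (ContinuousLinearEquiv.neg ℝ) k)

lemma rc_apply (k : 𝓢(Mink, ℂ)) (x : Mink) : rc k x = conj (k (-x)) := by
  unfold rc
  rw [conjS_apply]
  rfl

lemma mft_rc (k : 𝓢(Mink, ℂ)) (p : Mink) : mft (rc k) p = conj (mft k p) := by
  unfold mft
  rw [← integral_conj, ← integral_neg_eq_self]
  congr 1
  ext x
  rw [rc_apply, neg_neg, map_mul, ← exp_conj, map_mul, conj_I, conj_ofReal]
  congr 2
  have : mdot p (-x) = -mdot p x := by
    unfold mdot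
    simp
    ring
  rw [this]
  push_cast
  ring

/-- convolution -/
def cv (k g : 𝓢(Mink, ℂ)) : 𝓢(Mink, ℂ) :=
  SchwartzMap.convolution (ContinuousLinearMap.mul ℂ ℂ) k g

lemma cv_apply (k g : 𝓢(Mink, ℂ)) (x : Mink) : cv k g x = ∫ a, k a * g (x - a) := by
  unfold cv
  rw [SchwartzMap.convolution_apply]
  rfl

lemma mftS_cv (k g : 𝓢(Mink, ℂ)) (p : Mink) : mftS (cv k g) p = mftS k p * mftS g p := by
  unfold mftS cv
  simp only [ContinuousLinearMap.comp_apply, FourierTransform.fourierCLM_apply,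
    SchwartzMap.compCLMOfContinuousLinearEquiv_apply, Function.comp_apply,
    SchwartzMap.fourier_convolution]
  rfl

lemma isOpen_Vp : IsOpen Vp :=
  (isOpen_lt continuous_const H246R.continuous_pm).inter
    (isOpen_lt continuous_const continuous_mass2)

/-- a momentum space cutoff -/
lemma exists_cutoff {g : 𝓢(Mink, ℂ)} (hg : PC (mftS g)) :
    ∃ k : 𝓢(Mink, ℂ), PC (mftS k) ∧ cv k g = g := by
  obtain ⟨L, hL, hKL, hLU⟩ := exists_compact_between hg.1 isOpen_Vp hg.2
  obtain ⟨ρ, hρ1, hρ0, _⟩ := exists_contMDiffMap_one_nhds_of_subset_interior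
    (n := (⊤ : ℕ∞)) (modelWithCornersSelf ℝ Mink) hg.1.isCompact.isClosed hKL
  have hρs : ContDiff ℝ ((⊤ : ℕ∞) : WithTop ℕ∞) (ρ : Mink → ℝ) := ρ.contMDiff.contDiff
  set F : Mink → ℂ := fun x => (ρ x : ℂ) with hF
  have hFs : ContDiff ℝ ((⊤ : ℕ∞) : WithTop ℕ∞) F := Complex.ofRealCLM.contDiff.comp hρs
  have hFt : tsupport F ⊆ L := by
    apply closure_minimal _ hL.isClosed
    intro x hx
    by_contra hxL
    apply hx
    simp [hF, hρ0 x hxL]
  have hFc : HasCompactSupport F := IsCompact.of_isClosed_subset hL (isClosed_tsupport _) hFt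
  set χ : 𝓢(Mink, ℂ) := hFc.toSchwartzMap hFs with hχ
  have hχa : ∀ x, χ x = (ρ x : ℂ) := fun x => rfl
  refine ⟨imf χ, ?_, ?_⟩
  · rw [mftS_imf]
    exact ⟨hFc, hFt.trans hLU⟩
  · have h1 : mftS (cv (imf χ) g) = mftS g := by
      ext p
      rw [mftS_cv, mftS_imf, hχa]
      by_cases hp : p ∈ tsupport (mftS g)
      · have h3 : ∀ᶠ y in 𝓝 p, ρ y = 1 :=
          (Filter.eventually_iff.1 hρ1 |> mem_nhdsSet_iff_forall.1) p hp
        rw [h3.self_of_nhds, ofReal_one, one_mul]
      · rw [image_eq_zero_of_notMem_tsupport hp, mul_zero]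
    rw [← imf_mftS (cv (imf χ) g), h1, imf_mftS]

variable {D : Type*} [NormedAddCommGroup D] [InnerProductSpace ℂ D] {Q : GF.Theory D}

/-- orthogonality of the spectral supports -/
theorem cross {κ : 𝓢(Mink, ℂ) →L[ℂ] Completion D}
    (cov : ∀ g (a : Mink) (z : D), inner ℂ ((U1 Q a z : D) : Completion D) (κ (tauS a g)) =
      inner ℂ (z : Completion D) (κ g)) (h0 : ∀ f, PC (mftS f) → κ f = 0) {A : GF.Fld D}
    (hA : Q.fld A) (g : 𝓢(Mink, ℂ)) (hg : PC (mftS g)) (f : 𝓢(Mink, ℂ)) :
    inner ℂ (κ f) ((A (fl g) Q.vac : D) : Completion D) = 0 := by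
  obtain ⟨k, hk, hkg⟩ := exists_cutoff hg
  set z : D := A (fl g) Q.vac with hz
  have hzU : ∀ a : Mink, kf hA (tauS a g) = ((U1 Q a z : D) : Completion D) := by
    intro a
    have h1 : U1 Q a (A (fl g) Q.vac) = A (fl (tauS a g)) (U1 Q a Q.vac) := U_fld hA g a Q.vac
    rw [U1_vac] at h1
    rw [kf_apply, ← h1]
  -- the vector as a smeared vector
  have h1 : (z : Completion D) = ∫ a, k a • ((U1 Q a z : D) : Completion D) := by
    have h2 := conv_identity (kf hA) g k g (fun x => by
      conv_lhs => rw [← hkg]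
      rw [cv_apply])
    rw [kf_apply] at h2
    rw [h2]
    congr 1
    ext a
    rw [← hzU a]
    rfl
  have hi1 : Integrable fun a => k a • ((U1 Q a z : D) : Completion D) := by
    have h2 := conv_integrable (kf hA) g k
    refine h2.congr (Eventually.of_forall fun a => ?_)
    show k a • kf hA (tauS a g) = _
    rw [hzU a]
  have h2 : ∀ a : Mink, inner ℂ (κ f) ((U1 Q a z : D) : Completion D) =
      inner ℂ (κ (tauS (-a) f)) (z : Completion D) := by
    intro a
    have h3 := cov (tauS (-a) f) a z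
    rw [tauS_tauS, neg_add_cancel, tauS_zero'] at h3
    rw [← inner_conj_symm, h3, inner_conj_symm]
  have h3 : inner ℂ (κ f) (z : Completion D) =
      ∫ a, k a * inner ℂ (κ (tauS (-a) f)) (z : Completion D) := by
    conv_lhs => rw [h1]
    rw [← integral_inner hi1]
    congr 1
    ext a
    rw [inner_smul_right, h2]
  -- the transposed smearing
  have hc := h0 (cv (rc k) f) (by
    have e : ∀ p, mftS (cv (rc k) f) p = conj (mftS k p) * mftS f p := by
      intro p
      rw [mftS_cv, mftS_apply (rc k), mft_rc, ← mftS_apply]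
    have hsub : tsupport (mftS (cv (rc k) f)) ⊆ tsupport (mftS k) := by
      apply closure_mono
      intro p hp hp0
      apply hp
      rw [e, hp0, map_zero, zero_mul]
    exact ⟨IsCompact.of_isClosed_subset hk.1 (isClosed_tsupport _) hsub, hsub.trans hk.2⟩)
  have h4 := conv_identity κ f (rc k) (cv (rc k) f) (fun x => cv_apply _ _ x)
  have hi2 := conv_integrable κ f (rc k)
  rw [hc] at h4
  have h5 : (0 : ℂ) = ∫ a, k (-a) * inner ℂ (κ (tauS a f)) (z : Completion D) := by
    have h6 : inner ℂ (z : Completion D) (∫ a, rc k a • κ (tauS a f)) = (0 : ℂ) := by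
      have : (∫ a, rc k a • κ (tauS a f)) = (0 : Completion D) := h4.symm
      rw [this, inner_zero_right]
    have hi3 : Integrable fun a => rc k a • κ (tauS a f) := hi2
    rw [← integral_inner hi3] at h6
    have h7 := congrArg conj h6
    rw [map_zero, ← integral_conj] at h7
    rw [← h7]
    congr 1
    ext a
    rw [inner_smul_right, map_mul, rc_apply, conj_conj, inner_conj_symm]
  rw [h3, ← integral_neg_eq_self, h5]
  congr 1
  ext a
  rw [neg_neg]

end Vale.Agent.P352.H731

end
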