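import Vale.Agent.P352.H246.Meas
import Vale.Agent.P352.H496.Fam

set_option linter.all false

noncomputable section

open MeasureTheory Filter Topology Set
open scoped ENNReal NNReal

namespace Vale.Agent.P352.H731

open H246
open GF (Ix V sim)
open H496 (nu boost_nu null_nu null_nu')

/-- covariance of a measure under the stabiliser of a null direction -/
def Wgt (μ : Measure Mink) (A B : ℕ) (r : ℝ) : Prop :=
  ∀ (σ c : ℝ) (L : Ix → V), 0 < σ → 0 < c → GF.IsLor L → sim 1 L 0 (nu r) = c • nu r →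
    μ.map (fun p => σ⁻¹ • lam L p) = ENNReal.ofReal (σ ^ A * c ^ B) • μ

/-- the part of the covariance that is used, for the null vector `(1,-1,0,0)` -/
structure Wk (μ : Measure Mink) (A B : ℕ) : Prop where
  n2 : ∀ b, μ.map (lam (mNull b)) = μ
  n3 : ∀ b, μ.map (lam (mNull' b)) = μ
  bo : ∀ σ t, 0 < σ → μ.map (fun p => σ⁻¹ • lam (mBoost t) p) =
    ENNReal.ofReal (σ ^ A * Real.exp (-t) ^ B) • μ

lemma Wgt.wk {μ : Measure Mink} {A B : ℕ} (S : Wgt μ A B (-1)) : Wk μ A B where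
  n2 b := by
    have h := S 1 1 (mNull b) one_pos one_pos (isLor_null b) (null_nu b)
    simp only [inv_one, one_smul, one_pow, mul_one, ENNReal.ofReal_one] at h
    exact h
  n3 b := by
    have h := S 1 1 (mNull' b) one_pos one_pos (isLor_null' b) (null_nu' b)
    simp only [inv_one, one_smul, one_pow, mul_one, ENNReal.ofReal_one] at h
    exact h
  bo σ t hσ := S σ _ _ hσ (Real.exp_pos _) (isLor_boost t) (boost_nu t)

/-- boxes -/
def bx (K : Set ℝ) (P0 P1 x y l : ℝ) : Set Mink :=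
  {p | mass2 p ∈ K ∧ (P0 ≤ p 0 + p 1 ∧ p 0 + p 1 < P1) ∧
    (x * (p 0 + p 1) ≤ p 2 ∧ p 2 < (x + l) * (p 0 + p 1)) ∧
    (y * (p 0 + p 1) ≤ p 3 ∧ p 3 < (y + l) * (p 0 + p 1))}

lemma mass2_eq' (p : Mink) : mass2 p = (p 0 - p 1) * (p 0 + p 1) - p 2 ^ 2 - p 3 ^ 2 := by
  unfold mass2 mdot
  ring

lemma measurableSet_bx {K : Set ℝ} (hK : MeasurableSet K) (P0 P1 x y l : ℝ) :
    MeasurableSet (bx K P0 P1 x y l) := by
  have m0 : Measurable fun p : Mink => p 0 + p 1 := by fun_prop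
  have m2 : Measurable fun p : Mink => p 2 := by fun_prop
  have m3 : Measurable fun p : Mink => p 3 := by fun_prop
  refine (measurable_mass2 hK).inter (MeasurableSet.inter ?_ (MeasurableSet.inter ?_ ?_))
  · exact (measurableSet_le measurable_const m0).inter (measurableSet_lt m0 measurable_const)
  · exact (measurableSet_le (m0.const_mul x) m2).inter (measurableSet_lt m2 (m0.const_mul (x + l)))
  · exact (measurableSet_le (m0.const_mul y) m3).inter (measurableSet_lt m3 (m0.const_mul (y + l)))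

section

variable {μ : Measure Mink} {A B : ℕ} (S : Wk μ A B)
include S

lemma bx_shift2 {K : Set ℝ} (hK : MeasurableSet K) (P0 P1 x y l b : ℝ) :
    μ (bx K P0 P1 (x - b) y l) = μ (bx K P0 P1 x y l) := by
  have h := congrArg (fun ν : Measure Mink => ν (bx K P0 P1 x y l)) (S.n2 b)
  replace h : (μ.map (lam (mNull b))) (bx K P0 P1 x y l) = μ (bx K P0 P1 x y l) := h
  rw [Measure.map_apply (continuous_lam _).measurable (measurableSet_bx hK _ _ _ _ _)] at h
  rw [← h]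
  congr 1
  ext p
  have e0 : (lam (mNull b) p) 0 + (lam (mNull b) p) 1 = p 0 + p 1 := by
    simp only [Fin.isValue, mNull, lam_apply, Matrix.cons_val', Matrix.cons_val_zero,
      Matrix.cons_val_fin_one, Fin.sum_univ_four, Matrix.cons_val_one, Matrix.cons_val, mul_zero,
      add_zero, mul_neg]; ring
  have e2 : (lam (mNull b) p) 2 = p 2 + b * (p 0 + p 1) := by
    simp only [Fin.isValue, mNull, lam_apply, Matrix.cons_val', Matrix.cons_val,
      Matrix.cons_val_fin_one, Fin.sum_univ_four, Matrix.cons_val_zero, Matrix.cons_val_one,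
      mul_one, mul_zero, add_zero]; ring
  have e3 : (lam (mNull b) p) 3 = p 3 := by
    simp [Fin.sum_univ_four, mNull]
  have em : mass2 (lam (mNull b) p) = mass2 p := mdot_lam (isLor_null b) p p
  simp only [bx, Set.mem_preimage, Set.mem_setOf_eq, e0, e2, e3, em]
  constructor
  · rintro ⟨h1, h2, ⟨h3, h4⟩, h5⟩
    exact ⟨h1, h2, ⟨by linarith only [h3], by linarith only [h4]⟩, h5⟩
  · rintro ⟨h1, h2, ⟨h3, h4⟩, h5⟩
    exact ⟨h1, h2, ⟨by linarith only [h3], by linarith only [h4]⟩, h5⟩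

lemma bx_shift3 {K : Set ℝ} (hK : MeasurableSet K) (P0 P1 x y l b : ℝ) :
    μ (bx K P0 P1 x (y - b) l) = μ (bx K P0 P1 x y l) := by
  have h := congrArg (fun ν : Measure Mink => ν (bx K P0 P1 x y l)) (S.n3 b)
  replace h : (μ.map (lam (mNull' b))) (bx K P0 P1 x y l) = μ (bx K P0 P1 x y l) := h
  rw [Measure.map_apply (continuous_lam _).measurable (measurableSet_bx hK _ _ _ _ _)] at h
  rw [← h]
  congr 1
  ext p
  have e0 : (lam (mNull' b) p) 0 + (lam (mNull' b) p) 1 = p 0 + p 1 := by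
    simp only [Fin.isValue, mNull', lam_apply, Matrix.cons_val', Matrix.cons_val_zero,
      Matrix.cons_val_fin_one, Fin.sum_univ_four, Matrix.cons_val_one, Matrix.cons_val, mul_zero,
      add_zero, mul_neg]; ring
  have e2 : (lam (mNull' b) p) 2 = p 2 := by
    simp only [Fin.isValue, mNull', lam_apply, Matrix.cons_val', Matrix.cons_val, Matrix.cons_val_fin_one, Fin.sum_univ_four, Matrix.cons_val_zero, mul_zero, Matrix.cons_val_one, add_zero, mul_one, zero_add]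
  have e3 : (lam (mNull' b) p) 3 = p 3 + b * (p 0 + p 1) := by
    simp only [Fin.isValue, mNull', lam_apply, Matrix.cons_val', Matrix.cons_val,
      Matrix.cons_val_fin_one, Fin.sum_univ_four, Matrix.cons_val_zero, Matrix.cons_val_one,
      mul_zero, add_zero, mul_one]; ring
  have em : mass2 (lam (mNull' b) p) = mass2 p := mdot_lam (isLor_null' b) p p
  simp only [bx, Set.mem_preimage, Set.mem_setOf_eq, e0, e2, e3, em]
  constructor
  · rintro ⟨h1, h2, h5, ⟨h3, h4⟩⟩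
    exact ⟨h1, h2, h5, ⟨by linarith only [h3], by linarith only [h4]⟩⟩
  · rintro ⟨h1, h2, h5, ⟨h3, h4⟩⟩
    exact ⟨h1, h2, h5, ⟨by linarith only [h3], by linarith only [h4]⟩⟩

lemma bx_eq {K : Set ℝ} (hK : MeasurableSet K) (P0 P1 x y l : ℝ) :
    μ (bx K P0 P1 x y l) = μ (bx K P0 P1 0 0 l) := by
  have h1 := bx_shift2 S hK P0 P1 x y l x
  have h2 := bx_shift3 S hK P0 P1 0 y l y
  rw [sub_self] at h1 h2
  rw [← h1, ← h2]

/-- four half boxes -/
lemma bx_double {K : Set ℝ} (hK : MeasurableSet K) {P0 : ℝ} (hP : 0 < P0) (P1 l : ℝ)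
    (hl : 0 < l) : μ (bx K P0 P1 0 0 (2 * l)) = 4 * μ (bx K P0 P1 0 0 l) := by
  have hcov : bx K P0 P1 0 0 (2 * l) = (bx K P0 P1 0 0 l ∪ bx K P0 P1 l 0 l) ∪
      (bx K P0 P1 0 l l ∪ bx K P0 P1 l l l) := by
    ext p
    simp only [bx, Set.mem_union, Set.mem_setOf_eq]
    constructor
    · rintro ⟨h1, h2, ⟨h3, h4⟩, ⟨h5, h6⟩⟩
      rcases lt_or_ge (p 2) ((0 + l) * (p 0 + p 1)) with a | a <;>
      rcases lt_or_ge (p 3) ((0 + l) * (p 0 + p 1)) with b | b
      · exact Or.inl (Or.inl ⟨h1, h2, ⟨h3, a⟩, ⟨h5, b⟩⟩)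
      · exact Or.inr (Or.inl ⟨h1, h2, ⟨h3, a⟩, ⟨by linarith only [b], by linarith only [h6]⟩⟩)
      · exact Or.inl (Or.inr ⟨h1, h2, ⟨by linarith only [a], by linarith only [h4]⟩, ⟨h5, b⟩⟩)
      · exact Or.inr (Or.inr ⟨h1, h2, ⟨by linarith only [a], by linarith only [h4]⟩,
          ⟨by linarith only [b], by linarith only [h6]⟩⟩)
    · have key : ∀ h2 : P0 ≤ p 0 + p 1, 0 < l * (p 0 + p 1) := fun h2 =>
        mul_pos hl (by linarith only [h2, hP])
      rintro ((⟨h1, h2, ⟨h3, h4⟩, ⟨h5, h6⟩⟩ | ⟨h1, h2, ⟨h3, h4⟩, ⟨h5, h6⟩⟩) |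
        (⟨h1, h2, ⟨h3, h4⟩, ⟨h5, h6⟩⟩ | ⟨h1, h2, ⟨h3, h4⟩, ⟨h5, h6⟩⟩)) <;>
      have hk := key h2.1 <;>
      exact ⟨h1, h2, ⟨by nlinarith only [h3, hk], by nlinarith only [h4, hk]⟩,
        ⟨by nlinarith only [h5, hk], by nlinarith only [h6, hk]⟩⟩
  have dA : Disjoint (bx K P0 P1 0 0 l) (bx K P0 P1 l 0 l) := by
    rw [Set.disjoint_left]
    rintro p ⟨_, _, ⟨_, h4⟩, _⟩ ⟨_, _, ⟨h3, _⟩, _⟩
    linarith only [h3, h4]
  have dB : Disjoint (bx K P0 P1 0 l l) (bx K P0 P1 l l l) := by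
    rw [Set.disjoint_left]
    rintro p ⟨_, _, ⟨_, h4⟩, _⟩ ⟨_, _, ⟨h3, _⟩, _⟩
    linarith only [h3, h4]
  have dC : Disjoint (bx K P0 P1 0 0 l ∪ bx K P0 P1 l 0 l)
      (bx K P0 P1 0 l l ∪ bx K P0 P1 l l l) := by
    rw [Set.disjoint_left]
    rintro p (⟨_, _, _, ⟨_, h4⟩⟩ | ⟨_, _, _, ⟨_, h4⟩⟩) (⟨_, _, _, ⟨h3, _⟩⟩ | ⟨_, _, _, ⟨h3, _⟩⟩) <;>
    linarith only [h3, h4]
  rw [hcov, measure_union dC ((measurableSet_bx hK _ _ _ _ _).union (measurableSet_bx hK _ _ _ _ _)),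
    measure_union dA (measurableSet_bx hK _ _ _ _ _),
    measure_union dB (measurableSet_bx hK _ _ _ _ _), bx_eq S hK P0 P1 l 0 l,
    bx_eq S hK P0 P1 0 l l, bx_eq S hK P0 P1 l l l]
  ring

/-- the similitude preserving `p⁰ + p¹` -/
lemma bx_scale {K : Set ℝ} (hK : MeasurableSet K) (P0 P1 l : ℝ) :
    2 ^ B * μ (bx {m | m / 4 ∈ K} P0 P1 0 0 (2 * l)) = 2 ^ A * μ (bx K P0 P1 0 0 l) := by
  have h := S.bo 2 (Real.log 2) two_pos
  rw [show Real.exp (-Real.log 2) = 1 / 2 by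
    rw [Real.exp_neg, Real.exp_log two_pos]; norm_num] at h
  have h' := congrArg (fun ν : Measure Mink => ν (bx K P0 P1 0 0 l)) h
  have hM : Measurable fun p : Mink => (2 : ℝ)⁻¹ • lam (mBoost (Real.log 2)) p :=
    (measurable_const_smul (2 : ℝ)⁻¹).comp (continuous_lam _).measurable
  simp only [Measure.smul_apply, smul_eq_mul] at h'
  rw [Measure.map_apply hM (measurableSet_bx hK _ _ _ _ _)] at h'
  have e : (fun p : Mink => (2 : ℝ)⁻¹ • lam (mBoost (Real.log 2)) p) ⁻¹' bx K P0 P1 0 0 l =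
      bx {m | m / 4 ∈ K} P0 P1 0 0 (2 * l) := by
    ext p
    have e0 := SymMeasure.boost_sum 2 two_pos p
    set q := lam (mBoost (Real.log 2)) p with hq
    have e2 : q 2 = p 2 := by
      rw [hq]; simp only [Fin.isValue, mBoost, lam_apply, Matrix.cons_val', Matrix.cons_val, Matrix.cons_val_fin_one, Fin.sum_univ_four, Matrix.cons_val_zero, mul_zero, Matrix.cons_val_one, add_zero, mul_one, zero_add]
    have e3 : q 3 = p 3 := by
      rw [hq]; simp only [Fin.isValue, mBoost, lam_apply, Matrix.cons_val', Matrix.cons_val, Matrix.cons_val_fin_one, Fin.sum_univ_four, Matrix.cons_val_zero, mul_zero, Matrix.cons_val_one, add_zero, mul_one, zero_add]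
    have em : mass2 q = mass2 p := mdot_lam (isLor_boost _) p p
    have es : mass2 ((2 : ℝ)⁻¹ • q) = mass2 p / 4 := by
      rw [mass2_smul, em]; ring
    have c0 : ((2 : ℝ)⁻¹ • q) 0 + ((2 : ℝ)⁻¹ • q) 1 = p 0 + p 1 := by
      simp only [PiLp.smul_apply, smul_eq_mul]
      linarith only [e0]
    have c2 : ((2 : ℝ)⁻¹ • q) 2 = p 2 / 2 := by
      simp only [PiLp.smul_apply, smul_eq_mul]
      rw [e2]; ring
    have c3 : ((2 : ℝ)⁻¹ • q) 3 = p 3 / 2 := by
      simp only [PiLp.smul_apply, smul_eq_mul]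
      rw [e3]; ring
    show (2 : ℝ)⁻¹ • q ∈ bx K P0 P1 0 0 l ↔ _
    simp only [bx, Set.mem_setOf_eq]
    rw [es, c0, c2, c3]
    constructor
    · rintro ⟨h1, h2, ⟨h3, h4⟩, ⟨h5, h6⟩⟩
      exact ⟨h1, h2, ⟨by linarith only [h3], by linarith only [h4]⟩,
        ⟨by linarith only [h5], by linarith only [h6]⟩⟩
    · rintro ⟨h1, h2, ⟨h3, h4⟩, ⟨h5, h6⟩⟩
      exact ⟨h1, h2, ⟨by linarith only [h3], by linarith only [h4]⟩,
        ⟨by linarith only [h5], by linarith only [h6]⟩⟩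
  rw [e] at h'
  rw [h', ← mul_assoc]
  congr 1
  have h2 : (2 : ℝ≥0∞) ^ B = ENNReal.ofReal ((2 : ℝ) ^ B) := by
    rw [ENNReal.ofReal_pow (by norm_num)]; norm_num
  have h3 : (2 : ℝ≥0∞) ^ A = ENNReal.ofReal ((2 : ℝ) ^ A) := by
    rw [ENNReal.ofReal_pow (by norm_num)]; norm_num
  rw [h2, h3, ← ENNReal.ofReal_mul (by positivity)]
  congr 1
  rw [one_div, inv_pow]
  field_simp

omit S in
lemma bx_finite (hfin : IsFiniteMeasureOnCompacts μ) {K : Set ℝ} {m1 : ℝ}
    (hK : K ⊆ Icc 0 m1) {P0 : ℝ} (hP : 0 < P0) (P1 : ℝ) : μ (bx K P0 P1 0 0 1) < ∞ := by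
  set Q1 : ℝ := (m1 + 2 * P1 ^ 2) / P0 with hQ
  have hsub : bx K P0 P1 0 0 1 ⊆ Metric.closedBall 0 (|P1| + |Q1| + |P1| + |P1|) := by
    rintro p ⟨h1, ⟨h2, h3⟩, ⟨h4, h5⟩, ⟨h6, h7⟩⟩
    obtain ⟨a1, a2⟩ := hK h1
    rw [Metric.mem_closedBall, dist_zero_right]
    have hm := mass2_eq' p
    have p1 : 0 < P1 := by linarith only [h2, h3, hP]
    have b2 : 0 ≤ p 2 := by linarith only [h4]
    have b2' : p 2 ≤ P1 := by linarith only [h5, h3]
    have b3 : 0 ≤ p 3 := by linarith only [h6]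
    have b3' : p 3 ≤ P1 := by linarith only [h7, h3]
    have c0 : p 2 ^ 2 + p 3 ^ 2 ≤ 2 * P1 ^ 2 := by nlinarith only [b2, b2', b3, b3']
    have c1 : 0 ≤ p 0 - p 1 := by
      by_contra hcon
      push Not at hcon
      nlinarith only [a1, h2, hm, hcon, hP, sq_nonneg (p 2), sq_nonneg (p 3)]
    have c2 : p 0 - p 1 ≤ Q1 := by
      rw [hQ, le_div_iff₀ hP]
      nlinarith only [h2, c1, hm, a2, c0]
    have hn := norm_sq_mink p
    have q1 : 0 ≤ Q1 := c1.trans c2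
    rw [abs_of_pos p1, abs_of_nonneg q1]
    have : ‖p‖ ^ 2 ≤ (P1 + Q1 + P1 + P1) ^ 2 := by
      rw [hn]
      have e1 : p 0 ^ 2 + p 1 ^ 2 = ((p 0 + p 1) ^ 2 + (p 0 - p 1) ^ 2) / 2 := by ring
      have d1 : (p 0 + p 1) ^ 2 ≤ P1 ^ 2 := by
        apply pow_le_pow_left₀ (by linarith only [h2, hP]) h3.le
      have d2 : (p 0 - p 1) ^ 2 ≤ Q1 ^ 2 := pow_le_pow_left₀ c1 c2 2
      nlinarith only [c0, e1, d1, d2, p1, q1, mul_nonneg p1.le q1]
    exact le_of_sq_le_sq this (by positivity)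
  exact lt_of_le_of_lt (measure_mono hsub) (isCompact_closedBall _ _).measure_lt_top

/-- no mass on the positive mass shells -/
lemma bx_null_pos (hfin : IsFiniteMeasureOnCompacts μ) (hAB : A ≤ B + 2) {M : ℝ} (hM : 0 < M)
    {P0 : ℝ} (hP : 0 < P0) (P1 : ℝ) : μ (bx (Ico M (4 * M)) P0 P1 0 0 1) = 0 := by
  set K : ℕ → Set ℝ := fun j => Ico (M / 4 ^ j) (4 * (M / 4 ^ j)) with hKd
  have hKm : ∀ j, MeasurableSet (K j) := fun j => measurableSet_Ico
  have hstep : ∀ j, μ (bx (K j) P0 P1 0 0 1) ≤ μ (bx (K (j + 1)) P0 P1 0 0 1) := by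
    intro j
    have h1 := bx_scale S (hKm (j + 1)) P0 P1 (1 / 2)
    have h2 := bx_double S (hKm (j + 1)) hP P1 (1 / 2) (by norm_num)
    have e1 : {m : ℝ | m / 4 ∈ K (j + 1)} = K j := by
      ext m
      simp only [hKd, Set.mem_setOf_eq, Set.mem_Ico]
      have e2 : M / 4 ^ (j + 1) = M / 4 ^ j / 4 := by rw [pow_succ]; field_simp
      rw [e2]
      constructor
      · rintro ⟨h3, h4⟩
        constructor <;> linarith only [h3, h4]
      · rintro ⟨h3, h4⟩
        constructor <;> linarith only [h3, h4]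
    have e2 : (2 : ℝ) * (1 / 2) = 1 := by norm_num
    rw [e1, e2] at h1
    rw [e2] at h2
    -- `2^B m_j = 2^A n`, `m_{j+1} = 4 n`
    have h3 : 2 ^ (B + 2) * μ (bx (K j) P0 P1 0 0 1) = 2 ^ A * μ (bx (K (j + 1)) P0 P1 0 0 1) := by
      rw [h2, pow_add, mul_assoc, mul_comm ((2 : ℝ≥0∞) ^ 2), ← mul_assoc, h1]
      ring
    obtain ⟨k, hk⟩ := Nat.exists_eq_add_of_le hAB
    rw [hk, pow_add, mul_assoc] at h3
    have h4 : 2 ^ k * μ (bx (K j) P0 P1 0 0 1) = μ (bx (K (j + 1)) P0 P1 0 0 1) :=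
      (ENNReal.mul_right_inj (by positivity) (ENNReal.pow_ne_top (by norm_num))).1 h3
    rw [← h4]
    calc μ (bx (K j) P0 P1 0 0 1) = 1 * μ (bx (K j) P0 P1 0 0 1) := (one_mul _).symm
      _ ≤ 2 ^ k * μ (bx (K j) P0 P1 0 0 1) := by
          gcongr
          exact one_le_pow₀ (by norm_num)
  have hle : ∀ j, μ (bx (K 0) P0 P1 0 0 1) ≤ μ (bx (K j) P0 P1 0 0 1) := by
    intro j
    induction j with
    | zero => exact le_rfl
    | succ j ih => exact ih.trans (hstep j)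
  have hK0 : K 0 = Ico M (4 * M) := by simp [hKd]
  have hdis : Pairwise (Function.onFun Disjoint fun j => bx (K j) P0 P1 0 0 1) := by
    have key : ∀ i j, i < j → Disjoint (bx (K i) P0 P1 0 0 1) (bx (K j) P0 P1 0 0 1) := by
      intro i j hij
      rw [Set.disjoint_left]
      rintro p ⟨⟨h1, _⟩, _⟩ ⟨⟨_, h2⟩, _⟩
      have h3 : 4 * (M / 4 ^ j) ≤ M / 4 ^ i := by
        have h5 : (4 : ℝ) ^ (i + 1) ≤ 4 ^ j := pow_le_pow_right₀ (by norm_num) hij
        calc 4 * (M / 4 ^ j) ≤ 4 * (M / 4 ^ (i + 1)) := by gcongr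
          _ = M / 4 ^ i := by rw [pow_succ]; field_simp
      linarith only [h1, h2, h3]
    intro i j hij
    rcases lt_or_gt_of_ne hij with h | h
    · exact key i j h
    · exact (key j i h).symm
  have hsum : ∑' j, μ (bx (K j) P0 P1 0 0 1) = μ (⋃ j, bx (K j) P0 P1 0 0 1) :=
    (measure_iUnion hdis fun j => measurableSet_bx (hKm j) _ _ _ _ _).symm
  have hfinU : μ (⋃ j, bx (K j) P0 P1 0 0 1) < ∞ := by
    refine lt_of_le_of_lt (measure_mono (t := bx (Icc 0 (4 * M)) P0 P1 0 0 1) ?_)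
      (bx_finite hfin (le_refl _) hP P1)
    intro p hp
    obtain ⟨j, ⟨h1, h2⟩, h3⟩ := Set.mem_iUnion.1 hp
    refine ⟨⟨?_, ?_⟩, h3⟩
    · have : 0 ≤ M / 4 ^ j := by positivity
      linarith only [h1, this]
    · have h5 : M / 4 ^ j ≤ M := div_le_self hM.le (one_le_pow₀ (by norm_num))
      linarith only [h2, h5]
  by_contra hne
  rw [← hK0] at hne
  have htop : ∑' j : ℕ, μ (bx (K 0) P0 P1 0 0 1) = ∞ := ENNReal.tsum_const_eq_top_of_ne_zero hne
  have : (∞ : ℝ≥0∞) ≤ μ (⋃ j, bx (K j) P0 P1 0 0 1) := by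
    rw [← htop, ← hsum]
    exact ENNReal.tsum_le_tsum hle
  exact absurd (lt_of_le_of_lt this hfinU) (lt_irrefl _)

/-- no mass on the null cone -/
lemma bx_null_zero (hfin : IsFiniteMeasureOnCompacts μ) (hAB : A ≠ B + 2)
    {P0 : ℝ} (hP : 0 < P0) (P1 : ℝ) : μ (bx {0} P0 P1 0 0 1) = 0 := by
  have hm : MeasurableSet ({0} : Set ℝ) := measurableSet_singleton 0
  have h1 := bx_scale S hm P0 P1 1
  have h2 := bx_double S hm hP P1 1 one_pos
  have e1 : {m : ℝ | m / 4 ∈ ({0} : Set ℝ)} = {0} := by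
    ext m
    simp
  rw [e1, h2] at h1
  set x := μ (bx {0} P0 P1 0 0 1) with hx
  have hxt : x ≠ ∞ := (bx_finite hfin (m1 := 0) (by simp) hP P1).ne
  have h3 : (2 : ℝ≥0∞) ^ (B + 2) * x = 2 ^ A * x := by
    rw [← h1]
    ring
  have h4 : (2 : ℝ) ^ (B + 2) * x.toReal = 2 ^ A * x.toReal := by
    have h5 := congrArg ENNReal.toReal h3
    simpa [ENNReal.toReal_mul] using h5
  have h5 : (2 : ℝ) ^ (B + 2) ≠ 2 ^ A := by
    intro h
    exact hAB (pow_right_injective₀ (by norm_num) (by norm_num) h).symm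
  have h6 : x.toReal = 0 := by
    by_contra hne
    exact h5 (mul_right_cancel₀ hne h4)
  rcases (ENNReal.toReal_eq_zero_iff _).1 h6 with h | h
  · exact h
  · exact absurd h hxt

omit S in
lemma mem_nhds_bx {K : Set ℝ} {p : Mink} {U : Set ℝ} (hU : IsOpen U) (hpU : mass2 p ∈ U)
    (hp : 0 < p 0 + p 1) (s : Set Mink) (hs : ∀ q ∈ s, mass2 q ∈ U → mass2 q ∈ K) :
    bx K ((p 0 + p 1) / 2) (2 * (p 0 + p 1)) (p 2 / (p 0 + p 1) - 1 / 2)
      (p 3 / (p 0 + p 1) - 1 / 2) 1 ∈ 𝓝[s] p := by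
  set P := p 0 + p 1 with hP
  set x := p 2 / P - 1 / 2 with hx
  set y := p 3 / P - 1 / 2 with hy
  have hne : P ≠ 0 := hp.ne'
  have m0 : Continuous fun p : Mink => p 0 + p 1 := by fun_prop
  have m2 : Continuous fun p : Mink => p 2 := by fun_prop
  have m3 : Continuous fun p : Mink => p 3 := by fun_prop
  set W : Set Mink := {q | mass2 q ∈ U ∧ (P / 2 < q 0 + q 1 ∧ q 0 + q 1 < 2 * P) ∧
    (x * (q 0 + q 1) < q 2 ∧ q 2 < (x + 1) * (q 0 + q 1)) ∧
    (y * (q 0 + q 1) < q 3 ∧ q 3 < (y + 1) * (q 0 + q 1))} with hW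
  have hWo : IsOpen W := by
    refine (hU.preimage continuous_mass2).inter (IsOpen.inter ?_ (IsOpen.inter ?_ ?_))
    · exact (isOpen_lt continuous_const m0).inter (isOpen_lt m0 continuous_const)
    · exact (isOpen_lt (continuous_const.mul m0) m2).inter (isOpen_lt m2 (continuous_const.mul m0))
    · exact (isOpen_lt (continuous_const.mul m0) m3).inter (isOpen_lt m3 (continuous_const.mul m0))
  have hpW : p ∈ W := by
    have e1 : x * P = p 2 - P / 2 := by rw [hx]; field_simp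
    have e2 : (x + 1) * P = p 2 + P / 2 := by rw [hx]; field_simp; ring
    have e3 : y * P = p 3 - P / 2 := by rw [hy]; field_simp
    have e4 : (y + 1) * P = p 3 + P / 2 := by rw [hy]; field_simp; ring
    refine ⟨hpU, ⟨?_, ?_⟩, ⟨?_, ?_⟩, ⟨?_, ?_⟩⟩
    · rw [← hP]; linarith only [hp]
    · rw [← hP]; linarith only [hp]
    · rw [← hP, e1]; linarith only [hp]
    · rw [← hP, e2]; linarith only [hp]
    · rw [← hP, e3]; linarith only [hp]
    · rw [← hP, e4]; linarith only [hp]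
  rw [mem_nhdsWithin]
  refine ⟨W, hWo, hpW, ?_⟩
  rintro q ⟨⟨h1, ⟨h2, h3⟩, ⟨h4, h5⟩, ⟨h6, h7⟩⟩, hq⟩
  exact ⟨hs q hq h1, ⟨h2.le, h3⟩, ⟨h4.le, h5⟩, ⟨h6.le, h7⟩⟩

/-- (pos) -/
theorem Wk.pos (hfin : IsFiniteMeasureOnCompacts μ) (hAB : A ≤ B + 2) :
    μ {p | 0 < p 0 + p 1 ∧ 0 < mass2 p} = 0 := by
  refine measure_null_of_locally_null _ fun p hp => ?_
  obtain ⟨h1, h2⟩ := hp
  refine ⟨_, mem_nhds_bx (K := Ico (mass2 p / 2) (4 * (mass2 p / 2)))
    (U := Ioo (mass2 p / 2) (4 * (mass2 p / 2))) isOpen_Ioo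
    ⟨by linarith only [h2], by linarith only [h2]⟩ h1 _
    (fun q _ hq => ⟨hq.1.le, hq.2⟩), ?_⟩
  rw [bx_eq S measurableSet_Ico]
  exact bx_null_pos S hfin hAB (by linarith only [h2]) (by linarith only [h1]) _

/-- (cone) -/
theorem Wk.nul (hfin : IsFiniteMeasureOnCompacts μ) (hAB : A ≠ B + 2) :
    μ {p | 0 < p 0 + p 1 ∧ mass2 p = 0} = 0 := by
  refine measure_null_of_locally_null _ fun p hp => ?_
  obtain ⟨h1, h2⟩ := hp
  refine ⟨_, mem_nhds_bx (K := {0}) (U := univ) isOpen_univ (mem_univ _) h1 _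
    (fun q hq _ => hq.2), ?_⟩
  rw [bx_eq S (measurableSet_singleton 0)]
  exact bx_null_zero S hfin hAB (by linarith only [h1]) _

/-- (ray) -/
theorem Wk.ray (hfin : IsFiniteMeasureOnCompacts μ) (hAB : 0 < A + B) :
    μ {p | p ∈ fwdCone ∧ p 0 + p 1 = 0} = 0 := by
  set R : ℕ → Set Mink := fun n => {p | (p ∈ fwdCone ∧ p 0 + p 1 = 0) ∧ ‖p‖ ≤ n} with hR
  have hcov : {p : Mink | p ∈ fwdCone ∧ p 0 + p 1 = 0} ⊆ ⋃ n, R n := by
    intro p hp
    obtain ⟨n, hn⟩ := exists_nat_ge ‖p‖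
    exact Set.mem_iUnion.2 ⟨n, hp, hn⟩
  refine measure_mono_null hcov (measure_iUnion_null fun n => ?_)
  have hRm : MeasurableSet (R n) := by
    have m0 : Measurable fun p : Mink => p 0 + p 1 := by fun_prop
    have m1 : Measurable fun p : Mink => p 0 := by fun_prop
    refine MeasurableSet.inter (MeasurableSet.inter ?_ ?_) (measurableSet_le measurable_norm
      measurable_const)
    · exact (measurableSet_le measurable_const m1).inter
        (measurableSet_le measurable_const measurable_mass2)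
    · exact measurableSet_eq_fun m0 measurable_const
  have hfinR : μ (R n) < ∞ := by
    refine lt_of_le_of_lt (measure_mono (t := Metric.closedBall 0 (n : ℝ)) ?_)
      (isCompact_closedBall _ _).measure_lt_top
    intro p hp
    rw [Metric.mem_closedBall, dist_zero_right]
    exact hp.2
  have h := S.bo 2 (-Real.log 2) two_pos
  rw [neg_neg, Real.exp_log two_pos] at h
  have h' := congrArg (fun ν : Measure Mink => ν (R n)) h
  have hM : Measurable fun p : Mink => (2 : ℝ)⁻¹ • lam (mBoost (-Real.log 2)) p :=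
    (measurable_const_smul (2 : ℝ)⁻¹).comp (continuous_lam _).measurable
  simp only [Measure.smul_apply, smul_eq_mul] at h'
  rw [Measure.map_apply hM hRm] at h'
  have hcs : Real.cosh (-Real.log 2) - Real.sinh (-Real.log 2) = 2 := by
    rw [Real.cosh_sub_sinh, neg_neg, Real.exp_log two_pos]
  have hcp : Real.cosh (-Real.log 2) + Real.sinh (-Real.log 2) = 1 / 2 := by
    rw [Real.cosh_add_sinh, Real.exp_neg, Real.exp_log two_pos]; norm_num
  have e : (fun p : Mink => (2 : ℝ)⁻¹ • lam (mBoost (-Real.log 2)) p) ⁻¹' R n = R n := by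
    ext p
    set q := lam (mBoost (-Real.log 2)) p with hq
    have e0 : q 0 = p 0 * Real.cosh (-Real.log 2) + p 1 * Real.sinh (-Real.log 2) := by
      rw [hq]; simp [Fin.sum_univ_four, mBoost]
    have e1 : q 1 = p 0 * Real.sinh (-Real.log 2) + p 1 * Real.cosh (-Real.log 2) := by
      rw [hq]; simp [Fin.sum_univ_four, mBoost]
    have e2 : q 2 = p 2 := by
      rw [hq]; simp [Fin.sum_univ_four, mBoost]
    have e3 : q 3 = p 3 := by
      rw [hq]; simp [Fin.sum_univ_four, mBoost]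
    have em : mass2 q = mass2 p := mdot_lam (isLor_boost _) p p
    have es : mass2 ((2 : ℝ)⁻¹ • q) = mass2 p / 4 := by
      rw [mass2_smul, em]; ring
    -- on the ray the map is the identity
    have hsum : ((2 : ℝ)⁻¹ • q) 0 + ((2 : ℝ)⁻¹ • q) 1 = (p 0 + p 1) / 4 := by
      simp only [PiLp.smul_apply, smul_eq_mul, e0, e1]
      linear_combination ((p 0 + p 1) / 2) * hcp
    have hray : p 0 + p 1 = 0 → 0 ≤ mass2 p → (2 : ℝ)⁻¹ • q = p := by
      intro h1 h2
      have hm := mass2_eq' p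
      rw [h1, mul_zero] at hm
      have s2 : p 2 = 0 := by
        have : p 2 ^ 2 ≤ 0 := by nlinarith only [hm, h2, sq_nonneg (p 2), sq_nonneg (p 3)]
        exact pow_eq_zero_iff two_ne_zero |>.1 (le_antisymm this (sq_nonneg _))
      have s3 : p 3 = 0 := by
        have : p 3 ^ 2 ≤ 0 := by nlinarith only [hm, h2, sq_nonneg (p 2), sq_nonneg (p 3)]
        exact pow_eq_zero_iff two_ne_zero |>.1 (le_antisymm this (sq_nonneg _))
      have h11 : p 1 = -p 0 := by linarith only [h1]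
      apply mink_ext
      · simp only [PiLp.smul_apply, smul_eq_mul, e0, h11]
        linear_combination (p 0 / 2) * hcs
      · simp only [PiLp.smul_apply, smul_eq_mul, e1, h11]
        linear_combination (-(p 0) / 2) * hcs
      · simp only [PiLp.smul_apply, smul_eq_mul, e2, s2, mul_zero]
      · simp only [PiLp.smul_apply, smul_eq_mul, e3, s3, mul_zero]
    constructor
    · rintro ⟨⟨⟨g1, g2⟩, g3⟩, g4⟩
      have k1 : p 0 + p 1 = 0 := by
        have : (p 0 + p 1) / 4 = 0 := by rw [← hsum]; exact g3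
        linarith only [this]
      have k2 : 0 ≤ mass2 p := by
        have : 0 ≤ mass2 p / 4 := by rw [← es]; exact g2
        linarith only [this]
      have k3 := hray k1 k2
      have k4 : (2 : ℝ)⁻¹ • lam (mBoost (-Real.log 2)) p = p := k3
      simp only [k4] at g1 g4
      exact ⟨⟨⟨g1, k2⟩, k1⟩, g4⟩
    · rintro ⟨⟨⟨g1, g2⟩, g3⟩, g4⟩
      have k3 := hray g3 g2
      have k4 : (2 : ℝ)⁻¹ • lam (mBoost (-Real.log 2)) p = p := k3
      show (2 : ℝ)⁻¹ • lam (mBoost (-Real.log 2)) p ∈ R n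
      rw [k4]
      exact ⟨⟨⟨g1, g2⟩, g3⟩, g4⟩
  rw [e] at h'
  have h4 : (μ (R n)).toReal = 2 ^ (A + B) * (μ (R n)).toReal := by
    have h5 := congrArg ENNReal.toReal h'
    rw [ENNReal.toReal_mul, ENNReal.toReal_ofReal (by positivity)] at h5
    rw [pow_add]
    exact h5
  have h5 : (1 : ℝ) < 2 ^ (A + B) := one_lt_pow₀ (by norm_num) (by omega)
  have h6 : (μ (R n)).toReal = 0 := by
    have h7 : (2 ^ (A + B) - 1) * (μ (R n)).toReal = 0 := by linarith only [h4]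
    rcases mul_eq_zero.1 h7 with h8 | h8
    · linarith only [h5, h8]
    · exact h8
  rcases (ENNReal.toReal_eq_zero_iff _).1 h6 with h | h
  · exact h
  · exact absurd h hfinR.ne

omit S in
lemma cone_sum_nonneg {p : Mink} (hp : p ∈ fwdCone) : 0 ≤ p 0 + p 1 := by
  have h1 : 0 ≤ p 0 := hp.1
  have h2 : 0 ≤ mass2 p := hp.2
  have hm := mass2_eq' p
  by_contra hcon
  push Not at hcon
  have h3 : 0 < p 0 - p 1 := by linarith only [h1, hcon]
  nlinarith only [h2, hm, h3, hcon, sq_nonneg (p 2), sq_nonneg (p 3)]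

/-- positive mass almost everywhere -/
theorem Wk.ray_null (hfin : IsFiniteMeasureOnCompacts μ) (hcone : ∀ᵐ p ∂μ, p ∈ fwdCone)
    (hAB : A ≠ B + 2) (hAB' : 0 < A + B) : ∀ᵐ p ∂μ, 0 < p 0 + p 1 ∧ 0 < mass2 p := by
  have h1 : ∀ᵐ p ∂μ, ¬ (0 < p 0 + p 1 ∧ mass2 p = 0) := by
    rw [ae_iff]
    simpa using S.nul hfin hAB
  have h2 : ∀ᵐ p ∂μ, ¬ (p ∈ fwdCone ∧ p 0 + p 1 = 0) := by
    rw [ae_iff]
    simpa using S.ray hfin hAB'
  filter_upwards [h1, h2, hcone] with p a b c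
  have d := cone_sum_nonneg c
  rcases d.eq_or_lt with e | e
  · exact absurd ⟨c, e.symm⟩ b
  · refine ⟨e, ?_⟩
    have f : 0 ≤ mass2 p := c.2
    rcases f.eq_or_lt with g | g
    · exact absurd ⟨e, g.symm⟩ a
    · exact g

theorem Wk.zero (hfin : IsFiniteMeasureOnCompacts μ) (hcone : ∀ᵐ p ∂μ, p ∈ fwdCone)
    (hAB : A < B + 2) (hAB' : 0 < A + B) : μ = 0 := by
  have h1 := S.ray_null hfin hcone hAB.ne hAB'
  have h2 := S.pos hfin hAB.le
  have h3 : ∀ᵐ p ∂μ, False := by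
    have h4 : ∀ᵐ p ∂μ, ¬ (0 < p 0 + p 1 ∧ 0 < mass2 p) := by
      rw [ae_iff]
      simpa using h2
    filter_upwards [h1, h4] with p a b using b a
  have h5 : μ univ = 0 := by
    rw [ae_iff] at h3
    simpa using h3
  exact Measure.measure_univ_eq_zero.1 h5

end

theorem wgt_pos {μ : Measure Mink} {A B : ℕ} (S : Wgt μ A B (-1))
    (hfin : IsFiniteMeasureOnCompacts μ) (hAB : A ≤ B + 2) :
    μ {p | 0 < p 0 + p 1 ∧ 0 < mass2 p} = 0 := S.wk.pos hfin hAB

theorem wgt_cone {μ : Measure Mink} {A B : ℕ} (S : Wgt μ A B (-1))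
    (hfin : IsFiniteMeasureOnCompacts μ) (hAB : A ≠ B + 2) :
    μ {p | 0 < p 0 + p 1 ∧ mass2 p = 0} = 0 := S.wk.nul hfin hAB

theorem wgt_ray {μ : Measure Mink} {A B : ℕ} (S : Wgt μ A B (-1))
    (hfin : IsFiniteMeasureOnCompacts μ) (hAB : 0 < A + B) :
    μ {p | p ∈ fwdCone ∧ p 0 + p 1 = 0} = 0 := S.wk.ray hfin hAB

theorem wgt_ray_null {μ : Measure Mink} {A B : ℕ} (S : Wgt μ A B (-1))
    (hfin : IsFiniteMeasureOnCompacts μ) (hcone : ∀ᵐ p ∂μ, p ∈ fwdCone)
    (hAB : A ≠ B + 2) (hAB' : 0 < A + B) : ∀ᵐ p ∂μ, 0 < p 0 + p 1 ∧ 0 < mass2 p :=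
  S.wk.ray_null hfin hcone hAB hAB'

theorem wgt_zero {μ : Measure Mink} {A B : ℕ} (S : Wgt μ A B (-1))
    (hfin : IsFiniteMeasureOnCompacts μ) (hcone : ∀ᵐ p ∂μ, p ∈ fwdCone)
    (hAB : A < B + 2) (hAB' : 0 < A + B) : μ = 0 := S.wk.zero hfin hcone hAB hAB'

/-! ### The opposite null direction -/

/-- signs of the rotation by `π` in the 1-2-plane -/
def sg12 : Ix → ℝ := ![1, -1, -1, 1]

lemma sg12_sq (m : Ix) : sg12 m * sg12 m = 1 := by
  fin_cases m <;> simp [sg12]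

lemma lam_rot12_apply (p : Mink) (n : Ix) : lam mRot12 p n = sg12 n * p n := by
  fin_cases n <;> simp [mRot12, sg12, Fin.sum_univ_four]

lemma lam_rot12_rot12 (p : Mink) : lam mRot12 (lam mRot12 p) = p := by
  ext n
  rw [lam_rot12_apply, lam_rot12_apply, ← mul_assoc, sg12_sq, one_mul]

/-- conjugation -/
def cj (L : Ix → V) : Ix → V := fun m n => sg12 m * L m n * sg12 n

lemma isLor_cj {L : Ix → V} (hL : GF.IsLor L) : GF.IsLor (cj L) := by
  refine ⟨fun m n => ?_, ?_, ?_⟩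
  · have h := hL.1 m n
    have e1 : GF.mdot (cj L m) (cj L n) = sg12 m * sg12 n * GF.mdot (L m) (L n) := by
      unfold GF.mdot cj
      rw [Finset.mul_sum]
      refine Finset.sum_congr rfl fun k _ => ?_
      linear_combination (GF.eta k * sg12 m * L m k * sg12 n * L n k) * sg12_sq k
    rw [e1, h]
    unfold GF.bas
    split_ifs with hmn
    · rw [hmn, sg12_sq, one_mul]
    · rw [mul_zero]
  · have h := hL.2.1
    have : cj L GF.o GF.o = L GF.o GF.o := by
      unfold cj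
      have := sg12_sq GF.o
      linear_combination (L GF.o GF.o) * this
    rw [this]
    exact h
  · have h1 : Matrix.det (cj L) = (∏ i, sg12 i) * ((∏ i, sg12 i) * Matrix.det L) := by
      have e1 := Matrix.det_mul_row sg12 (Matrix.of fun m n => sg12 m * L m n)
      have e2 := Matrix.det_mul_column sg12 (Matrix.of L)
      have e3 : Matrix.det (cj L) = Matrix.det (Matrix.of fun i j => sg12 j *
          (Matrix.of fun m n => sg12 m * L m n) i j) := by
        congr 1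
        ext i j
        simp only [Matrix.of_apply, cj]
        ring
      rw [e3, e1]
      congr 1
    rw [h1, hL.2.2]
    simp [sg12, Fin.prod_univ_four]

lemma lam_cj (L : Ix → V) (p : Mink) : lam L (lam mRot12 p) = lam mRot12 (lam (cj L) p) := by
  ext n
  rw [lam_rot12_apply, lam_apply, lam_apply, Finset.mul_sum]
  refine Finset.sum_congr rfl fun m _ => ?_
  rw [lam_rot12_apply]
  unfold cj
  linear_combination (- sg12 m * p m * L m n) * sg12_sq n

lemma sim_cj {L : Ix → V} {c : ℝ} (h : sim 1 L 0 (nu (-1)) = c • nu (-1)) :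
    sim 1 (cj L) 0 (nu 1) = c • nu 1 := by
  funext n
  have h1 := congrFun h n
  have e : ∀ m, nu 1 m * sg12 m = nu (-1) m := by
    intro m
    fin_cases m <;> simp [nu, sg12]
  simp only [sim, Pi.zero_apply, zero_add, one_mul, Pi.smul_apply, smul_eq_mul] at h1 ⊢
  have h2 : ∑ m, nu 1 m * cj L m n = (∑ m, nu (-1) m * L m n) * sg12 n := by
    rw [Finset.sum_mul]
    refine Finset.sum_congr rfl fun m _ => ?_
    unfold cj
    linear_combination (L m n * sg12 n) * e m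
  rw [h2, h1, ← e n]
  linear_combination (c * nu 1 n) * sg12_sq n

lemma meas_rot : Measurable (lam mRot12) := (continuous_lam _).measurable

lemma wgt_rot {μ : Measure Mink} {A B : ℕ} (S : Wgt μ A B 1) :
    Wgt (μ.map (lam mRot12)) A B (-1) := by
  intro σ c L hσ hc hL h
  have h1 := S σ c (cj L) hσ hc (isLor_cj hL) (sim_cj h)
  have hM : ∀ L : Ix → V, Measurable fun p : Mink => σ⁻¹ • lam L p := fun L =>
    (measurable_const_smul σ⁻¹).comp (continuous_lam _).measurable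
  rw [Measure.map_map (hM L) meas_rot]
  have e : ((fun p : Mink => σ⁻¹ • lam L p) ∘ lam mRot12) =
      (lam mRot12) ∘ (fun p : Mink => σ⁻¹ • lam (cj L) p) := by
    funext p
    simp only [Function.comp_apply]
    rw [lam_cj]
    ext n
    simp only [PiLp.smul_apply, smul_eq_mul, lam_rot12_apply]
    ring
  rw [e, ← Measure.map_map meas_rot (hM (cj L)), h1, Measure.map_smul]

lemma fin_rot {μ : Measure Mink} (hfin : IsFiniteMeasureOnCompacts μ) :
    IsFiniteMeasureOnCompacts (μ.map (lam mRot12)) := by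
  refine ⟨fun K hK => ?_⟩
  rw [Measure.map_apply meas_rot hK.measurableSet]
  refine lt_of_le_of_lt (measure_mono ?_) (hK.image (continuous_lam mRot12)).measure_lt_top
  intro p hp
  exact ⟨lam mRot12 p, hp, lam_rot12_rot12 p⟩

lemma cone_rot {p : Mink} (hp : p ∈ fwdCone) : lam mRot12 p ∈ fwdCone := by
  refine ⟨?_, ?_⟩
  · rw [lam_rot12_apply]
    have := hp.1
    simpa [sg12] using this
  · rw [mdot_lam isLor_rot12]
    exact hp.2

/-- **The measure lemma of (N0)**, for general weights. -/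
theorem null_gen {μ : Measure Mink} (hfin : IsFiniteMeasureOnCompacts μ)
    (hcone : ∀ᵐ p ∂μ, p ∈ fwdCone) {r : ℝ} (hr : r = 1 ∨ r = -1) {A B : ℕ} (hAB : A < B + 2)
    (hAB' : 0 < A + B) (S : Wgt μ A B r) : μ = 0 := by
  rcases hr with rfl | rfl
  · have h1 : μ.map (lam mRot12) = 0 := by
      refine wgt_zero (wgt_rot S) (fin_rot hfin) ?_ hAB hAB'
      refine (ae_map_iff meas_rot.aemeasurable isClosed_fwdCone.measurableSet).2 ?_
      filter_upwards [hcone] with p hp using cone_rot hp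
    exact (Measure.map_eq_zero_iff meas_rot.aemeasurable).1 h1
  · exact wgt_zero S hfin hcone hAB hAB'

theorem null_mes {μ : Measure Mink} (hfin : IsFiniteMeasureOnCompacts μ)
    (hcone : ∀ᵐ p ∂μ, p ∈ fwdCone) (r : ℝ) (hr : r = 1 ∨ r = -1)
    (h : ∀ (σ c : ℝ) (L : Ix → V), 0 < σ → 0 < c → GF.IsLor L → sim 1 L 0 (nu r) = c • nu r →
      μ.map (fun p => σ⁻¹ • lam L p) = ENNReal.ofReal (σ ^ 4 * c ^ 4) • μ) : μ = 0 :=
  null_gen hfin hcone hr (by norm_num) (by norm_num) h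

theorem ray_null {μ : Measure Mink} (hfin : IsFiniteMeasureOnCompacts μ)
    (hcone : ∀ᵐ p ∂μ, p ∈ fwdCone)
    (h : ∀ (σ r : ℝ) (L : Ix → V), 0 < σ → 0 < r → GF.IsLor L →
      sim 1 L 0 (nu (-1)) = r • nu (-1) →
      μ.map (fun p => σ⁻¹ • lam L p) = ENNReal.ofReal (σ ^ 6 * r ^ 2) • μ) :
    ∀ᵐ p ∂μ, 0 < mass2 p := by
  have S : Wgt μ 6 2 (-1) := h
  filter_upwards [wgt_ray_null S hfin hcone (by norm_num) (by norm_num)] with p hp using hp.2

end Vale.Agent.P352.H731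

end
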