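import Vale.Agent.P352.H731.CtcDefs
import Vale.Agent.P352.H731.NullMes
import Vale.Agent.P352.H731.Cross
import Vale.Agent.P352.H246.Rc8
import Vale.Agent.P352.H746.Vjm

set_option linter.all false

noncomputable section

open MeasureTheory SchwartzMap Complex Filter Topology
open scoped SchwartzMap ComplexConjugate ENNReal LineDeriv

namespace Vale.Agent.P352.H731

open GF (Ix V Fn Sch ev pd bar sim bas)
open H246 H246R
open H496 (exists_data)
open UniformSpace (Completion)

variable {D : Type*} [NormedAddCommGroup D] [InnerProductSpace ℂ D]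

variable {Q : GF.Theory D} {K : Ix → Ix → Fn → Completion D}

lemma Ctc.exists_clm (h : Ctc Q K) (m n : Ix) :
    ∃ κ : 𝓢(Mink, ℂ) →L[ℂ] Completion D, ∀ f, κ f = K m n (fl f) := by
  have h0 : K m n (fl 0) = 0 := by
    have h2 := h.lin m n (fl 0) (fl 0) 1 (isTest_fl _) (isTest_fl _)
    rw [fl_add_smul] at h2
    simp only [smul_zero, add_zero, one_smul] at h2
    simpa using h2
  refine ⟨⟨⟨⟨fun f => K m n (fl f), fun f g => ?_⟩, fun c g => ?_⟩, ?_⟩, fun f => rfl⟩
  · have h2 := h.lin m n (fl f) (fl g) 1 (isTest_fl _) (isTest_fl _)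
    rw [fl_add_smul] at h2
    simpa only [one_smul] using h2
  · have h2 := h.lin m n (fl 0) (fl g) c (isTest_fl _) (isTest_fl _)
    rw [fl_add_smul, h0, zero_add, zero_add] at h2
    exact h2
  · have h2 : (fun f : 𝓢(Mink, ℂ) => K m n (fl f)) = (fun g => K m n (ev g)) ∘ toSchL := rfl
    show Continuous fun f : 𝓢(Mink, ℂ) => K m n (fl f)
    rw [h2]
    exact (h.cont m n).comp toSchL.continuous

/-- covariance for Schwartz functions on `Mink` -/
lemma Ctc.cov' (h : Ctc Q K) (m n : Ix) {s : ℝ} (hs : 0 < s) {L : Ix → V} (hL : GF.IsLor L) (a : V)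
    (f : 𝓢(Mink, ℂ)) (v : D) : inner ℂ (K m n (fl f)) ((Q.U s L a v : D) : Completion D) =
      ∑ k, ∑ l, (s ^ 2 * L k m * L l n : ℂ) *
        inner ℂ (K k l (fl (simS s hs hL a f))) (v : Completion D) := by
  rw [h.cov m n s L a (fl f) v hs hL (isTest_fl _), fl_sim s hs hL a]

lemma Ctc.anti' (h : Ctc Q K) (m n : Ix) (f : 𝓢(Mink, ℂ)) (v : D) :
    inner ℂ (K m n (fl f)) (v : Completion D) + inner ℂ (K n m (fl f)) (v : Completion D) = 0 := by
  rw [h.anti m n (fl f) (isTest_fl _), inner_neg_left]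
  ring

/-! ### Similitudes as linear maps on test functions -/

/-- `f ↦ f (s L ·)` -/
def simC {s : ℝ} (hs : 0 < s) {L : Ix → V} (hL : GF.IsLor L) : 𝓢(Mink, ℂ) →L[ℂ] 𝓢(Mink, ℂ) :=
  SchwartzMap.compCLMOfContinuousLinearEquiv ℂ (simE hs hL)

lemma simC_apply {s : ℝ} (hs : 0 < s) {L : Ix → V} (hL : GF.IsLor L) (f : 𝓢(Mink, ℂ)) (x : Mink) :
    simC hs hL f x = f (s • lam L x) := rfl

lemma simS_simC {s : ℝ} (hs : 0 < s) {L : Ix → V} (hL : GF.IsLor L) (f : 𝓢(Mink, ℂ)) :
    simS s hs hL 0 f = simC hs hL f := by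
  ext x
  rw [simS_apply, simC_apply]
  congr 1
  ext n
  simp only [sim, Pi.zero_apply, zero_add, PiLp.smul_apply, smul_eq_mul, lam_apply]

lemma mft_simC {s : ℝ} (hs : 0 < s) {L : Ix → V} (hL : GF.IsLor L) (f : 𝓢(Mink, ℂ)) (p : Mink) :
    mft (simC hs hL f) p = ((s ^ 4)⁻¹ : ℝ) * mft f (s⁻¹ • lam L p) := by
  rw [← simS_simC, mft_simS]
  have : (-WithLp.toLp 2 (0 : V) : Mink) = 0 := by ext n; simp
  rw [this, chr_zero', one_mul]

/-- a weak scaling relation gives a bound -/
lemma w_le {κ : 𝓢(Mink, ℂ) →L[ℂ] Completion D} {w s : ℝ} (hw : 0 < w) (hs : 0 < s) {L : Ix → V}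
    (hL : GF.IsLor L) (h : ∀ f (v : D), inner ℂ (κ f) ((Q.U s L 0 v : D) : Completion D) =
      (w : ℂ) * inner ℂ (κ (simC hs hL f)) (v : Completion D)) (f : 𝓢(Mink, ℂ)) :
    w * ‖κ (simC hs hL f)‖ ≤ ‖κ f‖ := by
  rw [← le_div_iff₀' hw]
  apply norm_le_of_inner (by positivity)
  intro z
  have h1 := h f z
  have h2 : ‖(w : ℂ) * inner ℂ (κ (simC hs hL f)) (z : Completion D)‖ ≤ ‖κ f‖ * ‖z‖ := by
    rw [← h1]
    refine (norm_inner_le_norm _ _).trans ?_
    rw [Completion.norm_coe, U_nrm0 hs hL]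
  rw [norm_mul, norm_real, Real.norm_of_nonneg hw.le, norm_inner_symm] at h2
  rw [div_mul_eq_mul_div, le_div_iff₀' hw]
  exact h2

/-- a two sided weak scaling relation gives the covariance of the two point function -/
lemma w_inner {κ : 𝓢(Mink, ℂ) →L[ℂ] Completion D} {w s s' : ℝ} (hw : 0 < w) (hs : 0 < s)
    (hs' : 0 < s') {L L' : Ix → V} (hL : GF.IsLor L) (hL' : GF.IsLor L')
    (h : ∀ f (v : D), inner ℂ (κ f) ((Q.U s L 0 v : D) : Completion D) =
      (w : ℂ) * inner ℂ (κ (simC hs hL f)) (v : Completion D))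
    (h' : ∀ f (v : D), inner ℂ (κ f) ((Q.U s' L' 0 v : D) : Completion D) =
      (w⁻¹ : ℝ) * inner ℂ (κ (simC hs' hL' f)) (v : Completion D))
    (hinv : ∀ f, simC hs' hL' (simC hs hL f) = f) (f g : 𝓢(Mink, ℂ)) :
    inner ℂ (κ f) (κ g) = ((w ^ 2 : ℝ) : ℂ) * inner ℂ (κ (simC hs hL f)) (κ (simC hs hL g)) := by
  set B : 𝓢(Mink, ℂ) →ₗ[ℂ] Completion D :=
    (w : ℂ) • ((κ : 𝓢(Mink, ℂ) →ₗ[ℂ] Completion D) ∘ₗ
      ((simC hs hL : 𝓢(Mink, ℂ) →L[ℂ] 𝓢(Mink, ℂ)) : 𝓢(Mink, ℂ) →ₗ[ℂ] 𝓢(Mink, ℂ))) with hB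
  have hn : ∀ f, ‖B f‖ = ‖κ f‖ := by
    intro f
    show ‖(w : ℂ) • κ (simC hs hL f)‖ = ‖κ f‖
    rw [norm_smul, norm_real, Real.norm_of_nonneg hw.le]
    apply le_antisymm
    · exact w_le hw hs hL h f
    · have h1 := w_le (inv_pos.2 hw) hs' hL' h' (simC hs hL f)
      rw [hinv, inv_mul_le_iff₀ hw] at h1
      exact h1
  have := inner_of_norm B (κ : 𝓢(Mink, ℂ) →ₗ[ℂ] Completion D) hn f g
  have h2 : inner ℂ (κ f) (κ g) = inner ℂ (B f) (B g) := this.symm
  rw [h2]
  show inner ℂ ((w : ℂ) • κ (simC hs hL f)) ((w : ℂ) • κ (simC hs hL g)) = _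
  rw [inner_smul_left, inner_smul_right, conj_ofReal]
  push_cast
  ring

/-- covariance of the spectral measure -/
lemma w_measure {κ : 𝓢(Mink, ℂ) →L[ℂ] Completion D} {ν : 𝓢(Mink, ℂ) → Measure Mink}
    (S : SpecData (fun g => κ g) ν) {μ : Measure Mink} (hμ : ∀ g, ν g = μ.withDensity (dens g))
    {w s : ℝ} (hw : 0 < w) (hs : 0 < s) {L : Ix → V} (hL : GF.IsLor L)
    (h : ∀ f g, inner ℂ (κ f) (κ g) =
      ((w ^ 2 : ℝ) : ℂ) * inner ℂ (κ (simC hs hL f)) (κ (simC hs hL g))) :
    μ.map (fun p => s⁻¹ • lam L p) = ENNReal.ofReal (s ^ 8 / w ^ 2) • μ := by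
  have h1 := S.inv_measure hμ (fun p => s⁻¹ • lam L p) (measurable_M s L) (w ^ 2) ((s ^ 4)⁻¹)
    (by positivity) (fun g => simC hs hL g) (fun a => (simE hs hL).symm a)
    (fun g a => by
      ext x
      rw [simC_apply, tauS_apply, tauS_apply, simC_apply]
      congr 1
      have e : s • lam L (x - (simE hs hL).symm a) =
          simE hs hL (x - (simE hs hL).symm a) := rfl
      rw [e, map_sub, ContinuousLinearEquiv.apply_symm_apply]
      rfl)
    h (fun g p => by rw [mft_simC])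
    (fun a p => by
      rw [chr, chr]
      have e : mdot p ((simE hs hL).symm a) = mdot (s⁻¹ • lam L p) a := by
        obtain ⟨b, rfl⟩ := (simE hs hL).surjective a
        rw [ContinuousLinearEquiv.symm_apply_apply, simE_apply, mdot_smul_left, mdot_smul_right,
          mdot_lam hL, ← mul_assoc, inv_mul_cancel₀ hs.ne', one_mul]
      rw [e])
  set M := μ.map (fun p => s⁻¹ • lam L p) with hM
  rw [h1, smul_smul, ← ENNReal.ofReal_mul (by positivity)]
  have e : s ^ 8 / w ^ 2 * (w ^ 2 * ((s ^ 4)⁻¹) ^ 2) = 1 := by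
    field_simp
  rw [e, ENNReal.ofReal_one, one_smul]

/-! ### The component `K^{02} + K^{12}` -/

section

variable (h : Ctc Q K) {κ : 𝓢(Mink, ℂ) →L[ℂ] Completion D}
  (hκ : ∀ f, κ f = K 0 2 (fl f) + K 1 2 (fl f))
include h hκ

lemma k0_cov {s : ℝ} (hs : 0 < s) {L : Ix → V} (hL : GF.IsLor L) (w : ℝ)
    (hw : ∀ g (v : D), ∑ k, ∑ l, (s ^ 2 * (L k 0 + L k 1) * L l 2 : ℂ) *
      inner ℂ (K k l (fl g)) (v : Completion D) = (w : ℂ) * inner ℂ (κ g) (v : Completion D))
    (f : 𝓢(Mink, ℂ)) (v : D) : inner ℂ (κ f) ((Q.U s L 0 v : D) : Completion D) =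
      (w : ℂ) * inner ℂ (κ (simC hs hL f)) (v : Completion D) := by
  rw [hκ f, inner_add_left, h.cov' 0 2 hs hL, h.cov' 1 2 hs hL, ← hw, ← simS_simC,
    ← Finset.sum_add_distrib]
  refine Finset.sum_congr rfl fun k _ => ?_
  rw [← Finset.sum_add_distrib]
  refine Finset.sum_congr rfl fun l _ => ?_
  ring

lemma k0_null2 (b : ℝ) (f : 𝓢(Mink, ℂ)) (v : D) :
    inner ℂ (κ f) ((Q.U 1 (mNull b) 0 v : D) : Completion D) =
      ((1 : ℝ) : ℂ) * inner ℂ (κ (simC one_pos (isLor_null b) f)) (v : Completion D) := by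
  refine k0_cov h hκ one_pos (isLor_null b) 1 (fun g v => ?_) f v
  have a00 := h.anti' 0 0 g v
  have a01 := h.anti' 0 1 g v
  have a11 := h.anti' 1 1 g v
  rw [hκ g, inner_add_left]
  simp [Fin.sum_univ_four, mNull]
  linear_combination ((b : ℂ) / 2) * a00 + (b : ℂ) * a01 + ((b : ℂ) / 2) * a11

lemma k0_null3 (b : ℝ) (f : 𝓢(Mink, ℂ)) (v : D) :
    inner ℂ (κ f) ((Q.U 1 (mNull' b) 0 v : D) : Completion D) =
      ((1 : ℝ) : ℂ) * inner ℂ (κ (simC one_pos (isLor_null' b) f)) (v : Completion D) := by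
  refine k0_cov h hκ one_pos (isLor_null' b) 1 (fun g v => ?_) f v
  rw [hκ g, inner_add_left]
  simp [Fin.sum_univ_four, mNull']

lemma k0_boost {s : ℝ} (hs : 0 < s) (t : ℝ) (f : 𝓢(Mink, ℂ)) (v : D) :
    inner ℂ (κ f) ((Q.U s (mBoost t) 0 v : D) : Completion D) =
      ((s ^ 2 * Real.exp t : ℝ) : ℂ) *
        inner ℂ (κ (simC hs (isLor_boost t) f)) (v : Completion D) := by
  refine k0_cov h hκ hs (isLor_boost t) _ (fun g v => ?_) f v
  have e : ((Real.cosh t : ℝ) : ℂ) + ((Real.sinh t : ℝ) : ℂ) = ((Real.exp t : ℝ) : ℂ) := by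
    rw [← Real.cosh_add_sinh]; push_cast; rfl
  rw [hκ g, inner_add_left]
  simp only [Fin.sum_univ_four, mBoost]
  simp
  ring

/-- translation covariance -/
lemma k0_tau (g : 𝓢(Mink, ℂ)) (a : Mink) (z : D) :
    inner ℂ ((U1 Q a z : D) : Completion D) (κ (tauS a g)) =
      inner ℂ (z : Completion D) (κ g) := by
  have key : ∀ m n, inner ℂ (K m n (fl (tauS a g))) ((U1 Q a z : D) : Completion D) =
      inner ℂ (K m n (fl g)) (z : Completion D) := by
    intro m n
    have h1 := h.cov' m n one_pos isLor_one a.ofLp (tauS a g) z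
    rw [simS_tauS] at h1
    have e : U1 Q a z = Q.U 1 GF.one a.ofLp z := rfl
    rw [e, h1, Finset.sum_eq_single m, Finset.sum_eq_single n]
    · simp [GF.one, bas]
    · intro l _ hl
      simp [GF.one, bas, hl.symm]
    · intro hn
      exact absurd (Finset.mem_univ n) hn
    · intro k _ hk
      refine Finset.sum_eq_zero fun l _ => ?_
      simp [GF.one, bas, hk.symm]
    · intro hm
      exact absurd (Finset.mem_univ m) hm
  rw [← inner_conj_symm, ← inner_conj_symm (z : Completion D), hκ, hκ, inner_add_left,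
    inner_add_left, key, key]

/-- the spectral measure of the component has no mass on the open cone -/
theorem k0_zero (f : 𝓢(Mink, ℂ)) (hf : PC (mftS f)) : κ f = 0 := by
  obtain ⟨ν, S⟩ := exists_data κ (k0_tau h hκ)
  obtain ⟨μ, hcone, hμ⟩ := S.exists_KL
  obtain ⟨C, m, hC, hb⟩ := H746.exists_ball_bound κ S hμ
  have ht := H746.temp_of_ball hC hb
  have hfin := H746.fin_compact hb
  have two : ∀ f g, inner ℂ (κ f) (κ g) = ∫ p, conj (mft f p) * mft g p ∂μ :=
    SpecData.two (κ := (κ : 𝓢(Mink, ℂ) →ₗ[ℂ] Completion D)) S ht hμ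
  -- the covariance
  have W : Wk μ 4 2 := by
    refine ⟨fun b => ?_, fun b => ?_, fun σ t hσ => ?_⟩
    · have h1 := w_measure S hμ one_pos one_pos (isLor_null b)
        (w_inner one_pos one_pos one_pos (isLor_null b) (isLor_null (-b)) (k0_null2 h hκ b)
          (fun f v => by rw [inv_one]; exact k0_null2 h hκ (-b) f v) (fun f => by
            ext x
            rw [simC_apply, simC_apply, one_smul, one_smul]
            congr 1
            apply mink_ext <;> simp [Fin.sum_univ_four, mNull] <;> ring))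
      simp only [inv_one, one_smul, one_pow, div_one, ENNReal.ofReal_one] at h1
      exact h1
    · have h1 := w_measure S hμ one_pos one_pos (isLor_null' b)
        (w_inner one_pos one_pos one_pos (isLor_null' b) (isLor_null' (-b)) (k0_null3 h hκ b)
          (fun f v => by rw [inv_one]; exact k0_null3 h hκ (-b) f v) (fun f => by
            ext x
            rw [simC_apply, simC_apply, one_smul, one_smul]
            congr 1
            apply mink_ext <;> simp [Fin.sum_univ_four, mNull'] <;> ring))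
      simp only [inv_one, one_smul, one_pow, div_one, ENNReal.ofReal_one] at h1
      exact h1
    · have hw : 0 < σ ^ 2 * Real.exp t := by positivity
      have h1 := w_measure S hμ hw hσ (isLor_boost t)
        (w_inner hw hσ (inv_pos.2 hσ) (isLor_boost t) (isLor_boost (-t)) (k0_boost h hκ hσ t)
          (fun f v => by
            have h2 := k0_boost h hκ (inv_pos.2 hσ) (-t) f v
            have e : (σ ^ 2 * Real.exp t)⁻¹ = σ⁻¹ ^ 2 * Real.exp (-t) := by
              rw [Real.exp_neg, mul_inv, inv_pow]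
            rw [e]
            exact h2)
          (fun f => by
            ext x
            rw [simC_apply, simC_apply]
            congr 1
            have hc := Real.cosh_sq t
            have hsig : σ * σ⁻¹ = 1 := mul_inv_cancel₀ hσ.ne'
            apply mink_ext
            · simp [Fin.sum_univ_four, mBoost]
              field_simp
              linear_combination (x 0) * hc
            · simp [Fin.sum_univ_four, mBoost]
              field_simp
              linear_combination (x 1) * hc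
            · simp [Fin.sum_univ_four, mBoost]
              field_simp
            · simp [Fin.sum_univ_four, mBoost]
              field_simp))
      rw [h1]
      congr 2
      rw [Real.exp_neg]
      field_simp
  have hpos := W.pos hfin (by norm_num)
  have h0 : ∀ᵐ p ∂μ, mft f p = 0 := by
    have h1 : ∀ᵐ p ∂μ, ¬ (0 < p 0 + p 1 ∧ 0 < mass2 p) := by
      rw [ae_iff]
      simpa using hpos
    filter_upwards [h1] with p hp
    by_contra hne
    apply hp
    have : p ∈ tsupport (mftS f) := subset_tsupport _ (by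
      rw [Function.mem_support, mftS_apply]; exact hne)
    exact hf.2 this
  have h1 : inner ℂ (κ f) (κ f) = (0 : ℂ) := by
    rw [two, ← integral_zero Mink ℂ (μ := μ)]
    apply integral_congr_ae
    filter_upwards [h0] with p hp
    rw [hp, mul_zero]
  exact inner_self_eq_zero.1 h1

end

/-! ### All components -/

section

variable {T : Ix → Ix → GF.Fld D} {J : Ix → GF.Fld D}

/-- the combination of components with coefficients `c` is orthogonal to the vectors `J Ω` with
spectral support in the open cone -/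
def Ort (Q : GF.Theory D) (K : Ix → Ix → Fn → Completion D) (J : Ix → GF.Fld D)
    (c : Ix → Ix → ℂ) : Prop :=
  ∀ (f g : 𝓢(Mink, ℂ)) (i : Ix), PC (mftS g) → ∑ m, ∑ n, c m n *
    inner ℂ (K m n (fl f)) ((J i (fl g) Q.vac : D) : Completion D) = 0

lemma sum_swap (c' : Ix → Ix → ℂ) (L : Ix → V) (A : Ix → Ix → ℂ) :
    ∑ m, ∑ n, c' m n * ∑ k, ∑ l, (L k m * L l n : ℂ) * A k l =
      ∑ k, ∑ l, (∑ m, ∑ n, c' m n * (L k m * L l n : ℂ)) * A k l := by
  simp only [Finset.mul_sum, Finset.sum_mul]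
  calc ∑ m, ∑ n, ∑ k, ∑ l, c' m n * ((L k m * L l n : ℂ) * A k l)
      = ∑ m, ∑ k, ∑ n, ∑ l, c' m n * ((L k m * L l n : ℂ) * A k l) :=
        Finset.sum_congr rfl fun m _ => Finset.sum_comm
    _ = ∑ k, ∑ m, ∑ n, ∑ l, c' m n * ((L k m * L l n : ℂ) * A k l) := Finset.sum_comm
    _ = ∑ k, ∑ m, ∑ l, ∑ n, c' m n * ((L k m * L l n : ℂ) * A k l) :=
        Finset.sum_congr rfl fun k _ => Finset.sum_congr rfl fun m _ => Finset.sum_comm
    _ = ∑ k, ∑ l, ∑ m, ∑ n, c' m n * ((L k m * L l n : ℂ) * A k l) :=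
        Finset.sum_congr rfl fun k _ => Finset.sum_comm
    _ = _ := by
        refine Finset.sum_congr rfl fun k _ => Finset.sum_congr rfl fun l _ =>
          Finset.sum_congr rfl fun m _ => Finset.sum_congr rfl fun n _ => ?_
        ring

lemma sum_swap' (c' : Ix → Ix → ℂ) (b : Ix → ℂ) (X : Ix → Ix → Ix → ℂ) :
    ∑ m, ∑ n, c' m n * ∑ j, b j * X j m n = ∑ j, b j * ∑ m, ∑ n, c' m n * X j m n := by
  simp only [Finset.mul_sum]
  calc ∑ m, ∑ n, ∑ j, c' m n * (b j * X j m n)
      = ∑ m, ∑ j, ∑ n, c' m n * (b j * X j m n) :=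
        Finset.sum_congr rfl fun m _ => Finset.sum_comm
    _ = ∑ j, ∑ m, ∑ n, c' m n * (b j * X j m n) := Finset.sum_comm
    _ = _ := by
        refine Finset.sum_congr rfl fun j _ => Finset.sum_congr rfl fun m _ =>
          Finset.sum_congr rfl fun n _ => ?_
        ring

variable (h : Ctc Q K) (hJ : IsVirial Q T J)
include h hJ

lemma ort_base : Ort Q K J fun m n => if n = 2 then (if m = 0 ∨ m = 1 then 1 else 0) else 0 := by
  intro f g i hg
  obtain ⟨κ1, h1⟩ := h.exists_clm 0 2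
  obtain ⟨κ2, h2⟩ := h.exists_clm 1 2
  have hκ : ∀ f, (κ1 + κ2) f = K 0 2 (fl f) + K 1 2 (fl f) := by
    intro f
    rw [ContinuousLinearMap.add_apply, h1, h2]
  have h3 := cross (k0_tau h hκ) (k0_zero h hκ) (Q.bose_fld _ (hJ.bose i)) g hg f
  rw [hκ, inner_add_left] at h3
  simp only [Fin.sum_univ_four]
  simpa using h3

lemma ort_lor {L : Ix → V} (hL : GF.IsLor L) (hpos : ∀ p ∈ Vp, lam (linv L) p ∈ Vp)
    {c c' : Ix → Ix → ℂ} (hc : Ort Q K J c)
    (hcc : ∀ k l, ∑ m, ∑ n, c' m n * (L k m * L l n : ℂ) = c k l) : Ort Q K J c' := by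
  intro f g i hg
  have hz : J i (fl g) Q.vac =
      ∑ j, (L j i : ℂ) • Q.U 1 L 0 (J j (fl (simS 1 one_pos hL 0 g)) Q.vac) := by
    have h1 := hJ.cov i 1 L 0 (fl g) Q.vac one_pos hL (isTest_fl _)
    rw [Q.U_vac 1 L 0 one_pos hL, fl_sim 1 one_pos hL 0] at h1
    rw [h1]
    refine Finset.sum_congr rfl fun j _ => ?_
    rw [ofReal_one, one_mul]
  have hg' := PC_sim hg hL hpos
  have h1 : ∀ m n, inner ℂ (K m n (fl f)) ((J i (fl g) Q.vac : D) : Completion D) =
      ∑ j, (L j i : ℂ) * ∑ k, ∑ l, (L k m * L l n : ℂ) *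
        inner ℂ (K k l (fl (simS 1 one_pos hL 0 f)))
          ((J j (fl (simS 1 one_pos hL 0 g)) Q.vac : D) : Completion D) := by
    intro m n
    have h2 := map_sum (Completion.toComplL (𝕜 := ℂ) (E := D))
      (fun j => (L j i : ℂ) • Q.U 1 L 0 (J j (fl (simS 1 one_pos hL 0 g)) Q.vac)) Finset.univ
    have h3 : ((J i (fl g) Q.vac : D) : Completion D) = ∑ j, (L j i : ℂ) •
        ((Q.U 1 L 0 (J j (fl (simS 1 one_pos hL 0 g)) Q.vac) : D) : Completion D) := by
      rw [hz]
      refine h2.trans (Finset.sum_congr rfl fun j _ => ?_)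
      exact Completion.coe_smul _ _
    rw [h3, inner_sum]
    refine Finset.sum_congr rfl fun j _ => ?_
    rw [inner_smul_right, h.cov' m n one_pos hL]
    simp only [ofReal_one, one_pow, one_mul]
  simp only [h1]
  rw [sum_swap']
  refine Finset.sum_eq_zero fun j _ => ?_
  rw [sum_swap]
  simp only [hcc]
  rw [hc _ _ j hg', mul_zero]

omit h hJ in
lemma Vp_of {L : Ix → V} (hL : GF.IsLor L) (h0 : ∀ p : Mink, lam (linv L) p 0 = p 0) :
    ∀ p ∈ Vp, lam (linv L) p ∈ Vp := by
  intro p hp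
  rw [Vp_iff] at hp ⊢
  refine ⟨by rw [h0]; exact hp.1, ?_⟩
  have e : mass2 (lam (linv L) p) = mass2 p := mdot_lam (isLor_linv hL) p p
  rw [e]
  exact hp.2

/-- one component -/
def sg (m n : Ix) : Ix → Ix → ℂ := fun k l => if k = m ∧ l = n then 1 else 0

omit h hJ in
lemma ort_sg {m n : Ix} (ho : Ort Q K J (sg m n)) (f g : 𝓢(Mink, ℂ)) (i : Ix)
    (hg : PC (mftS g)) :
    inner ℂ (K m n (fl f)) ((J i (fl g) Q.vac : D) : Completion D) = 0 := by
  have h1 := ho f g i hg
  rw [Finset.sum_eq_single m, Finset.sum_eq_single n] at h1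
  · simpa [sg] using h1
  · intro l _ hl
    simp [sg, hl]
  · intro hn
    exact absurd (Finset.mem_univ n) hn
  · intro k _ hk
    refine Finset.sum_eq_zero fun l _ => ?_
    simp [sg, hk]
  · intro hm
    exact absurd (Finset.mem_univ m) hm

lemma ort_12_02 : Ort Q K J (sg 1 2) ∧ Ort Q K J (sg 0 2) := by
  have h1 := ort_base h hJ
  have h2 : Ort Q K J fun m n => if n = 2 then (if m = 0 then -1 else if m = 1 then 1 else 0)
      else 0 := by
    refine ort_lor h hJ isLor_rot12 Vp_rot12 h1 fun k l => ?_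
    fin_cases k <;> fin_cases l <;> simp [mRot12, Fin.sum_univ_four]
  constructor
  · intro f g i hg
    have a := h1 f g i hg
    have b := h2 f g i hg
    simp [Fin.sum_univ_four] at a b
    simp [sg, Fin.sum_univ_four]
    linear_combination (1 / 2 : ℂ) * a + (1 / 2 : ℂ) * b
  · intro f g i hg
    have a := h1 f g i hg
    have b := h2 f g i hg
    simp [Fin.sum_univ_four] at a b
    simp [sg, Fin.sum_univ_four]
    linear_combination (1 / 2 : ℂ) * a - (1 / 2 : ℂ) * b

lemma ort_cyc {m n m' n' : Ix} (ho : Ort Q K J (sg m n))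
    (hcc : ∀ k l, ∑ a, ∑ b, sg m' n' a b * (mCyc k a * mCyc l b : ℂ) = sg m n k l) :
    Ort Q K J (sg m' n') := by
  refine ort_lor h hJ isLor_cyc (Vp_of isLor_cyc fun p => ?_) ho hcc
  simp [lam_apply, linv, Fin.sum_univ_four, mCyc, GF.eta, GF.o]

/-- **Contact terms are invisible on the open cone.** -/
theorem ctc_fl (m n k : Ix) (f g : 𝓢(Mink, ℂ)) (hg : PC (mftS g)) :
    inner ℂ (K m n (fl f)) ((J k (fl g) Q.vac : D) : Completion D) = 0 := by
  obtain ⟨h12, h02⟩ := ort_12_02 h hJ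
  have h03 : Ort Q K J (sg 0 3) := ort_cyc h hJ h02 fun k l => by
    fin_cases k <;> fin_cases l <;> simp [sg, mCyc, Fin.sum_univ_four]
  have h01 : Ort Q K J (sg 0 1) := ort_cyc h hJ h03 fun k l => by
    fin_cases k <;> fin_cases l <;> simp [sg, mCyc, Fin.sum_univ_four]
  have h23 : Ort Q K J (sg 2 3) := ort_cyc h hJ h12 fun k l => by
    fin_cases k <;> fin_cases l <;> simp [sg, mCyc, Fin.sum_univ_four]
  have h31 : Ort Q K J (sg 3 1) := ort_cyc h hJ h23 fun k l => by
    fin_cases k <;> fin_cases l <;> simp [sg, mCyc, Fin.sum_univ_four]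
  have hz : ∀ {m n}, Ort Q K J (sg m n) →
      inner ℂ (K m n (fl f)) ((J k (fl g) Q.vac : D) : Completion D) = 0 :=
    fun ho => ort_sg ho f g k hg
  have hd : ∀ m, inner ℂ (K m m (fl f)) ((J k (fl g) Q.vac : D) : Completion D) = 0 := by
    intro m
    have := h.anti' m m f (J k (fl g) Q.vac)
    linear_combination (1 / 2 : ℂ) * this
  have hr : ∀ {m n}, inner ℂ (K n m (fl f)) ((J k (fl g) Q.vac : D) : Completion D) = 0 →
      inner ℂ (K m n (fl f)) ((J k (fl g) Q.vac : D) : Completion D) = 0 := by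
    intro m n h0
    have := h.anti' m n f (J k (fl g) Q.vac)
    rw [h0, add_zero] at this
    exact this
  fin_cases m <;> fin_cases n
  · exact hd 0
  · exact hz h01
  · exact hz h02
  · exact hz h03
  · exact hr (hz h01)
  · exact hd 1
  · exact hz h12
  · exact hr (hz h31)
  · exact hr (hz h02)
  · exact hr (hz h12)
  · exact hd 2
  · exact hz h23
  · exact hr (hz h03)
  · exact hz h31
  · exact hr (hz h23)
  · exact hd 3

theorem ctc_zero (k : Ix) (g : 𝓢(Mink, ℂ)) (hg : PC (mftS g)) (m n : Ix) (f : Fn)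
    (hf : GF.IsTest f) :
    inner ℂ (K m n f) ((J k (fl g) Q.vac : D) : Completion D) = 0 := by
  obtain ⟨F, rfl⟩ := exists_fl hf
  exact ctc_fl h hJ m n k F g hg

end

end Vale.Agent.P352.H731

end
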