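import Vale.Agent.P352.H731.Ct0Defs
import Vale.Agent.P352.H731.Ctc

set_option linter.all false

noncomputable section

open MeasureTheory SchwartzMap Complex Filter Topology
open scoped SchwartzMap ComplexConjugate ENNReal LineDeriv

namespace Vale.Agent.P352.H731

open GF (Ix V Fn Sch ev pd bar sim bas)
open H246 H246R
open H496 (exists_data)
open UniformSpace (Completion)

variable {D : Type*} [NormedAddCommGroup D] [InnerProductSpace ℂ D]
variable {Q : GF.Theory D} {K : Ix → Ix → Fn → Completion D}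

lemma Ct0.exists_clm (h : Ct0 Q K) (m n : Ix) :
    ∃ κ : 𝓢(Mink, ℂ) →L[ℂ] Completion D, ∀ f, κ f = K m n (fl f) := by
  have h0 : K m n (fl 0) = 0 := by
    have h2 := h.lin m n (fl 0) (fl 0) 1 (isTest_fl _) (isTest_fl _)
    rw [fl_add_smul] at h2
    simp only [smul_zero, add_zero, one_smul] at h2
    simpa using h2
  refine ⟨⟨⟨⟨fun f => K m n (fl f), fun f g => ?_⟩, fun c g => ?_⟩, ?_⟩, fun f => rfl⟩
  · have h2 := h.lin m n (fl f) (fl g) 1 (isTest_fl _) (isTest_fl _)
    rw [fl_add_smul] at h2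
    simpa only [one_smul] using h2
  · have h2 := h.lin m n (fl 0) (fl g) c (isTest_fl _) (isTest_fl _)
    rw [fl_add_smul, h0, zero_add, zero_add] at h2
    exact h2
  · have h2 : (fun f : 𝓢(Mink, ℂ) => K m n (fl f)) = (fun g => K m n (ev g)) ∘ toSchL := rfl
    show Continuous fun f : 𝓢(Mink, ℂ) => K m n (fl f)
    rw [h2]
    exact (h.cont m n).comp toSchL.continuous

lemma Ct0.cov' (h : Ct0 Q K) (m n : Ix) {s : ℝ} (hs : 0 < s) {L : Ix → V} (hL : GF.IsLor L) (a : V)
    (f : 𝓢(Mink, ℂ)) (v : D) : inner ℂ (K m n (fl f)) ((Q.U s L a v : D) : Completion D) =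
      ∑ k, ∑ l, (s ^ 2 * L k m * L l n : ℂ) *
        inner ℂ (K k l (fl (simS s hs hL a f))) (v : Completion D) := by
  rw [h.cov m n s L a (fl f) v hs hL (isTest_fl _), fl_sim s hs hL a]

lemma Ct0.tau (h : Ct0 Q K) (m n : Ix) (g : 𝓢(Mink, ℂ)) (a : Mink) (z : D) :
    inner ℂ (K m n (fl (tauS a g))) ((U1 Q a z : D) : Completion D) =
      inner ℂ (K m n (fl g)) (z : Completion D) := by
  have h1 := h.cov' m n one_pos isLor_one a.ofLp (tauS a g) z
  rw [simS_tauS] at h1
  have e : U1 Q a z = Q.U 1 GF.one a.ofLp z := rfl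
  rw [e, h1, Finset.sum_eq_single m, Finset.sum_eq_single n]
  · simp [GF.one, bas]
  · intro l _ hl
    simp [GF.one, bas, hl.symm]
  · intro hn
    exact absurd (Finset.mem_univ n) hn
  · intro k _ hk
    refine Finset.sum_eq_zero fun l _ => ?_
    simp [GF.one, bas, hk.symm]
  · intro hm
    exact absurd (Finset.mem_univ m) hm

/-! ### The component `K(a, a)` for the null vector `a` -/

section

variable (h : Ct0 Q K) {κ : 𝓢(Mink, ℂ) →L[ℂ] Completion D}
  (hκ : ∀ f, κ f = K 0 0 (fl f) + K 0 1 (fl f) + K 1 0 (fl f) + K 1 1 (fl f))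
include h hκ

lemma a_cov {s : ℝ} (hs : 0 < s) {L : Ix → V} (hL : GF.IsLor L) (w : ℝ)
    (hw : ∀ g (v : D), ∑ k, ∑ l, (s ^ 2 * (L k 0 + L k 1) * (L l 0 + L l 1) : ℂ) *
      inner ℂ (K k l (fl g)) (v : Completion D) = (w : ℂ) * inner ℂ (κ g) (v : Completion D))
    (f : 𝓢(Mink, ℂ)) (v : D) : inner ℂ (κ f) ((Q.U s L 0 v : D) : Completion D) =
      (w : ℂ) * inner ℂ (κ (simC hs hL f)) (v : Completion D) := by
  rw [hκ f, inner_add_left, inner_add_left, inner_add_left, h.cov' 0 0 hs hL, h.cov' 0 1 hs hL,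
    h.cov' 1 0 hs hL, h.cov' 1 1 hs hL, ← hw, ← simS_simC, ← Finset.sum_add_distrib,
    ← Finset.sum_add_distrib, ← Finset.sum_add_distrib]
  refine Finset.sum_congr rfl fun k _ => ?_
  rw [← Finset.sum_add_distrib, ← Finset.sum_add_distrib, ← Finset.sum_add_distrib]
  refine Finset.sum_congr rfl fun l _ => ?_
  ring

lemma a_null2 (b : ℝ) (f : 𝓢(Mink, ℂ)) (v : D) :
    inner ℂ (κ f) ((Q.U 1 (mNull b) 0 v : D) : Completion D) =
      ((1 : ℝ) : ℂ) * inner ℂ (κ (simC one_pos (isLor_null b) f)) (v : Completion D) := by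
  refine a_cov h hκ one_pos (isLor_null b) 1 (fun g v => ?_) f v
  rw [hκ g, inner_add_left, inner_add_left, inner_add_left]
  simp [Fin.sum_univ_four, mNull]
  ring

lemma a_null3 (b : ℝ) (f : 𝓢(Mink, ℂ)) (v : D) :
    inner ℂ (κ f) ((Q.U 1 (mNull' b) 0 v : D) : Completion D) =
      ((1 : ℝ) : ℂ) * inner ℂ (κ (simC one_pos (isLor_null' b) f)) (v : Completion D) := by
  refine a_cov h hκ one_pos (isLor_null' b) 1 (fun g v => ?_) f v
  rw [hκ g, inner_add_left, inner_add_left, inner_add_left]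
  simp [Fin.sum_univ_four, mNull']
  ring

lemma a_boost {s : ℝ} (hs : 0 < s) (t : ℝ) (f : 𝓢(Mink, ℂ)) (v : D) :
    inner ℂ (κ f) ((Q.U s (mBoost t) 0 v : D) : Completion D) =
      ((s ^ 2 * Real.exp t ^ 2 : ℝ) : ℂ) *
        inner ℂ (κ (simC hs (isLor_boost t) f)) (v : Completion D) := by
  refine a_cov h hκ hs (isLor_boost t) _ (fun g v => ?_) f v
  rw [hκ g, inner_add_left, inner_add_left, inner_add_left]
  simp only [Fin.sum_univ_four, mBoost]
  simp
  ring

lemma a_tau (g : 𝓢(Mink, ℂ)) (a : Mink) (z : D) :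
    inner ℂ ((U1 Q a z : D) : Completion D) (κ (tauS a g)) =
      inner ℂ (z : Completion D) (κ g) := by
  rw [← inner_conj_symm, ← inner_conj_symm (z : Completion D), hκ, hκ]
  simp only [inner_add_left, h.tau]

/-- the spectral measure of the component vanishes -/
theorem a_zero (f : 𝓢(Mink, ℂ)) : κ f = 0 := by
  obtain ⟨ν, S⟩ := exists_data κ (a_tau h hκ)
  obtain ⟨μ, hcone, hμ⟩ := S.exists_KL
  obtain ⟨C, m, hC, hb⟩ := H746.exists_ball_bound κ S hμ
  have ht := H746.temp_of_ball hC hb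
  have hfin := H746.fin_compact hb
  have two : ∀ f g, inner ℂ (κ f) (κ g) = ∫ p, conj (mft f p) * mft g p ∂μ :=
    SpecData.two (κ := (κ : 𝓢(Mink, ℂ) →ₗ[ℂ] Completion D)) S ht hμ
  have W : Wk μ 4 4 := by
    refine ⟨fun b => ?_, fun b => ?_, fun σ t hσ => ?_⟩
    · have h1 := w_measure S hμ one_pos one_pos (isLor_null b)
        (w_inner one_pos one_pos one_pos (isLor_null b) (isLor_null (-b)) (a_null2 h hκ b)
          (fun f v => by rw [inv_one]; exact a_null2 h hκ (-b) f v) (fun f => by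
            ext x
            rw [simC_apply, simC_apply, one_smul, one_smul]
            congr 1
            apply mink_ext <;> simp [Fin.sum_univ_four, mNull] <;> ring))
      simp only [inv_one, one_smul, one_pow, div_one, ENNReal.ofReal_one] at h1
      exact h1
    · have h1 := w_measure S hμ one_pos one_pos (isLor_null' b)
        (w_inner one_pos one_pos one_pos (isLor_null' b) (isLor_null' (-b)) (a_null3 h hκ b)
          (fun f v => by rw [inv_one]; exact a_null3 h hκ (-b) f v) (fun f => by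
            ext x
            rw [simC_apply, simC_apply, one_smul, one_smul]
            congr 1
            apply mink_ext <;> simp [Fin.sum_univ_four, mNull'] <;> ring))
      simp only [inv_one, one_smul, one_pow, div_one, ENNReal.ofReal_one] at h1
      exact h1
    · have hw : 0 < σ ^ 2 * Real.exp t ^ 2 := by positivity
      have h1 := w_measure S hμ hw hσ (isLor_boost t)
        (w_inner hw hσ (inv_pos.2 hσ) (isLor_boost t) (isLor_boost (-t)) (a_boost h hκ hσ t)
          (fun f v => by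
            have h2 := a_boost h hκ (inv_pos.2 hσ) (-t) f v
            have e : (σ ^ 2 * Real.exp t ^ 2)⁻¹ = σ⁻¹ ^ 2 * Real.exp (-t) ^ 2 := by
              rw [Real.exp_neg, mul_inv, inv_pow, inv_pow]
            rw [e]
            exact h2)
          (fun f => by
            ext x
            rw [simC_apply, simC_apply]
            congr 1
            have hc := Real.cosh_sq t
            have hsig : σ * σ⁻¹ = 1 := mul_inv_cancel₀ hσ.ne'
            apply mink_ext
            · simp [Fin.sum_univ_four, mBoost]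
              field_simp
              linear_combination (x 0) * hc
            · simp [Fin.sum_univ_four, mBoost]
              field_simp
              linear_combination (x 1) * hc
            · simp [Fin.sum_univ_four, mBoost]
              field_simp
            · simp [Fin.sum_univ_four, mBoost]
              field_simp))
      rw [h1]
      congr 2
      rw [Real.exp_neg]
      field_simp
  have hz : μ = 0 := W.zero hfin (by rw [ae_iff]; exact hcone) (by norm_num) (by norm_num)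
  have h1 : inner ℂ (κ f) (κ f) = (0 : ℂ) := by
    rw [two, hz, integral_zero_measure]
  exact inner_self_eq_zero.1 h1

end

/-! ### The symmetric part -/

/-- vanishing of a combination of components -/
def Zr (K : Ix → Ix → Fn → Completion D) (c : Ix → Ix → ℂ) : Prop :=
  ∀ (f : 𝓢(Mink, ℂ)) (v : D), ∑ m, ∑ n, c m n * inner ℂ (K m n (fl f)) (v : Completion D) = 0

section

variable (h : Ct0 Q K)
include h

lemma zr_base : Zr K fun m n => if (m = 0 ∨ m = 1) ∧ (n = 0 ∨ n = 1) then 1 else 0 := by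
  intro f v
  obtain ⟨κ1, h1⟩ := h.exists_clm 0 0
  obtain ⟨κ2, h2⟩ := h.exists_clm 0 1
  obtain ⟨κ3, h3⟩ := h.exists_clm 1 0
  obtain ⟨κ4, h4⟩ := h.exists_clm 1 1
  have hκ : ∀ f, (κ1 + κ2 + κ3 + κ4) f =
      K 0 0 (fl f) + K 0 1 (fl f) + K 1 0 (fl f) + K 1 1 (fl f) := by
    intro f
    simp only [ContinuousLinearMap.add_apply, h1, h2, h3, h4]
  have h5 := a_zero h hκ f
  rw [hκ] at h5
  have h6 := congrArg (fun z => inner ℂ z (v : Completion D)) h5
  simp only [inner_add_left, inner_zero_left] at h6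
  simp [Fin.sum_univ_four]
  linear_combination h6

lemma zr_lor {L : Ix → V} (hL : GF.IsLor L) {c c' : Ix → Ix → ℂ} (hc : Zr K c)
    (hcc : ∀ k l, ∑ m, ∑ n, c m n * (L k m * L l n : ℂ) = c' k l) : Zr K c' := by
  intro f v
  set g : 𝓢(Mink, ℂ) := simC one_pos (isLor_linv hL) f with hg
  have hgf : simS 1 one_pos hL 0 g = f := by
    ext x
    rw [simS_simC, simC_apply, hg, simC_apply, one_smul, one_smul]
    congr 1
    have h1 : lam (linv L) (lam L x) = x := by
      have h2 := lam_linv hL (lam L x)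
      exact lam_injective hL h2
    exact h1
  have h1 := hc g (Q.U 1 L 0 v)
  have h2 : ∀ m n, inner ℂ (K m n (fl g)) ((Q.U 1 L 0 v : D) : Completion D) =
      ∑ k, ∑ l, (L k m * L l n : ℂ) * inner ℂ (K k l (fl f)) (v : Completion D) := by
    intro m n
    rw [h.cov' m n one_pos hL, hgf]
    simp only [ofReal_one, one_pow, one_mul]
  simp only [h2] at h1
  rw [sum_swap] at h1
  simp only [hcc] at h1
  exact h1

end

/-- a rotation in the 1-2-plane -/
def m34 : Ix → V := ![![1, 0, 0, 0], ![0, 3 / 5, 4 / 5, 0], ![0, -4 / 5, 3 / 5, 0], ![0, 0, 0, 1]]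

lemma isLor_m34 : GF.IsLor m34 := by
  refine ⟨?_, ?_, ?_⟩
  · intro m n
    rw [gf_mdot]
    fin_cases m <;> fin_cases n <;>
      simp [m34, GF.bas, eta_0, eta_1, eta_2, eta_3] <;> norm_num
  · simp [m34, GF.o]
  · show Matrix.det (Matrix.of m34) = 1
    rw [Matrix.det_succ_row_zero]
    simp [m34, Matrix.det_fin_three, Fin.sum_univ_four, Fin.succAbove]
    norm_num

/-- the symmetrized components -/
def symX (K : Ix → Ix → Fn → Completion D) (f : 𝓢(Mink, ℂ)) (v : D) (m n : Ix) : ℂ :=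
  inner ℂ (K m n (fl f)) (v : Completion D) + inner ℂ (K n m (fl f)) (v : Completion D)

section

variable (h : Ct0 Q K)
include h

lemma zc_lor {L : Ix → V} (hL : GF.IsLor L) {c c' : Ix → ℂ} (hc : Zr K fun m n => c m * c n)
    (hcc : ∀ k, ∑ m, c m * (L k m : ℂ) = c' k) : Zr K fun m n => c' m * c' n := by
  refine zr_lor h hL hc fun k l => ?_
  rw [← hcc k, ← hcc l, Finset.sum_mul_sum]
  refine Finset.sum_congr rfl fun m _ => Finset.sum_congr rfl fun n _ => ?_
  ring

omit h in
lemma zc_apply {a b c d : ℂ} (hz : Zr K fun m n => (![a, b, c, d] : Ix → ℂ) m *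
    (![a, b, c, d] : Ix → ℂ) n) (f : 𝓢(Mink, ℂ)) (v : D) :
    a ^ 2 * symX K f v 0 0 + b ^ 2 * symX K f v 1 1 + c ^ 2 * symX K f v 2 2 + d ^ 2 * symX K f v 3 3 +
      2 * (a * b * symX K f v 0 1 + a * c * symX K f v 0 2 + a * d * symX K f v 0 3 +
        b * c * symX K f v 1 2 + b * d * symX K f v 1 3 + c * d * symX K f v 2 3) = 0 := by
  have h1 := hz f v
  simp [Fin.sum_univ_four] at h1
  unfold symX
  linear_combination 2 * h1

lemma zc_all : (∀ f v, symX K f v 1 1 = -symX K f v 0 0 ∧ symX K f v 2 2 = -symX K f v 0 0 ∧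
    symX K f v 3 3 = -symX K f v 0 0 ∧ symX K f v 0 1 = 0 ∧ symX K f v 0 2 = 0 ∧ symX K f v 0 3 = 0 ∧
    symX K f v 1 2 = 0 ∧ symX K f v 1 3 = 0 ∧ symX K f v 2 3 = 0) := by
  have z1 : Zr K fun m n => (![1, 1, 0, 0] : Ix → ℂ) m * (![1, 1, 0, 0] : Ix → ℂ) n := by
    have h0 := zr_base h
    intro f v
    have h1 := h0 f v
    simp [Fin.sum_univ_four] at h1 ⊢
    linear_combination h1
  have z2 : Zr K fun m n => (![1, -1, 0, 0] : Ix → ℂ) m * (![1, -1, 0, 0] : Ix → ℂ) n :=
    zc_lor h isLor_rot12 z1 fun k => by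
      fin_cases k <;> simp [mRot12, Fin.sum_univ_four]
  have z3 : Zr K fun m n => (![1, 0, 0, 1] : Ix → ℂ) m * (![1, 0, 0, 1] : Ix → ℂ) n :=
    zc_lor h isLor_cyc z1 fun k => by
      fin_cases k <;> simp [mCyc, Fin.sum_univ_four]
  have z4 : Zr K fun m n => (![1, 0, 0, -1] : Ix → ℂ) m * (![1, 0, 0, -1] : Ix → ℂ) n :=
    zc_lor h isLor_cyc z2 fun k => by
      fin_cases k <;> simp [mCyc, Fin.sum_univ_four]
  have z5 : Zr K fun m n => (![1, 0, 1, 0] : Ix → ℂ) m * (![1, 0, 1, 0] : Ix → ℂ) n :=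
    zc_lor h isLor_cyc z3 fun k => by
      fin_cases k <;> simp [mCyc, Fin.sum_univ_four]
  have z6 : Zr K fun m n => (![1, 0, -1, 0] : Ix → ℂ) m * (![1, 0, -1, 0] : Ix → ℂ) n :=
    zc_lor h isLor_cyc z4 fun k => by
      fin_cases k <;> simp [mCyc, Fin.sum_univ_four]
  have z7 : Zr K fun m n => (![1, 3 / 5, -4 / 5, 0] : Ix → ℂ) m *
      (![1, 3 / 5, -4 / 5, 0] : Ix → ℂ) n :=
    zc_lor h isLor_m34 z1 fun k => by
      fin_cases k <;> simp [m34, Fin.sum_univ_four]
  have z8 : Zr K fun m n => (![1, -4 / 5, 0, 3 / 5] : Ix → ℂ) m *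
      (![1, -4 / 5, 0, 3 / 5] : Ix → ℂ) n :=
    zc_lor h isLor_cyc z7 fun k => by
      fin_cases k <;> simp [mCyc, Fin.sum_univ_four]
  have z9 : Zr K fun m n => (![1, 0, 3 / 5, -4 / 5] : Ix → ℂ) m *
      (![1, 0, 3 / 5, -4 / 5] : Ix → ℂ) n :=
    zc_lor h isLor_cyc z8 fun k => by
      fin_cases k <;> simp [mCyc, Fin.sum_univ_four]
  intro f v
  have e1 := zc_apply z1 f v
  have e2 := zc_apply z2 f v
  have e3 := zc_apply z3 f v
  have e4 := zc_apply z4 f v
  have e5 := zc_apply z5 f v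
  have e6 := zc_apply z6 f v
  have e7 := zc_apply z7 f v
  have e8 := zc_apply z8 f v
  have e9 := zc_apply z9 f v
  have a1 : symX K f v 1 1 = -symX K f v 0 0 := by linear_combination (1 / 2 : ℂ) * e1 + (1 / 2 : ℂ) * e2
  have a2 : symX K f v 2 2 = -symX K f v 0 0 := by linear_combination (1 / 2 : ℂ) * e5 + (1 / 2 : ℂ) * e6
  have a3 : symX K f v 3 3 = -symX K f v 0 0 := by linear_combination (1 / 2 : ℂ) * e3 + (1 / 2 : ℂ) * e4
  have b1 : symX K f v 0 1 = 0 := by linear_combination (1 / 4 : ℂ) * e1 - (1 / 4 : ℂ) * e2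
  have b2 : symX K f v 0 2 = 0 := by linear_combination (1 / 4 : ℂ) * e5 - (1 / 4 : ℂ) * e6
  have b3 : symX K f v 0 3 = 0 := by linear_combination (1 / 4 : ℂ) * e3 - (1 / 4 : ℂ) * e4
  refine ⟨a1, a2, a3, b1, b2, b3, ?_, ?_, ?_⟩
  · rw [a1, a2, a3, b1, b2, b3] at e7
    linear_combination (-25 / 24 : ℂ) * e7
  · rw [a1, a2, a3, b1, b2, b3] at e8
    linear_combination (-25 / 24 : ℂ) * e8
  · rw [a1, a2, a3, b1, b2, b3] at e9
    linear_combination (-25 / 24 : ℂ) * e9

/-- **The symmetric traceless part vanishes.** -/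
theorem Ct0.sym (m n : Ix) (f : 𝓢(Mink, ℂ)) (v : D) :
    inner ℂ (K m n (fl f)) (v : Completion D) + inner ℂ (K n m (fl f)) (v : Completion D) =
      2 * (if m = n then (GF.eta m : ℂ) else 0) * inner ℂ (K 0 0 (fl f)) (v : Completion D) := by
  obtain ⟨a1, a2, a3, b1, b2, b3, c1, c2, c3⟩ := zc_all h f v
  have hc : ∀ m n, symX K f v n m = symX K f v m n := by
    intro m n
    unfold symX
    ring
  have h00 : symX K f v 0 0 = 2 * inner ℂ (K 0 0 (fl f)) (v : Completion D) := by
    unfold symX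
    ring
  show symX K f v m n = _
  fin_cases m <;> fin_cases n
  · show symX K f v 0 0 = _
    rw [h00]; simp [GF.eta, GF.o]
  · show symX K f v 0 1 = _
    rw [b1]; simp
  · show symX K f v 0 2 = _
    rw [b2]; simp
  · show symX K f v 0 3 = _
    rw [b3]; simp
  · show symX K f v 1 0 = _
    rw [hc, b1]; simp
  · show symX K f v 1 1 = _
    rw [a1, h00]; simp [GF.eta, GF.o]
  · show symX K f v 1 2 = _
    rw [c1]; simp
  · show symX K f v 1 3 = _
    rw [c2]; simp
  · show symX K f v 2 0 = _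
    rw [hc, b2]; simp
  · show symX K f v 2 1 = _
    rw [hc, c1]; simp
  · show symX K f v 2 2 = _
    rw [a2, h00]; simp [GF.eta, GF.o]
  · show symX K f v 2 3 = _
    rw [c3]; simp
  · show symX K f v 3 0 = _
    rw [hc, b3]; simp
  · show symX K f v 3 1 = _
    rw [hc, c2]; simp
  · show symX K f v 3 2 = _
    rw [hc, c3]; simp
  · show symX K f v 3 3 = _
    rw [a3, h00]; simp [GF.eta, GF.o]

/-- the antisymmetric part -/
lemma Ct0.asym : Ctc Q fun m n f => K m n f - K n m f where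
  anti m n f hf := by
    rw [neg_sub]
  lin m n f g c hf hg := by
    rw [h.lin m n f g c hf hg, h.lin n m f g c hf hg, smul_sub]
    abel
  cont m n := (h.cont m n).sub (h.cont n m)
  cov m n s L a f v hs hL hf := by
    rw [inner_sub_left, h.cov m n s L a f v hs hL hf, h.cov n m s L a f v hs hL hf]
    simp only [inner_sub_left, mul_sub, Finset.sum_sub_distrib]
    congr 1
    rw [Finset.sum_comm]
    refine Finset.sum_congr rfl fun k _ => Finset.sum_congr rfl fun l _ => ?_
    ring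

/-- **General contact terms on the open cone.** -/
theorem ct0_pc {T : Ix → Ix → GF.Fld D} {J : Ix → GF.Fld D} (hJ : IsVirial Q T J) (k : Ix)
    (g : 𝓢(Mink, ℂ)) (hg : PC (mftS g)) (m n : Ix) (f : Fn) (hf : GF.IsTest f) :
    inner ℂ (K m n f) ((J k (fl g) Q.vac : D) : Completion D) =
      (if m = n then (GF.eta m : ℂ) else 0) *
        inner ℂ (K 0 0 f) ((J k (fl g) Q.vac : D) : Completion D) := by
  obtain ⟨F, rfl⟩ := exists_fl hf
  have h1 := ctc_zero h.asym hJ k g hg m n (fl F) hf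
  rw [inner_sub_left] at h1
  have h2 := h.sym m n F (J k (fl g) Q.vac)
  linear_combination (1 / 2 : ℂ) * h1 + (1 / 2 : ℂ) * h2

/-- the trace part is a scalar of dimension two -/
theorem Ct0.tr_cov (s : ℝ) (L : Ix → V) (a : V) (f : Fn) (v : D) (hs : 0 < s) (hL : GF.IsLor L)
    (hf : GF.IsTest f) : inner ℂ (K 0 0 f) (Q.U s L a v : Completion D) =
      (s ^ 2 : ℂ) * inner ℂ (K 0 0 (fun x => f (sim s L a x))) (v : Completion D) := by
  obtain ⟨F, rfl⟩ := exists_fl hf
  rw [fl_sim s hs hL a, h.cov' 0 0 hs hL]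
  have h1 : ∀ k l : Ix, inner ℂ (K k l (fl (simS s hs hL a F))) (v : Completion D) +
      inner ℂ (K l k (fl (simS s hs hL a F))) (v : Completion D) =
      2 * (if k = l then (GF.eta k : ℂ) else 0) *
        inner ℂ (K 0 0 (fl (simS s hs hL a F))) (v : Completion D) := fun k l => h.sym k l _ v
  set A : Ix → Ix → ℂ := fun k l => inner ℂ (K k l (fl (simS s hs hL a F))) (v : Completion D)
    with hA
  have h2 : ∑ k, ∑ l, (s ^ 2 * L k 0 * L l 0 : ℂ) * A k l =
      ∑ k, ∑ l, (s ^ 2 * L k 0 * L l 0 : ℂ) * A l k := by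
    rw [Finset.sum_comm]
    refine Finset.sum_congr rfl fun k _ => Finset.sum_congr rfl fun l _ => ?_
    ring
  have h3 : 2 * ∑ k, ∑ l, (s ^ 2 * L k 0 * L l 0 : ℂ) * A k l =
      ∑ k, ∑ l, (s ^ 2 * L k 0 * L l 0 : ℂ) * (2 * (if k = l then (GF.eta k : ℂ) else 0) * A 0 0) := by
    calc 2 * ∑ k, ∑ l, (s ^ 2 * L k 0 * L l 0 : ℂ) * A k l
        = ∑ k, ∑ l, (s ^ 2 * L k 0 * L l 0 : ℂ) * A k l +
          ∑ k, ∑ l, (s ^ 2 * L k 0 * L l 0 : ℂ) * A l k := by rw [← h2]; ring
      _ = _ := by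
        rw [← Finset.sum_add_distrib]
        refine Finset.sum_congr rfl fun k _ => ?_
        rw [← Finset.sum_add_distrib]
        refine Finset.sum_congr rfl fun l _ => ?_
        rw [← mul_add, h1 k l]
  have h4 : ∑ k, GF.eta k * L k 0 * L k 0 = 1 := by
    have := lor_transpose hL 0 0
    rw [this]
    simp [bas, GF.eta, GF.o]
  have h5 : ∑ k, ∑ l, (s ^ 2 * L k 0 * L l 0 : ℂ) *
      (2 * (if k = l then (GF.eta k : ℂ) else 0) * A 0 0) = 2 * (s ^ 2 * A 0 0) := by
    have h6 : ∀ k, ∑ l, (s ^ 2 * L k 0 * L l 0 : ℂ) *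
        (2 * (if k = l then (GF.eta k : ℂ) else 0) * A 0 0) =
        (GF.eta k * L k 0 * L k 0 : ℂ) * (2 * (s ^ 2 * A 0 0)) := by
      intro k
      rw [Finset.sum_eq_single k]
      · rw [if_pos rfl]; ring
      · intro l _ hl
        rw [if_neg (Ne.symm hl)]; ring
      · intro hk
        exact absurd (Finset.mem_univ k) hk
    simp only [h6]
    rw [← Finset.sum_mul]
    have h7 : (∑ k, (GF.eta k * L k 0 * L k 0 : ℂ)) = 1 := by
      have := congrArg (fun r : ℝ => (r : ℂ)) h4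
      push_cast at this
      exact this
    rw [h7, one_mul]
  rw [h5] at h3
  exact mul_left_cancel₀ two_ne_zero h3

end

end Vale.Agent.P352.H731

end
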