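import Vale.Agent.P352.H731.Ct0

set_option linter.all false

noncomputable section

open MeasureTheory SchwartzMap Complex Filter Topology
open scoped SchwartzMap ComplexConjugate ENNReal LineDeriv

namespace Vale.Agent.P352.H731

open GF (Ix V Fn Sch ev pd bar sim bas)
open H246 H246R
open H496 (exists_data)
open UniformSpace (Completion)

variable {D : Type*} [NormedAddCommGroup D] [InnerProductSpace ℂ D]
variable {Q : GF.Theory D} {K : Ix → Ix → Fn → Completion D}

/-! ### The components vanish on the open cone -/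

/-- vanishing of a combination of components on the open cone -/
def Zp (K : Ix → Ix → Fn → Completion D) (c : Ix → Ix → ℂ) : Prop :=
  ∀ (f : 𝓢(Mink, ℂ)) (v : D), PC (mftS f) →
    ∑ m, ∑ n, c m n * inner ℂ (K m n (fl f)) (v : Completion D) = 0

section

variable (h : Ctc Q K)
include h

lemma zp_base : Zp K fun m n => if n = 2 then (if m = 0 ∨ m = 1 then 1 else 0) else 0 := by
  intro f v hf
  obtain ⟨κ1, h1⟩ := h.exists_clm 0 2
  obtain ⟨κ2, h2⟩ := h.exists_clm 1 2
  have hκ : ∀ f, (κ1 + κ2) f = K 0 2 (fl f) + K 1 2 (fl f) := by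
    intro f
    rw [ContinuousLinearMap.add_apply, h1, h2]
  have h3 := k0_zero h hκ f hf
  rw [hκ] at h3
  have h6 := congrArg (fun z => inner ℂ z (v : Completion D)) h3
  simp only [inner_add_left, inner_zero_left] at h6
  simp only [Fin.sum_univ_four]
  simpa using h6

lemma zp_lor {L : Ix → V} (hL : GF.IsLor L) (hpos : ∀ p ∈ Vp, lam (linv (linv L)) p ∈ Vp)
    {c c' : Ix → Ix → ℂ} (hc : Zp K c)
    (hcc : ∀ k l, ∑ m, ∑ n, c m n * (L k m * L l n : ℂ) = c' k l) : Zp K c' := by
  intro f v hf
  set g : 𝓢(Mink, ℂ) := simC one_pos (isLor_linv hL) f with hg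
  have hgp : PC (mftS g) := by
    rw [hg, ← simS_simC]
    exact PC_sim hf (isLor_linv hL) hpos
  have hgf : simS 1 one_pos hL 0 g = f := by
    ext x
    rw [simS_simC, simC_apply, hg, simC_apply, one_smul, one_smul]
    congr 1
    have h1 : lam (linv L) (lam L x) = x := by
      have h2 := lam_linv hL (lam L x)
      exact lam_injective hL h2
    exact h1
  have h1 := hc g (Q.U 1 L 0 v) hgp
  have h2 : ∀ m n, inner ℂ (K m n (fl g)) ((Q.U 1 L 0 v : D) : Completion D) =
      ∑ k, ∑ l, (L k m * L l n : ℂ) * inner ℂ (K k l (fl f)) (v : Completion D) := by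
    intro m n
    rw [h.cov' m n one_pos hL, hgf]
    simp only [ofReal_one, one_pow, one_mul]
  simp only [h2] at h1
  rw [sum_swap] at h1
  simp only [hcc] at h1
  exact h1

omit h in
lemma zp_sg {m n : Ix} (ho : Zp K (sg m n)) (f : 𝓢(Mink, ℂ)) (v : D)
    (hf : PC (mftS f)) : inner ℂ (K m n (fl f)) (v : Completion D) = 0 := by
  have h1 := ho f v hf
  rw [Finset.sum_eq_single m, Finset.sum_eq_single n] at h1
  · simpa [sg] using h1
  · intro l _ hl
    simp [sg, hl]
  · intro hn
    exact absurd (Finset.mem_univ n) hn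
  · intro k _ hk
    refine Finset.sum_eq_zero fun l _ => ?_
    simp [sg, hk]
  · intro hm
    exact absurd (Finset.mem_univ m) hm

lemma zp_12_02 : Zp K (sg 1 2) ∧ Zp K (sg 0 2) := by
  have h1 := zp_base h
  have h2 : Zp K fun m n => if n = 2 then (if m = 0 then -1 else if m = 1 then 1 else 0)
      else 0 := by
    refine zp_lor h isLor_rot12 (Vp_of (isLor_linv isLor_rot12) fun p => ?_) h1 fun k l => ?_
    · simp [lam_apply, linv, Fin.sum_univ_four, mRot12, GF.eta, GF.o]
    · fin_cases k <;> fin_cases l <;> simp [mRot12, Fin.sum_univ_four]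
  constructor
  · intro f v hf
    have a := h1 f v hf
    have b := h2 f v hf
    simp [Fin.sum_univ_four] at a b
    simp [sg, Fin.sum_univ_four]
    linear_combination (1 / 2 : ℂ) * a + (1 / 2 : ℂ) * b
  · intro f v hf
    have a := h1 f v hf
    have b := h2 f v hf
    simp [Fin.sum_univ_four] at a b
    simp [sg, Fin.sum_univ_four]
    linear_combination (1 / 2 : ℂ) * a - (1 / 2 : ℂ) * b

lemma zp_cyc {m n m' n' : Ix} (ho : Zp K (sg m n))
    (hcc : ∀ k l, ∑ a, ∑ b, sg m n a b * (mCyc k a * mCyc l b : ℂ) = sg m' n' k l) :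
    Zp K (sg m' n') := by
  refine zp_lor h isLor_cyc (Vp_of (isLor_linv isLor_cyc) fun p => ?_) ho hcc
  simp [lam_apply, linv, Fin.sum_univ_four, mCyc, GF.eta, GF.o]

/-- **Antisymmetric covariant tensors of dimension two vanish on the open cone.** -/
theorem ctc_pc (m n : Ix) (f : 𝓢(Mink, ℂ)) (hf : PC (mftS f)) : K m n (fl f) = 0 := by
  obtain ⟨h12, h02⟩ := zp_12_02 h
  have h01 : Zp K (sg 0 1) := zp_cyc h h02 fun k l => by
    fin_cases k <;> fin_cases l <;> simp [sg, mCyc, Fin.sum_univ_four]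
  have h03 : Zp K (sg 0 3) := zp_cyc h h01 fun k l => by
    fin_cases k <;> fin_cases l <;> simp [sg, mCyc, Fin.sum_univ_four]
  have h31 : Zp K (sg 3 1) := zp_cyc h h12 fun k l => by
    fin_cases k <;> fin_cases l <;> simp [sg, mCyc, Fin.sum_univ_four]
  have h23 : Zp K (sg 2 3) := zp_cyc h h31 fun k l => by
    fin_cases k <;> fin_cases l <;> simp [sg, mCyc, Fin.sum_univ_four]
  refine ext_coe fun v => ?_
  rw [inner_zero_right, ← inner_conj_symm]
  have key : inner ℂ (K m n (fl f)) (v : Completion D) = 0 := by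
    have hz : ∀ {m n}, Zp K (sg m n) → inner ℂ (K m n (fl f)) (v : Completion D) = 0 :=
      fun ho => zp_sg ho f v hf
    have hd : ∀ m, inner ℂ (K m m (fl f)) (v : Completion D) = 0 := by
      intro m
      have := h.anti' m m f v
      linear_combination (1 / 2 : ℂ) * this
    have hr : ∀ {m n}, inner ℂ (K n m (fl f)) (v : Completion D) = 0 →
        inner ℂ (K m n (fl f)) (v : Completion D) = 0 := by
      intro m n h0
      have := h.anti' m n f v
      rw [h0, add_zero] at this
      exact this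
    fin_cases m <;> fin_cases n
    · exact hd 0
    · exact hz h01
    · exact hz h02
    · exact hz h03
    · exact hr (hz h01)
    · exact hd 1
    · exact hz h12
    · exact hr (hz h31)
    · exact hr (hz h02)
    · exact hr (hz h12)
    · exact hd 2
    · exact hz h23
    · exact hr (hz h03)
    · exact hz h31
    · exact hr (hz h23)
    · exact hd 3
  rw [key, map_zero]

end

/-! ### Test functions with spectral support in the open cone -/

lemma exists_bump {p : Mink} (hp : p ∈ Vp) :
    ∃ f : 𝓢(Mink, ℂ), PC (mftS f) ∧ ∀ᶠ q in 𝓝 p, mft f q = 1 := by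
  obtain ⟨L, hL, hKL, hLU⟩ := exists_compact_between (isCompact_singleton (x := p)) isOpen_Vp
    (Set.singleton_subset_iff.2 hp)
  obtain ⟨ρ, hρ1, hρ0, _⟩ := exists_contMDiffMap_one_nhds_of_subset_interior
    (n := (⊤ : ℕ∞)) (modelWithCornersSelf ℝ Mink) (isCompact_singleton (x := p)).isClosed hKL
  have hρs : ContDiff ℝ ((⊤ : ℕ∞) : WithTop ℕ∞) (ρ : Mink → ℝ) := ρ.contMDiff.contDiff
  set F : Mink → ℂ := fun x => (ρ x : ℂ) with hF
  have hFs : ContDiff ℝ ((⊤ : ℕ∞) : WithTop ℕ∞) F := Complex.ofRealCLM.contDiff.comp hρs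
  have hFt : tsupport F ⊆ L := by
    apply closure_minimal _ hL.isClosed
    intro x hx
    by_contra hxL
    apply hx
    simp [hF, hρ0 x hxL]
  have hFc : HasCompactSupport F := IsCompact.of_isClosed_subset hL (isClosed_tsupport _) hFt
  set χ : 𝓢(Mink, ℂ) := hFc.toSchwartzMap hFs with hχ
  have hχa : ∀ x, χ x = (ρ x : ℂ) := fun x => rfl
  refine ⟨imf χ, ?_, ?_⟩
  · rw [mftS_imf]
    exact ⟨hFc, hFt.trans hLU⟩
  · have h3 : ∀ᶠ y in 𝓝 p, ρ y = 1 :=
      (Filter.eventually_iff.1 hρ1 |> mem_nhdsSet_iff_forall.1) p rfl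
    filter_upwards [h3] with q hq
    rw [← mftS_apply, mftS_imf, hχa, hq, ofReal_one]

/-! ### The divergence -/

section

variable (h : Ctc Q K)

/-- the component as a continuous linear map -/
def Ctc.clm (m n : Ix) : 𝓢(Mink, ℂ) →L[ℂ] Completion D := (h.exists_clm m n).choose

lemma Ctc.clm_apply (m n : Ix) (f : 𝓢(Mink, ℂ)) : h.clm m n f = K m n (fl f) :=
  (h.exists_clm m n).choose_spec f

/-- the divergence -/
def Gd (k : Ix) : 𝓢(Mink, ℂ) →L[ℂ] Completion D :=
  ∑ m, (h.clm k m).comp (LineDeriv.lineDerivOpCLM ℂ 𝓢(Mink, ℂ) (eb m : Mink))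

lemma Gd_apply (k : Ix) (f : 𝓢(Mink, ℂ)) :
    Gd h k f = ∑ m, h.clm k m (∂_{eb m} f : 𝓢(Mink, ℂ)) := by
  unfold Gd
  rw [ContinuousLinearMap.sum_apply]
  rfl

lemma Gd_cov (k : Ix) {s : ℝ} (hs : 0 < s) {L : Ix → V} (hL : GF.IsLor L) (a : V)
    (f : 𝓢(Mink, ℂ)) (v : D) : inner ℂ (Gd h k f) ((Q.U s L a v : D) : Completion D) =
      ∑ j, (s * L j k : ℂ) * inner ℂ (Gd h j (simS s hs hL a f)) (v : Completion D) := by
  simp only [Gd_apply, sum_inner]
  have h1 : ∀ m, inner ℂ (h.clm k m (∂_{eb m} f : 𝓢(Mink, ℂ)))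
      ((Q.U s L a v : D) : Completion D) = ∑ j, ∑ l, (s ^ 2 * L j k * L l m : ℂ) *
        inner ℂ (h.clm j l (simS s hs hL a (∂_{eb m} f : 𝓢(Mink, ℂ)))) (v : Completion D) := by
    intro m
    simp only [h.clm_apply]
    rw [h.cov' k m hs hL]
  have h2 : ∀ j l, inner ℂ (h.clm j l (∂_{eb l} (simS s hs hL a f) : 𝓢(Mink, ℂ)))
      (v : Completion D) = ∑ m, (s * L l m : ℂ) *
        inner ℂ (h.clm j l (simS s hs hL a (∂_{eb m} f : 𝓢(Mink, ℂ)))) (v : Completion D) := by
    intro j l
    rw [lineDeriv_simS, map_smul, map_sum, inner_smul_left, sum_inner, Finset.mul_sum]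
    refine Finset.sum_congr rfl fun m _ => ?_
    rw [map_smul, inner_smul_left, conj_ofReal, conj_ofReal]
    ring
  simp only [h1, h2, Finset.mul_sum]
  calc ∑ m, ∑ j, ∑ l, (s ^ 2 * L j k * L l m : ℂ) *
        inner ℂ (h.clm j l (simS s hs hL a (∂_{eb m} f : 𝓢(Mink, ℂ)))) (v : Completion D)
      = ∑ j, ∑ m, ∑ l, (s ^ 2 * L j k * L l m : ℂ) *
        inner ℂ (h.clm j l (simS s hs hL a (∂_{eb m} f : 𝓢(Mink, ℂ)))) (v : Completion D) :=
        Finset.sum_comm
    _ = ∑ j, ∑ l, ∑ m, (s ^ 2 * L j k * L l m : ℂ) *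
        inner ℂ (h.clm j l (simS s hs hL a (∂_{eb m} f : 𝓢(Mink, ℂ)))) (v : Completion D) :=
        Finset.sum_congr rfl fun j _ => Finset.sum_comm
    _ = _ := by
        refine Finset.sum_congr rfl fun j _ => Finset.sum_congr rfl fun l _ =>
          Finset.sum_congr rfl fun m _ => ?_
        ring

lemma Gd_tau (k : Ix) (g : 𝓢(Mink, ℂ)) (a : Mink) (z : D) :
    inner ℂ (Gd h k (tauS a g)) ((U1 Q a z : D) : Completion D) =
      inner ℂ (Gd h k g) (z : Completion D) := by
  have h1 := Gd_cov h k one_pos isLor_one a.ofLp (tauS a g) z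
  rw [simS_tauS] at h1
  have e : U1 Q a z = Q.U 1 GF.one a.ofLp z := rfl
  rw [e, h1, Finset.sum_eq_single k]
  · simp [GF.one, bas]
  · intro l _ hl
    simp [GF.one, bas, hl.symm]
  · intro hn
    exact absurd (Finset.mem_univ k) hn

lemma Gd_pc (k : Ix) (f : 𝓢(Mink, ℂ)) (hf : PC (mftS f)) : Gd h k f = 0 := by
  rw [Gd_apply]
  refine Finset.sum_eq_zero fun m _ => ?_
  rw [h.clm_apply]
  exact ctc_pc h k m _ (PC_deriv hf _)

/-- the null component of the divergence -/
def gd : 𝓢(Mink, ℂ) →L[ℂ] Completion D := Gd h 0 + Gd h 1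

lemma gd_apply (f : 𝓢(Mink, ℂ)) : gd h f = Gd h 0 f + Gd h 1 f := rfl

lemma gd_cov {s : ℝ} (hs : 0 < s) {L : Ix → V} (hL : GF.IsLor L) (w : ℝ)
    (hw : ∀ g (v : D), ∑ j, (s * (L j 0 + L j 1) : ℂ) *
      inner ℂ (Gd h j g) (v : Completion D) = (w : ℂ) * inner ℂ (gd h g) (v : Completion D))
    (f : 𝓢(Mink, ℂ)) (v : D) : inner ℂ (gd h f) ((Q.U s L 0 v : D) : Completion D) =
      (w : ℂ) * inner ℂ (gd h (simC hs hL f)) (v : Completion D) := by
  rw [gd_apply, inner_add_left, Gd_cov h 0 hs hL, Gd_cov h 1 hs hL, ← hw, ← simS_simC,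
    ← Finset.sum_add_distrib]
  refine Finset.sum_congr rfl fun j _ => ?_
  ring

lemma gd_null2 (b : ℝ) (f : 𝓢(Mink, ℂ)) (v : D) :
    inner ℂ (gd h f) ((Q.U 1 (mNull b) 0 v : D) : Completion D) =
      ((1 : ℝ) : ℂ) * inner ℂ (gd h (simC one_pos (isLor_null b) f)) (v : Completion D) := by
  refine gd_cov h one_pos (isLor_null b) 1 (fun g v => ?_) f v
  rw [gd_apply, inner_add_left]
  simp [Fin.sum_univ_four, mNull]

lemma gd_null3 (b : ℝ) (f : 𝓢(Mink, ℂ)) (v : D) :
    inner ℂ (gd h f) ((Q.U 1 (mNull' b) 0 v : D) : Completion D) =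
      ((1 : ℝ) : ℂ) * inner ℂ (gd h (simC one_pos (isLor_null' b) f)) (v : Completion D) := by
  refine gd_cov h one_pos (isLor_null' b) 1 (fun g v => ?_) f v
  rw [gd_apply, inner_add_left]
  simp [Fin.sum_univ_four, mNull']

lemma gd_boost {s : ℝ} (hs : 0 < s) (t : ℝ) (f : 𝓢(Mink, ℂ)) (v : D) :
    inner ℂ (gd h f) ((Q.U s (mBoost t) 0 v : D) : Completion D) =
      ((s * Real.exp t : ℝ) : ℂ) *
        inner ℂ (gd h (simC hs (isLor_boost t) f)) (v : Completion D) := by
  refine gd_cov h hs (isLor_boost t) _ (fun g v => ?_) f v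
  rw [gd_apply, inner_add_left]
  simp only [Fin.sum_univ_four, mBoost]
  simp
  ring

lemma gd_tau (g : 𝓢(Mink, ℂ)) (a : Mink) (z : D) :
    inner ℂ ((U1 Q a z : D) : Completion D) (gd h (tauS a g)) =
      inner ℂ (z : Completion D) (gd h g) := by
  rw [← inner_conj_symm, ← inner_conj_symm (z : Completion D), gd_apply, gd_apply]
  simp only [inner_add_left, Gd_tau]

/-- the null component of the divergence vanishes -/
theorem gd_zero (f : 𝓢(Mink, ℂ)) : gd h f = 0 := by
  obtain ⟨ν, S⟩ := exists_data (gd h) (gd_tau h)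
  obtain ⟨μ, hcone, hμ⟩ := S.exists_KL
  obtain ⟨C, m, hC, hb⟩ := H746.exists_ball_bound (gd h) S hμ
  have ht := H746.temp_of_ball hC hb
  have hfin := H746.fin_compact hb
  have two : ∀ f g, inner ℂ (gd h f) (gd h g) = ∫ p, conj (mft f p) * mft g p ∂μ :=
    SpecData.two (κ := (gd h : 𝓢(Mink, ℂ) →ₗ[ℂ] Completion D)) S ht hμ
  have hcone' : ∀ᵐ p ∂μ, p ∈ fwdCone := by
    rw [ae_iff]; exact hcone
  have W : Wk μ 6 2 := by
    refine ⟨fun b => ?_, fun b => ?_, fun σ t hσ => ?_⟩
    · have h1 := w_measure S hμ one_pos one_pos (isLor_null b)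
        (w_inner one_pos one_pos one_pos (isLor_null b) (isLor_null (-b)) (gd_null2 h b)
          (fun f v => by rw [inv_one]; exact gd_null2 h (-b) f v) (fun f => by
            ext x
            rw [simC_apply, simC_apply, one_smul, one_smul]
            congr 1
            apply mink_ext <;> simp [Fin.sum_univ_four, mNull] <;> ring))
      simp only [inv_one, one_smul, one_pow, div_one, ENNReal.ofReal_one] at h1
      exact h1
    · have h1 := w_measure S hμ one_pos one_pos (isLor_null' b)
        (w_inner one_pos one_pos one_pos (isLor_null' b) (isLor_null' (-b)) (gd_null3 h b)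
          (fun f v => by rw [inv_one]; exact gd_null3 h (-b) f v) (fun f => by
            ext x
            rw [simC_apply, simC_apply, one_smul, one_smul]
            congr 1
            apply mink_ext <;> simp [Fin.sum_univ_four, mNull'] <;> ring))
      simp only [inv_one, one_smul, one_pow, div_one, ENNReal.ofReal_one] at h1
      exact h1
    · have hw : 0 < σ * Real.exp t := by positivity
      have h1 := w_measure S hμ hw hσ (isLor_boost t)
        (w_inner hw hσ (inv_pos.2 hσ) (isLor_boost t) (isLor_boost (-t)) (gd_boost h hσ t)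
          (fun f v => by
            have h2 := gd_boost h (inv_pos.2 hσ) (-t) f v
            have e : (σ * Real.exp t)⁻¹ = σ⁻¹ * Real.exp (-t) := by
              rw [Real.exp_neg, mul_inv]
            rw [e]
            exact h2)
          (fun f => by
            ext x
            rw [simC_apply, simC_apply]
            congr 1
            have hc := Real.cosh_sq t
            have hsig : σ * σ⁻¹ = 1 := mul_inv_cancel₀ hσ.ne'
            apply mink_ext
            · simp [Fin.sum_univ_four, mBoost]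
              field_simp
              linear_combination (x 0) * hc
            · simp [Fin.sum_univ_four, mBoost]
              field_simp
              linear_combination (x 1) * hc
            · simp [Fin.sum_univ_four, mBoost]
              field_simp
            · simp [Fin.sum_univ_four, mBoost]
              field_simp))
      rw [h1]
      congr 2
      rw [Real.exp_neg]
      field_simp
  have hr := W.ray_null hfin hcone' (by norm_num) (by norm_num)
  have hz : μ Vp = 0 := by
    refine measure_null_of_locally_null _ fun p hp => ?_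
    obtain ⟨f, hf, hf1⟩ := exists_bump hp
    refine ⟨{q | mft f q = 1}, mem_nhdsWithin_of_mem_nhds hf1, ?_⟩
    have h1 : gd h f = 0 := by
      rw [gd_apply, Gd_pc h 0 f hf, Gd_pc h 1 f hf, add_zero]
    have h2 := H496.norm_sq_spec S f
    rw [h1, norm_zero, zero_pow two_ne_zero, ENNReal.ofReal_zero, hμ f,
      withDensity_apply _ MeasurableSet.univ, setLIntegral_univ] at h2
    have h5 := (lintegral_eq_zero_iff (measurable_dens f)).1 h2.symm
    have h6 : ∀ᵐ q ∂μ, ¬ (mft f q = 1) := by
      filter_upwards [h5] with q hq h7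
      have h8 : ‖mft f q‖ₑ ^ 2 = 0 := hq
      rw [h7] at h8
      simp at h8
    rw [ae_iff] at h6
    simpa using h6
  have hz' : μ = 0 := by
    have h3 : ∀ᵐ p ∂μ, False := by
      have h4 : ∀ᵐ p ∂μ, p ∉ Vp := by
        rw [ae_iff]
        simpa using hz
      filter_upwards [hr, h4] with p a b using b a
    have h5 : μ Set.univ = 0 := by
      rw [ae_iff] at h3
      simpa using h3
    exact Measure.measure_univ_eq_zero.1 h5
  have h1 : inner ℂ (gd h f) (gd h f) = (0 : ℂ) := by
    rw [two, hz', integral_zero_measure]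
  exact inner_self_eq_zero.1 h1

/-! ### All components of the divergence -/

/-- vanishing of a combination of components -/
def Zg (h : Ctc Q K) (c : Ix → ℂ) : Prop :=
  ∀ (f : 𝓢(Mink, ℂ)) (v : D), ∑ m, c m * inner ℂ (Gd h m f) (v : Completion D) = 0

lemma zg_lor {L : Ix → V} (hL : GF.IsLor L) {c c' : Ix → ℂ} (hc : Zg h c)
    (hcc : ∀ k, ∑ m, c m * (L k m : ℂ) = c' k) : Zg h c' := by
  intro f v
  set g : 𝓢(Mink, ℂ) := simC one_pos (isLor_linv hL) f with hg
  have hgf : simS 1 one_pos hL 0 g = f := by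
    ext x
    rw [simS_simC, simC_apply, hg, simC_apply, one_smul, one_smul]
    congr 1
    have h1 : lam (linv L) (lam L x) = x := by
      have h2 := lam_linv hL (lam L x)
      exact lam_injective hL h2
    exact h1
  have h1 := hc g (Q.U 1 L 0 v)
  have h2 : ∀ m, inner ℂ (Gd h m g) ((Q.U 1 L 0 v : D) : Completion D) =
      ∑ k, (L k m : ℂ) * inner ℂ (Gd h k f) (v : Completion D) := by
    intro m
    rw [Gd_cov h m one_pos hL, hgf]
    simp only [ofReal_one, one_mul]
  simp only [h2, Finset.mul_sum] at h1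
  rw [Finset.sum_comm] at h1
  rw [← h1]
  refine Finset.sum_congr rfl fun k _ => ?_
  rw [← hcc k, Finset.sum_mul]
  refine Finset.sum_congr rfl fun m _ => ?_
  ring

/-- **The divergence of an antisymmetric covariant tensor of dimension two vanishes.** -/
theorem Gd_zero (k : Ix) (f : 𝓢(Mink, ℂ)) : Gd h k f = 0 := by
  have z1 : Zg h ![1, 1, 0, 0] := by
    intro f v
    have h1 := gd_zero h f
    rw [gd_apply] at h1
    have h6 := congrArg (fun z => inner ℂ z (v : Completion D)) h1
    simp only [inner_add_left, inner_zero_left] at h6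
    simp only [Fin.sum_univ_four]
    simpa using h6
  have z2 : Zg h ![1, -1, 0, 0] := zg_lor h isLor_rot12 z1 fun k => by
    fin_cases k <;> simp [mRot12, Fin.sum_univ_four]
  have z3 : Zg h ![1, 0, 0, 1] := zg_lor h isLor_cyc z1 fun k => by
    fin_cases k <;> simp [mCyc, Fin.sum_univ_four]
  have z5 : Zg h ![1, 0, 1, 0] := zg_lor h isLor_cyc z3 fun k => by
    fin_cases k <;> simp [mCyc, Fin.sum_univ_four]
  refine ext_coe fun v => ?_
  rw [inner_zero_right, ← inner_conj_symm]
  have key : inner ℂ (Gd h k f) (v : Completion D) = 0 := by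
    have a := z1 f v
    have b := z2 f v
    have c := z3 f v
    have d := z5 f v
    simp [Fin.sum_univ_four] at a b c d
    fin_cases k
    · show inner ℂ (Gd h 0 f) (v : Completion D) = 0
      linear_combination (1 / 2 : ℂ) * a + (1 / 2 : ℂ) * b
    · show inner ℂ (Gd h 1 f) (v : Completion D) = 0
      linear_combination (1 / 2 : ℂ) * a - (1 / 2 : ℂ) * b
    · show inner ℂ (Gd h 2 f) (v : Completion D) = 0
      linear_combination d - (1 / 2 : ℂ) * a - (1 / 2 : ℂ) * b
    · show inner ℂ (Gd h 3 f) (v : Completion D) = 0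
      linear_combination c - (1 / 2 : ℂ) * a - (1 / 2 : ℂ) * b
  rw [key, map_zero]

end

end Vale.Agent.P352.H731

end
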