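import Vale.Agent.P352.H731.Ten1

set_option linter.all false

noncomputable section

open MeasureTheory SchwartzMap Complex Filter Topology
open scoped SchwartzMap ComplexConjugate ENNReal LineDeriv

namespace Vale.Agent.P352.H731

open GF (Ix V Fn Sch ev pd bar sim bas)
open H246 H246R H15 H496 H993
open UniformSpace (Completion)

variable {D : Type*} [NormedAddCommGroup D] [InnerProductSpace ℂ D]
variable {Q : GF.Theory D} {T : Ix → Ix → GF.Fld D} {J : Ix → GF.Fld D}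
variable {A : (V → V) → D → D} {K : V → D → D}

/-- covariance of the bracket -/
def BkCov (Q : GF.Theory D) (J : Ix → GF.Fld D) (K : V → D → D) : Prop :=
  ∀ (s r : ℝ) (L : Ix → V) (a b c x : V) (f : Fn) (v : D), 0 < s → 0 < r → GF.IsLor L →
    IsNull a → IsNull b → sim 1 L 0 a = r • b → GF.IsTest f →
    Q.U s L x (bk J K a c (fun z => f (sim s L x z)) v) =
      ((r / s ^ 2 : ℝ) : ℂ) • bk J K b (sim 1 L 0 c) f (Q.U s L x v)

lemma sim_sum (L : Ix → V) {ι : Type*} (s : Finset ι) (c : ι → ℝ) (a : ι → V) :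
    sim 1 L 0 (∑ i ∈ s, c i • a i) = ∑ i ∈ s, c i • sim 1 L 0 (a i) := by
  funext n
  simp only [sim, Pi.zero_apply, zero_add, one_mul, Finset.sum_apply, Pi.smul_apply, smul_eq_mul,
    Finset.sum_mul, Finset.mul_sum]
  rw [Finset.sum_comm]
  refine Finset.sum_congr rfl fun i _ => Finset.sum_congr rfl fun m _ => ?_
  ring

section

variable (hJ : IsVirial Q T J)

lemma Bx_cov_null (h : ConfGen Q A K) (hb : BkCov Q J K) {s : ℝ} (hs : 0 < s) {L : Ix → V}
    (hL : GF.IsLor L) (x : V) {a : V} (ha : IsNull a) (c : V) (f : 𝓢(Mink, ℂ)) :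
    Bx hJ K (sim 1 L 0 a) (sim 1 L 0 c) f =
      ((s ^ 2 : ℝ) : ℂ) • Q.U s L x (Bx hJ K a c (simS s hs hL x f)) := by
  have hn := isNull_lor hL ha
  have h1 := hb s 1 L a (sim 1 L 0 a) c x (fl f) Q.vac hs one_pos hL ha hn
    (by rw [one_smul]) (isTest_fl f)
  rw [fl_sim s hs hL x, Q.U_vac s L x hs hL] at h1
  rw [Bx_null hJ h hn, Bx_null hJ h ha, h1, smul_smul, ← ofReal_mul]
  have : s ^ 2 * (1 / s ^ 2) = 1 := by
    field_simp
  rw [this, ofReal_one, one_smul]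

theorem Bx_cov (h : ConfGen Q A K) (hb : BkCov Q J K) {s : ℝ} (hs : 0 < s) {L : Ix → V}
    (hL : GF.IsLor L) (x a c : V) (f : 𝓢(Mink, ℂ)) :
    Bx hJ K (sim 1 L 0 a) (sim 1 L 0 c) f =
      ((s ^ 2 : ℝ) : ℂ) • Q.U s L x (Bx hJ K a c (simS s hs hL x f)) := by
  have h1 : Bx hJ K a c (simS s hs hL x f) =
      ∑ i, (cf a i : ℂ) • Bx hJ K (nb i) c (simS s hs hL x f) := by
    rw [← Bx_sum, cf_sum]
  have h2 : Bx hJ K (sim 1 L 0 a) (sim 1 L 0 c) f =
      ∑ i, (cf a i : ℂ) • Bx hJ K (sim 1 L 0 (nb i)) (sim 1 L 0 c) f := by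
    rw [← Bx_sum, ← sim_sum, cf_sum]
  rw [h1, h2, H246.U_sum hs hL, Finset.smul_sum]
  refine Finset.sum_congr rfl fun i _ => ?_
  rw [Bx_cov_null hJ h hb hs hL x (isNull_nb i), U_smul hs hL, smul_comm]

lemma eh_lor {L : Ix → V} (hL : GF.IsLor L) (m : Ix) :
    sim 1 L 0 (fun k => GF.eta k * L k m) = eh m := by
  funext n
  simp only [sim, Pi.zero_apply, zero_add, one_mul]
  rw [lor_transpose hL]
  rfl

theorem Kt_cov (h : ConfGen Q A K) (hb : BkCov Q J K) {s : ℝ} (hs : 0 < s) {L : Ix → V}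
    (hL : GF.IsLor L) (x : V) (m n : Ix) (f : 𝓢(Mink, ℂ)) :
    Kt hJ K m n f = ∑ k, ∑ l, ((s ^ 2 * L k m * L l n : ℝ) : ℂ) •
      Q.U s L x (Kt hJ K k l (simS s hs hL x f)) := by
  rw [← Bx_eh, ← eh_lor hL m, ← eh_lor hL n, Bx_cov hJ h hb hs hL x, Bx_Kt, H246.U_sum hs hL,
    Finset.smul_sum]
  refine Finset.sum_congr rfl fun k _ => ?_
  rw [H246.U_sum hs hL, Finset.smul_sum]
  refine Finset.sum_congr rfl fun l _ => ?_
  rw [U_smul hs hL, smul_smul, ← ofReal_mul]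
  congr 2
  have e1 := eta_sq k
  have e2 := eta_sq l
  linear_combination (s ^ 2 * L k m * L l n * (GF.eta l * GF.eta l)) * e1 +
    (s ^ 2 * L k m * L l n) * e2

end

/-! ### Continuity -/

/-- derivative along `a` -/
def dSL (a : V) : 𝓢(Mink, ℂ) →L[ℂ] 𝓢(Mink, ℂ) :=
  ∑ m, (a m : ℂ) • LineDeriv.lineDerivOpCLM ℂ 𝓢(Mink, ℂ) (eb m : Mink)

/-- multiplication by `a·x` -/
def axSL (a : V) : 𝓢(Mink, ℂ) →L[ℂ] 𝓢(Mink, ℂ) := ∑ m, ((GF.eta m * a m : ℝ) : ℂ) • Xm m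

/-- multiplication by `x·x` -/
def xxSL : 𝓢(Mink, ℂ) →L[ℂ] 𝓢(Mink, ℂ) := ∑ m, (GF.eta m : ℂ) • (Xm m).comp (Xm m)

/-- the Euler operator -/
def EuL : 𝓢(Mink, ℂ) →L[ℂ] 𝓢(Mink, ℂ) :=
  ∑ m, (Xm m).comp (LineDeriv.lineDerivOpCLM ℂ 𝓢(Mink, ℂ) (eb m : Mink))

/-- `kdS` as a continuous linear map -/
def kdL (a : V) (Δ : ℝ) : 𝓢(Mink, ℂ) →L[ℂ] 𝓢(Mink, ℂ) :=
  xxSL.comp (dSL a) - (2 : ℂ) • (axSL a).comp EuL - ((8 - 2 * Δ : ℝ) : ℂ) • axSL a

lemma kdL_apply (a : V) (Δ : ℝ) (f : 𝓢(Mink, ℂ)) : kdL a Δ f = kdS a Δ f := by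
  have e1 : ∀ f, dSL a f = dS a f := fun f => by
    unfold dSL dS
    rw [ContinuousLinearMap.sum_apply]
    rfl
  have e2 : ∀ f, axSL a f = axS a f := fun f => by
    unfold axSL axS
    rw [ContinuousLinearMap.sum_apply]
    rfl
  have e3 : ∀ f, xxSL f = xxS f := fun f => by
    unfold xxSL xxS
    rw [ContinuousLinearMap.sum_apply]
    rfl
  have e4 : ∀ f, EuL f = Eu f := fun f => by
    unfold EuL Eu
    rw [ContinuousLinearMap.sum_apply]
    rfl
  unfold kdL kdS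
  rw [ContinuousLinearMap.sub_apply, ContinuousLinearMap.sub_apply,
    ContinuousLinearMap.smul_apply, ContinuousLinearMap.smul_apply,
    ContinuousLinearMap.comp_apply, ContinuousLinearMap.comp_apply, e1, e2, e2, e3, e4]

section

variable (hJ : IsVirial Q T J)

/-- `f ↦ K a B(f) vac` -/
def KJC (h : ConfGen Q A K) {a : V} (ha : IsNull a) {B : GF.Fld D} (hB : Q.fld B) :
    𝓢(Mink, ℂ) →L[ℂ] D :=
  ⟨(KLn h ha).comp (opD hB : 𝓢(Mink, ℂ) →ₗ[ℂ] D), by
    have := barrelled_schwartz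
    refine cont_of_weak _ (Z := Set.univ) dense_univ ?_
    intro z _
    have e : (fun f : 𝓢(Mink, ℂ) => inner ℂ z (((KLn h ha).comp
        (opD hB : 𝓢(Mink, ℂ) →ₗ[ℂ] D)) f)) = fun f => inner ℂ (K a z) (opD hB f) := by
      funext f
      exact (h.symm a z _ ha).symm
    rw [e]
    exact continuous_const.inner (opD hB).continuous⟩

lemma KJC_apply (h : ConfGen Q A K) {a : V} (ha : IsNull a) {B : GF.Fld D} (hB : Q.fld B)
    (f : 𝓢(Mink, ℂ)) : KJC h ha hB f = K a (B (fl f) Q.vac) := rfl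

/-- the explicit terms -/
def EfC (n : Ix) (a : V) : 𝓢(Mink, ℂ) →L[ℂ] D :=
  (opD (Q.bose_fld _ (hJ.bose n))).comp (kdL a 3) + ((2 * a n : ℝ) : ℂ) •
    (∑ b, (GF.eta b : ℂ) • (opD (Q.bose_fld _ (hJ.bose b))).comp (Xm b)) -
    (2 : ℂ) • ∑ m, ((GF.eta m * a m : ℝ) : ℂ) • (opD (Q.bose_fld _ (hJ.bose m))).comp (Xm n)

lemma EfC_apply (n : Ix) (a : V) (f : 𝓢(Mink, ℂ)) : EfC hJ n a f = Ef hJ n a f := by
  unfold EfC Ef Zf
  rw [ContinuousLinearMap.sub_apply, ContinuousLinearMap.add_apply,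
    ContinuousLinearMap.smul_apply, ContinuousLinearMap.smul_apply,
    ContinuousLinearMap.sum_apply, ContinuousLinearMap.sum_apply,
    ContinuousLinearMap.comp_apply, kdL_apply]
  rfl

/-- the tensor as a continuous linear map -/
theorem exists_KtC (h : ConfGen Q A K) (m n : Ix) :
    ∃ κ : 𝓢(Mink, ℂ) →L[ℂ] D, ∀ f, κ f = Kt hJ K m n f := by
  refine ⟨∑ i, (cf (eh m) i : ℂ) • (KJC h (isNull_nb i) (Q.bose_fld _ (hJ.bose n)) +
    I • EfC hJ n (nb i)), fun f => ?_⟩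
  unfold Kt Wx Wf
  rw [ContinuousLinearMap.sum_apply]
  refine Finset.sum_congr rfl fun i _ => ?_
  rw [ContinuousLinearMap.smul_apply, ContinuousLinearMap.add_apply,
    ContinuousLinearMap.smul_apply, KJC_apply, EfC_apply]

/-- the tensor as a continuous linear map -/
def KtC (h : ConfGen Q A K) (m n : Ix) : 𝓢(Mink, ℂ) →L[ℂ] D := (exists_KtC hJ h m n).choose

lemma KtC_apply (h : ConfGen Q A K) (m n : Ix) (f : 𝓢(Mink, ℂ)) :
    KtC hJ h m n f = Kt hJ K m n f := (exists_KtC hJ h m n).choose_spec f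

end

/-! ### The tensor on test functions -/

open Classical in
/-- the Schwartz function underlying a test function -/
def toS (F : Fn) : 𝓢(Mink, ℂ) := if h : GF.IsTest F then (exists_fl h).choose else 0

lemma fl_toS {F : Fn} (h : GF.IsTest F) : fl (toS F) = F := by
  unfold toS
  rw [dif_pos h]
  exact (exists_fl h).choose_spec

lemma fl_inj {f g : 𝓢(Mink, ℂ)} (h : fl f = fl g) : f = g := by
  ext x
  exact congrFun h x.ofLp

lemma toS_fl (f : 𝓢(Mink, ℂ)) : toS (fl f) = f := fl_inj (fl_toS (isTest_fl f))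

lemma toS_ev (g : Sch) : toS (ev g) = ofSch g := by
  have : ev g = fl (ofSch g) := rfl
  rw [this, toS_fl]

section

variable (hJ : IsVirial Q T J)

/-- the tensor on test functions -/
def Ktf (h : ConfGen Q A K) (m n : Ix) (F : Fn) : D := KtC hJ h m n (toS F)

lemma Ktf_fl (h : ConfGen Q A K) (m n : Ix) (f : 𝓢(Mink, ℂ)) :
    Ktf hJ h m n (fl f) = Kt hJ K m n f := by
  unfold Ktf
  rw [toS_fl, KtC_apply]

lemma Ktf_lin (h : ConfGen Q A K) (m n : Ix) (f g : Fn) (c : ℂ) (hf : GF.IsTest f)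
    (hg : GF.IsTest g) : Ktf hJ h m n (fun x => f x + c * g x) =
      Ktf hJ h m n f + c • Ktf hJ h m n g := by
  obtain ⟨F, rfl⟩ := exists_fl hf
  obtain ⟨G, rfl⟩ := exists_fl hg
  unfold Ktf
  rw [fl_add_smul, toS_fl, toS_fl, toS_fl, map_add, map_smul]

lemma Ktf_cont (h : ConfGen Q A K) (m n : Ix) : Continuous fun g => Ktf hJ h m n (ev g) := by
  unfold Ktf
  simp only [toS_ev]
  exact (KtC hJ h m n).continuous.comp ofSch.continuous

theorem Ktf_cov (h : ConfGen Q A K) (hb : BkCov Q J K) (m n : Ix) (s : ℝ) (L : Ix → V) (x : V)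
    (f : Fn) (hs : 0 < s) (hL : GF.IsLor L) (hf : GF.IsTest f) :
    Ktf hJ h m n f = ∑ k, ∑ l, ((s ^ 2 * L k m * L l n : ℝ) : ℂ) •
      Q.U s L x (Ktf hJ h k l fun z => f (sim s L x z)) := by
  obtain ⟨F, rfl⟩ := exists_fl hf
  rw [Ktf_fl, Kt_cov hJ h hb hs hL x, fl_sim s hs hL x]
  simp only [Ktf_fl]

/-- **The tensor.** -/
theorem ten_ct0 (h : ConfGen Q A K) (hb : BkCov Q J K) :
    Ct0 Q fun m n f => ((Ktf hJ h m n f : D) : Completion D) where
  lin m n f g c hf hg := by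
    rw [Ktf_lin hJ h m n f g c hf hg, Completion.coe_add, Completion.coe_smul]
  cont m n := (Completion.continuous_coe D).comp (Ktf_cont hJ h m n)
  cov m n s L a f v hs hL hf := by
    rw [Ktf_cov hJ h hb m n s L a f hs hL hf, Completion.inner_coe, sum_inner]
    refine Finset.sum_congr rfl fun k _ => ?_
    rw [sum_inner]
    refine Finset.sum_congr rfl fun l _ => ?_
    rw [inner_smul_left, conj_ofReal, Q.U_inner s L a _ _ hs hL, Completion.inner_coe]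
    push_cast
    ring

end

end Vale.Agent.P352.H731

end
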