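import Vale.Agent.P352.H15.NPDefs

open MeasureTheory Filter Topology

namespace Vale.Agent.P352.H731

open GF H496

noncomputable section

variable {D : Type*} [NormedAddCommGroup D] [InnerProductSpace ℂ D]

/-- On the vectors that the stress tensor creates from the vacuum, the second moments `K a` are
additive in the null vector `a`. -/
def AddT (Q : Theory D) (T : Ix → Ix → Fld D) (K : V → D → D) : Prop :=
  ∀ a b c d m n f, IsNull a → IsNull b → IsNull c → IsNull d → a + b = c + d → IsTest f →
    K a (T m n f Q.vac) + K b (T m n f Q.vac) = K c (T m n f Q.vac) + K d (T m n f Q.vac)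

end

end Vale.Agent.P352.H731
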