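import Vale.Agent.P352.H993.Lin
import Vale.Agent.P352.H846.TvC
import Vale.Agent.P352.H731.AddDefs

/-!
# Additivity of `K a` on the vectors `T^{mn}(f) Ω` implies the on-shell constraint
-/

set_option linter.all false

noncomputable section

open MeasureTheory Filter Topology Set
open scoped ContDiff ComplexConjugate

namespace Vale.Agent.P352.H731

open GF (Ix V Fn Fld bas eta o sim)
open H755 (XX XX_sim md_add md_add_l md_sub md_sub_l md_smul md_smul_l md_comm A_addX sim_shift)
open H496 H15 H246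
open H746 (kv kh kh_kv kh_cont tg_lim int_affine tgy tst_shift adm_of)
open H993 (Ev exists_w U_add' Ev_zero Ev_dep K_r Ev_r ns ns_dot ns_null null_r ns_rel)

variable {D : Type*} [NormedAddCommGroup D] [InnerProductSpace ℂ D]
variable {Q : GF.Theory D} {T : Ix → Ix → GF.Fld D} {J : Ix → GF.Fld D}
  {A : (V → V) → D → D} {K : V → D → D}

/-- additivity on a set of vectors -/
def AddP (K : V → D → D) (P : D → Prop) : Prop := ∀ a b c d v, IsNull a → IsNull b → IsNull c →
  IsNull d → a + b = c + d → P v → K a v + K b v = K c v + K d v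

section

variable {P : D → Prop} (hP : ∀ x v, P v → P (Q.U 1 GF.one x v))

include hP in
lemma Ev_add (h : NullCharges Q T J A K) (hK : AddP K P) {a b c d : V} (ha : IsNull a)
    (hb : IsNull b) (hc : IsNull c) (hd : IsNull d) (he : a + b = c + d) (x : V) (v : D)
    (hv : P v) :
    Ev Q A K x a v + Ev Q A K x b v = Ev Q A K x c v + Ev Q A K x d v := by
  have h1 := hK a b c d (Q.U 1 GF.one (-x) v) ha hb hc hd he (hP _ _ hv)
  have h2 := hK a b c d v ha hb hc hd he hv
  have h3 := congrArg (Q.U 1 GF.one x) h1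
  rw [U_add', U_add'] at h3
  have h4 : A (XX a x) v + A (XX b x) v = A (XX c x) v + A (XX d x) v := by
    rw [← A_addX h.toRep v (XX_sim a x) (XX_sim b x), ← A_addX h.toRep v (XX_sim c x) (XX_sim d x)]
    refine congrArg (fun X => A X v) (funext fun z => ?_)
    have ea : a = c + d - b := by rw [← he]; abel
    rw [ea]
    funext n
    simp only [XX, cK, md_smul, md_smul_l, md_add, md_add_l, md_sub, md_sub_l,
      Pi.add_apply, Pi.sub_apply, Pi.smul_apply, smul_eq_mul]
    ring
  unfold Ev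
  calc _ = (Q.U 1 GF.one x (K a (Q.U 1 GF.one (-x) v)) +
        Q.U 1 GF.one x (K b (Q.U 1 GF.one (-x) v))) - (K a v + K b v) -
        (A (XX a x) v + A (XX b x) v) := by abel
    _ = _ := by rw [h3, h2, h4]; abel


variable {a b w : V}

variable (hT : Q.IsStress T) (hJ : IsVirial Q T J) (h : NullCharges Q T J A K) (hK : AddP K P)
  (ha : IsNull a) (hb : IsNull b) (hab : GF.mdot a b = 1) (haw : GF.mdot a w = 0)
  (hbw : GF.mdot b w = 0) (hww : GF.mdot w w = -1)

include hP hT hJ h hK ha hb hab haw hbw hww in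
lemma stA {s : ℝ} (hs : s ≠ 0) {x y : V} (hxy : GF.mdot (ns a b w s) x = 2 * GF.mdot a y)
    (v : D) (hv : P v) : Ev Q A K x (ns a b w s) v = Ev Q A K y ((2 : ℝ) • a) v := by
  set t : ℝ := GF.mdot a y with ht
  set z : V := t • b - (t / s) • w with hz
  have z1 : GF.mdot a z = t := by rw [hz, md_sub, md_smul, md_smul, hab, haw]; ring
  have z2 : GF.mdot b z = 0 := by rw [hz, md_sub, md_smul, md_smul, hb.1, hbw]; ring
  have z3 : GF.mdot w z = t / s := by
    rw [hz, md_sub, md_smul, md_smul, md_comm w b, hbw, hww]; ring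
  have n1 : GF.mdot (ns a b w s) z = 2 * t := by
    rw [ns_dot, z1, z2, z3]; field_simp; ring
  have n2 : GF.mdot (ns a b w (-s)) z = 0 := by
    rw [ns_dot, z1, z2, z3]; field_simp; ring
  have hs2 : 0 < s ^ 2 := by positivity
  have h1 := Ev_add hP h hK (ns_null ha hb hab haw hbw hww hs)
    (ns_null ha hb hab haw hbw hww (neg_ne_zero.2 hs)) (null_r ha two_pos) (null_r hb hs2)
    (ns_rel a b w s) z v hv
  rw [Ev_zero hT h (ns_null ha hb hab haw hbw hww (neg_ne_zero.2 hs)) n2,
    Ev_zero hT h (null_r hb hs2) (x := z) (by rw [md_smul_l, z2, mul_zero]), add_zero,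
    add_zero] at h1
  rw [Ev_dep hT hJ h (ns_null ha hb hab haw hbw hww hs) (hxy.trans n1.symm), h1]
  exact Ev_dep hT hJ h (null_r ha two_pos) (by rw [md_smul_l, md_smul_l, z1, ht]) v

include hP hT hJ h hK ha hb hab haw hbw hww in
lemma stB {s : ℝ} (hs : s ≠ 0) {x y : V} (hxy : GF.mdot (ns a b w s) x = s ^ 2 * GF.mdot b y)
    (v : D) (hv : P v) : Ev Q A K x (ns a b w s) v = Ev Q A K y ((s ^ 2 : ℝ) • b) v := by
  set t : ℝ := GF.mdot b y with ht
  set z : V := t • a - (s * t / 2) • w with hz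
  have z1 : GF.mdot a z = 0 := by rw [hz, md_sub, md_smul, md_smul, ha.1, haw]; ring
  have z2 : GF.mdot b z = t := by
    rw [hz, md_sub, md_smul, md_smul, md_comm b a, hab, hbw]; ring
  have z3 : GF.mdot w z = s * t / 2 := by
    rw [hz, md_sub, md_smul, md_smul, md_comm w a, haw, hww]; ring
  have n1 : GF.mdot (ns a b w s) z = s ^ 2 * t := by
    rw [ns_dot, z1, z2, z3]; ring
  have n2 : GF.mdot (ns a b w (-s)) z = 0 := by
    rw [ns_dot, z1, z2, z3]; ring
  have hs2 : 0 < s ^ 2 := by positivity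
  have h1 := Ev_add hP h hK (ns_null ha hb hab haw hbw hww hs)
    (ns_null ha hb hab haw hbw hww (neg_ne_zero.2 hs)) (null_r ha two_pos) (null_r hb hs2)
    (ns_rel a b w s) z v hv
  rw [Ev_zero hT h (ns_null ha hb hab haw hbw hww (neg_ne_zero.2 hs)) n2,
    Ev_zero hT h (null_r ha two_pos) (x := z) (by rw [md_smul_l, z1, mul_zero]), add_zero,
    zero_add] at h1
  rw [Ev_dep hT hJ h (ns_null ha hb hab haw hbw hww hs) (hxy.trans n1.symm), h1]
  exact Ev_dep hT hJ h (null_r hb hs2) (by rw [md_smul_l, md_smul_l, z2, ht]) v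

include hP hT hJ h hK ha hb hab in
lemma Ev_odd {x y : V} (hxy : GF.mdot a x = -GF.mdot a y) (v : D) (hv : P v) :
    Ev Q A K x a v = -Ev Q A K y a v := by
  obtain ⟨w, haw, hbw, hww⟩ := exists_w a b
  set z : V := (-(2 * GF.mdot a x)) • w with hz
  have z1 : GF.mdot a z = 0 := by rw [hz, md_smul, haw]; ring
  have z2 : GF.mdot b z = 0 := by rw [hz, md_smul, hbw]; ring
  have z3 : GF.mdot w z = 2 * GF.mdot a x := by rw [hz, md_smul, hww]; ring
  have h1 := Ev_add hP h hK (ns_null ha hb hab haw hbw hww one_ne_zero)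
    (ns_null ha hb hab haw hbw hww (neg_ne_zero.2 one_ne_zero)) (null_r ha two_pos)
    (null_r hb (r := (1:ℝ) ^ 2) (by norm_num)) (ns_rel a b w 1) z v hv
  rw [stA hP hT hJ h hK ha hb hab haw hbw hww one_ne_zero (x := z) (y := x)
      (by rw [ns_dot, z1, z2, z3]; ring) v hv,
    stA hP hT hJ h hK ha hb hab haw hbw hww (neg_ne_zero.2 one_ne_zero) (x := z) (y := y)
      (by rw [ns_dot, z1, z2, z3, hxy]; ring) v hv,
    Ev_zero hT h (null_r ha two_pos) (x := z) (by rw [md_smul_l, z1, mul_zero]),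
    Ev_zero hT h (null_r hb (r := (1:ℝ) ^ 2) (by norm_num)) (x := z)
      (by rw [md_smul_l, z2, mul_zero]), add_zero,
    Ev_r hT h ha two_pos, Ev_r hT h ha two_pos, ← smul_add] at h1
  have h2 := (smul_eq_zero.1 h1).resolve_left (by norm_num)
  exact eq_neg_of_add_eq_zero_left h2

include hP hT hJ h hK ha hb hab in
lemma Ev_hom {r : ℝ} (hr : 0 < r) {x y : V} (hxy : GF.mdot a x = r * GF.mdot b y) (v : D)
    (hv : P v) :
    Ev Q A K x a v = (r : ℂ) • Ev Q A K y b v := by
  obtain ⟨w, haw, hbw, hww⟩ := exists_w a b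
  set s : ℝ := Real.sqrt (2 * r) with hs
  have hs0 : 0 < s := Real.sqrt_pos.2 (by linarith)
  have hs2 : s ^ 2 = 2 * r := Real.sq_sqrt (by linarith)
  set t : ℝ := GF.mdot a x with ht
  set z : V := t • b - (t / s) • w with hz
  have z1 : GF.mdot a z = t := by rw [hz, md_sub, md_smul, md_smul, hab, haw]; ring
  have z2 : GF.mdot b z = 0 := by rw [hz, md_sub, md_smul, md_smul, hb.1, hbw]; ring
  have z3 : GF.mdot w z = t / s := by
    rw [hz, md_sub, md_smul, md_smul, md_comm w b, hbw, hww]; ring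
  have n1 : GF.mdot (ns a b w s) z = 2 * t := by
    rw [ns_dot, z1, z2, z3]; field_simp; ring
  have h1 := stA hP hT hJ h hK ha hb hab haw hbw hww hs0.ne' (x := z) (y := x) n1 v hv
  have h2 := stB hP hT hJ h hK ha hb hab haw hbw hww hs0.ne' (x := z) (y := y)
    (by rw [n1, hs2, hxy]; ring) v hv
  rw [h1, Ev_r hT h ha two_pos, hs2, Ev_r hT h hb (by linarith)] at h2
  have h3 : ((2 : ℝ) : ℂ) • (Ev Q A K x a v - (r : ℂ) • Ev Q A K y b v) = 0 := by
    rw [smul_sub, h2, smul_smul]
    push_cast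
    rw [sub_self]
  have h4 := (smul_eq_zero.1 h3).resolve_left (by norm_num)
  exact sub_eq_zero.1 h4

include hP hT hJ h hK ha hb hab in
lemma Ev_lin (u : ℝ) (v : D) (hv : P v) : Ev Q A K (u • b) a v = (u : ℂ) • Ev Q A K b a v := by
  have hba : GF.mdot b a = 1 := by rw [md_comm, hab]
  have h1 := Ev_hom hP hT hJ h hK ha hb hab one_pos (x := b) (y := a) (by rw [hab, hba, mul_one]) v hv
  have key : ∀ r : ℝ, 0 < r → Ev Q A K (r • b) a v = (r : ℂ) • Ev Q A K b a v := by
    intro r hr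
    have h2 := Ev_hom hP hT hJ h hK ha hb hab hr (x := r • b) (y := a)
      (by rw [md_smul, hab, hba]) v hv
    rw [h2, h1]
    simp
  rcases lt_trichotomy u 0 with hu | hu | hu
  · have h3 := Ev_odd hP hT hJ h hK ha hb hab (x := u • b) (y := (-u) • b)
      (by rw [md_smul, md_smul]; ring) v hv
    rw [h3, key (-u) (by linarith)]
    push_cast
    rw [neg_smul, neg_neg]
  · rw [hu, Ev_zero hT h ha (by rw [md_smul, zero_mul])]
    simp
  · exact key u hu

include hP hT hJ h hK ha hb hab in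
lemma kv_lin (u : ℝ) (v : D) (hv : P v) : kv Q A K a b v u = K a v + (u : ℂ) • Ev Q A K b a v := by
  rw [← Ev_lin hP hT hJ h hK ha hb hab u v hv]
  unfold Ev kv
  rw [H755.A_XXb h.toRep hb hab u v]
  push_cast
  module

end


lemma test_tr (x : V) {f : Fn} (hf : GF.IsTest f) :
    GF.IsTest fun z => f (sim 1 GF.one x z) := by
  obtain ⟨F, rfl⟩ := Vale.Agent.P352.exists_fl hf
  rw [Vale.Agent.P352.fl_sim 1 one_pos Vale.Agent.P352.isLor_one x F]
  exact Vale.Agent.P352.isTest_fl _

/-- translations of the vectors created by the stress tensor -/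
lemma cov_T (hT : Q.IsStress T) (x : V) (m n : Ix) {f : Fn} (hf : GF.IsTest f) :
    Q.U 1 GF.one x (T m n f Q.vac) = T m n (fun z => f (sim 1 GF.one (-x) z)) Q.vac := by
  have hg := test_tr (-x) hf
  have h1 := hT.cov m n 1 GF.one x _ Q.vac one_pos Vale.Agent.P352.isLor_one hg
  rw [Q.U_vac 1 GF.one x one_pos Vale.Agent.P352.isLor_one] at h1
  have e : (fun z => (fun z => f (sim 1 GF.one (-x) z)) (sim 1 GF.one x z)) = f := by
    funext z
    show f (sim 1 GF.one (-x) (sim 1 GF.one x z)) = f z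
    rw [Vale.Agent.P352.sim_one, Vale.Agent.P352.sim_one]
    congr 1
    funext n
    simp
  rw [h1, Finset.sum_eq_single m, Finset.sum_eq_single n]
  · rw [e]
    simp [GF.one, bas]
  · intro l _ hl
    simp [GF.one, bas, hl, Ne.symm hl]
  · intro hh; exact absurd (Finset.mem_univ _) hh
  · intro k _ hk
    refine Finset.sum_eq_zero fun l _ => ?_
    simp [GF.one, bas, hk, Ne.symm hk]
  · intro hh; exact absurd (Finset.mem_univ _) hh

/-- **Additivity of the second moments on the vectors `T^{mn}(f) Ω` implies the on-shell dilaton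
constraint.** -/
theorem trNull_of_addT (hT : Q.IsStress T) (hJ : IsVirial Q T J) (h : NullCharges Q T J A K)
    (hK : AddT Q T K) : H121.TrNull T := by
  refine (H846.trVac_iff hT hJ h).1 ?_
  intro a b κ ψ m n f w hA hf _ _
  set P : D → Prop := fun v => ∃ m n f, GF.IsTest f ∧ v = T m n f Q.vac with hPdef
  have hP : ∀ x v, P v → P (Q.U 1 GF.one x v) := by
    rintro x v ⟨m, n, f, hf, rfl⟩
    exact ⟨m, n, _, test_tr (-x) hf, cov_T hT x m n hf⟩
  have hKP : AddP K P := by
    rintro a b c d v ha hb hc hd he ⟨m, n, f, hf, rfl⟩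
    exact hK a b c d m n f ha hb hc hd he hf
  have hv : P (T m n f Q.vac) := ⟨m, n, f, hf, rfl⟩
  have h1 := tg_lim hT hJ h hA (T m n f Q.vac) w
  rw [int_affine hA.2.2.2.2.2 (kh_cont h hA.1 hA.2.1 _ _) (fun u t => by
    rw [kh_kv, kh_kv, kh_kv, kv_lin hP hT hJ h hKP hA.1 hA.2.1 hA.2.2.1 _ _ hv,
      kv_lin hP hT hJ h hKP hA.1 hA.2.1 hA.2.2.1 _ _ hv,
      kv_lin hP hT hJ h hKP hA.1 hA.2.1 hA.2.2.1 _ _ hv]
    simp only [inner_add_right, inner_smul_right]
    push_cast
    ring), mul_zero, neg_zero] at h1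
  exact h1

end Vale.Agent.P352.H731

end
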