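import Mathlib

namespace Vale.Agent.P352.H731

open MeasureTheory Set Filter Topology
open scoped ENNReal NNReal

/-- the unit box -/
def ubox : Set (ℝ × ℝ) := Icc 0 1 ×ˢ Icc 0 1

theorem measurableSet_ubox : MeasurableSet ubox := measurableSet_Icc.prod measurableSet_Icc

theorem volume_ubox : (volume : Measure (ℝ × ℝ)) ubox = 1 := by
  unfold ubox
  rw [Measure.volume_eq_prod, Measure.prod_prod]
  simp

theorem ubox_subset : ubox ⊆ Metric.closedBall (0 : ℝ × ℝ) 1 := by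
  rintro ⟨x, y⟩ ⟨hx, hy⟩
  rw [Metric.mem_closedBall, dist_zero_right, Prod.norm_def, max_le_iff]
  exact ⟨by rw [Real.norm_eq_abs, abs_le]; exact ⟨by linarith [hx.1], hx.2⟩,
    by rw [Real.norm_eq_abs, abs_le]; exact ⟨by linarith [hy.1], hy.2⟩⟩

variable {ν : Measure ((ℝ × ℝ) × (ℝ × ℝ))}

theorem slice_eq_of_bdd (hfin : ∀ r : ℝ, ν (Metric.closedBall 0 r) < ∞)
    (h1 : ∀ b : ℝ × ℝ, ν.map (fun z => (z.1, b + z.2)) = ν)
    {E : Set (ℝ × ℝ)} (hE : MeasurableSet E) {r : ℝ} (hr : E ⊆ Metric.closedBall 0 r)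
    {K : Set (ℝ × ℝ)} (hK : MeasurableSet K) :
    ν (E ×ˢ K) = ν (E ×ˢ ubox) * volume K := by
  set ρ : Measure (ℝ × ℝ) := (ν.restrict (E ×ˢ univ)).map Prod.snd with hρ
  have hρa : ∀ K : Set (ℝ × ℝ), MeasurableSet K → ρ K = ν (E ×ˢ K) := by
    intro K hK
    rw [hρ, Measure.map_apply measurable_snd hK, Measure.restrict_apply (measurable_snd hK)]
    congr 1
    ext z
    simp [and_comm]
  have : Measure.IsAddLeftInvariant ρ := by
    refine ⟨fun b => ?_⟩
    ext K hK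
    have hm : Measurable fun x : ℝ × ℝ => b + x := measurable_const_add b
    have hm2 : Measurable fun z : (ℝ × ℝ) × (ℝ × ℝ) => (z.1, b + z.2) := by fun_prop
    rw [Measure.map_apply hm hK, hρa _ (hm hK), hρa K hK]
    conv_rhs => rw [← h1 b]
    rw [Measure.map_apply hm2 (hE.prod hK)]
    rfl
  have : IsFiniteMeasureOnCompacts ρ := by
    refine ⟨fun K hK => ?_⟩
    obtain ⟨R, hR⟩ := hK.isBounded.subset_closedBall 0
    rw [hρa K hK.measurableSet]
    refine (measure_mono ?_).trans_lt (hfin (max r R))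
    rintro ⟨x, y⟩ ⟨hx, hy⟩
    have h2 := hr hx
    have h3 := hR hy
    rw [Metric.mem_closedBall, dist_zero_right] at h2 h3 ⊢
    rw [Prod.norm_def]
    exact max_le_max h2 h3
  have hu := Measure.isAddLeftInvariant_eq_smul ρ (volume : Measure (ℝ × ℝ))
  have hub : ρ ubox = (Measure.addHaarScalarFactor ρ (volume : Measure (ℝ × ℝ)) : ℝ≥0∞) := by
    conv_lhs => rw [hu]
    rw [Measure.smul_apply, volume_ubox]
    simp [ENNReal.smul_def]
  rw [← hρa K hK, ← hρa ubox measurableSet_ubox, hub]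
  conv_lhs => rw [hu]
  rw [Measure.smul_apply, ENNReal.smul_def, smul_eq_mul]

theorem slice_eq (hfin : ∀ r : ℝ, ν (Metric.closedBall 0 r) < ∞)
    (h1 : ∀ b : ℝ × ℝ, ν.map (fun z => (z.1, b + z.2)) = ν)
    {E : Set (ℝ × ℝ)} (hE : MeasurableSet E)
    {K : Set (ℝ × ℝ)} (hK : MeasurableSet K) :
    ν (E ×ˢ K) = ν (E ×ˢ ubox) * volume K := by
  have key : ∀ K : Set (ℝ × ℝ), ν (E ×ˢ K)
      = ⨆ n : ℕ, ν ((E ∩ Metric.closedBall 0 (n : ℝ)) ×ˢ K) := by
    intro K
    have hmono : Monotone fun n : ℕ => (E ∩ Metric.closedBall (0 : ℝ × ℝ) (n : ℝ)) ×ˢ K := by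
      intro m n hmn
      refine prod_mono (inter_subset_inter_right _ (Metric.closedBall_subset_closedBall ?_)) le_rfl
      exact_mod_cast hmn
    rw [← hmono.measure_iUnion]
    congr 1
    rw [← iUnion_prod_const, ← inter_iUnion, Metric.iUnion_closedBall_nat, inter_univ]
  rw [key K, key ubox, ENNReal.iSup_mul]
  refine iSup_congr fun n => ?_
  exact slice_eq_of_bdd hfin h1 (hE.inter measurableSet_closedBall) inter_subset_right hK

/-- **uniqueness of the quasi-invariant measure** in the coordinates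
`((log (p0 + p1), log m²), (p2 / (p0 + p1), p3 / (p0 + p1)))` -/
theorem eq_smul_volume (hfin : ∀ r : ℝ, ν (Metric.closedBall 0 r) < ∞)
    (h1 : ∀ b : ℝ × ℝ, ν.map (fun z => (z.1, b + z.2)) = ν)
    (h2 : ∀ c : ℝ, ν.map (fun z => ((c, 2 * c) + z.1, z.2)) = ν)
    (h3 : ∀ t : ℝ, ν.map (fun z => ((t, 0) + z.1, Real.exp (-t) • z.2))
      = ENNReal.ofReal (Real.exp (2 * t)) • ν) :
    ∃ c : ℝ≥0, ν = c • (volume : Measure ((ℝ × ℝ) × (ℝ × ℝ))) := by
  set ρ : Measure (ℝ × ℝ) := (ν.restrict (univ ×ˢ ubox)).map Prod.fst with hρ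
  have hρa : ∀ E : Set (ℝ × ℝ), MeasurableSet E → ρ E = ν (E ×ˢ ubox) := by
    intro E hE
    rw [hρ, Measure.map_apply measurable_fst hE, Measure.restrict_apply (measurable_fst hE)]
    congr 1
    ext z
    simp
  have ha : ∀ c : ℝ, ρ.map (fun x => (c, 2 * c) + x) = ρ := by
    intro c
    ext E hE
    have hm : Measurable fun x : ℝ × ℝ => (c, 2 * c) + x := measurable_const_add _
    have hm2 : Measurable fun z : (ℝ × ℝ) × (ℝ × ℝ) => ((c, 2 * c) + z.1, z.2) := by fun_prop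
    rw [Measure.map_apply hm hE, hρa _ (hm hE), hρa E hE]
    conv_rhs => rw [← h2 c]
    rw [Measure.map_apply hm2 (hE.prod measurableSet_ubox)]
    rfl
  have hb : ∀ t : ℝ, ρ.map (fun x => (t, 0) + x) = ρ := by
    intro t
    ext E hE
    have hm : Measurable fun x : ℝ × ℝ => (t, (0:ℝ)) + x := measurable_const_add _
    have hm2 : Measurable fun z : (ℝ × ℝ) × (ℝ × ℝ) =>
      ((t, (0:ℝ)) + z.1, Real.exp (-t) • z.2) := by fun_prop
    have hm3 : Measurable fun y : ℝ × ℝ => Real.exp t • y := by fun_prop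
    rw [Measure.map_apply hm hE, hρa _ (hm hE), hρa E hE]
    have e1 : ((fun x : ℝ × ℝ => (t, (0:ℝ)) + x) ⁻¹' E) ×ˢ ubox
        = (fun z : (ℝ × ℝ) × (ℝ × ℝ) => ((t, (0:ℝ)) + z.1, Real.exp (-t) • z.2)) ⁻¹'
          (E ×ˢ ((fun y : ℝ × ℝ => Real.exp t • y) ⁻¹' ubox)) := by
      ext z
      simp only [mem_prod, mem_preimage, smul_smul, ← Real.exp_add, add_neg_cancel, Real.exp_zero,
        one_smul]
    rw [e1, ← Measure.map_apply hm2 (hE.prod (hm3 measurableSet_ubox)), h3 t, Measure.smul_apply,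
      slice_eq hfin h1 hE (hm3 measurableSet_ubox),
      Measure.addHaar_preimage_smul volume (Real.exp_pos t).ne', volume_ubox]
    have hd : Module.finrank ℝ (ℝ × ℝ) = 2 := by simp
    rw [hd, mul_one, smul_eq_mul, mul_comm (ν _), ← mul_assoc, ← ENNReal.ofReal_mul (Real.exp_pos _).le]
    have e2 : Real.exp (2 * t) * |(Real.exp t ^ 2)⁻¹| = 1 := by
      rw [abs_of_pos (by positivity), ← Real.exp_nat_mul]
      push_cast
      rw [mul_inv_cancel₀ (Real.exp_pos _).ne']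
    rw [e2, ENNReal.ofReal_one, one_mul]
  have : Measure.IsAddLeftInvariant ρ := by
    refine ⟨fun b => ?_⟩
    have hm1 : Measurable fun x : ℝ × ℝ => (b.2 / 2, 2 * (b.2 / 2)) + x := measurable_const_add _
    have hm2 : Measurable fun x : ℝ × ℝ => (b.1 - b.2 / 2, (0:ℝ)) + x := measurable_const_add _
    have e : (fun x : ℝ × ℝ => b + x) = (fun x : ℝ × ℝ => (b.2 / 2, 2 * (b.2 / 2)) + x) ∘
        (fun x : ℝ × ℝ => (b.1 - b.2 / 2, (0:ℝ)) + x) := by
      funext x
      ext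
      · simp; ring
      · simp; ring
    rw [e, ← Measure.map_map hm1 hm2, hb, ha]
  have : IsFiniteMeasureOnCompacts ρ := by
    refine ⟨fun K hK => ?_⟩
    obtain ⟨R, hR⟩ := hK.isBounded.subset_closedBall 0
    rw [hρa K hK.measurableSet]
    refine (measure_mono ?_).trans_lt (hfin (max R 1))
    rintro ⟨x, y⟩ ⟨hx, hy⟩
    have h2 := hR hx
    have h3 := ubox_subset hy
    rw [Metric.mem_closedBall, dist_zero_right] at h2 h3 ⊢
    rw [Prod.norm_def]
    exact max_le_max h2 h3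
  have hu := Measure.isAddLeftInvariant_eq_smul ρ (volume : Measure (ℝ × ℝ))
  refine ⟨Measure.addHaarScalarFactor ρ (volume : Measure (ℝ × ℝ)), ?_⟩
  have hp : ρ.prod (volume : Measure (ℝ × ℝ)) = ν := by
    refine Measure.prod_eq fun s t hs ht => ?_
    rw [slice_eq hfin h1 hs ht, hρa s hs]
  rw [← hp]
  conv_lhs => rw [hu]
  rw [Measure.volume_eq_prod (ℝ × ℝ) (ℝ × ℝ)]
  rw [Measure.prod_smul_left]

end Vale.Agent.P352.H731
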