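import Vale.Agent.P352.H246.Meas
import Vale.Agent.P352.H731.Haar4

set_option linter.all false

noncomputable section

open MeasureTheory Filter Topology Set
open scoped ENNReal NNReal

namespace Vale.Agent.P352.H731

open Vale.Agent.P352 Vale.Agent.P352.H246

/-- the open forward cone -/
def Pc : Set Mink := {p | 0 < p 0 + p 1 ∧ 0 < mass2 p}

theorem mass2_eq (p : Mink) : mass2 p = (p 0 - p 1) * (p 0 + p 1) - p 2 ^ 2 - p 3 ^ 2 := by
  unfold mass2 mdot
  ring

theorem cont_x : Continuous fun p : Mink => p 0 + p 1 := by fun_prop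

theorem isOpen_Pc : IsOpen Pc :=
  (isOpen_lt continuous_const cont_x).inter (isOpen_lt continuous_const continuous_mass2)

theorem meas_Pc : MeasurableSet Pc := isOpen_Pc.measurableSet

/-- the weight `x⁻² M⁻¹` -/
def wt (p : Mink) : ℝ≥0∞ := ENNReal.ofReal (((p 0 + p 1) ^ 2 * mass2 p)⁻¹)

theorem meas_wt : Measurable wt :=
  ENNReal.measurable_ofReal.comp
    (((cont_x.measurable.pow_const 2).mul continuous_mass2.measurable).inv)

theorem wt_ne_zero {p : Mink} (hp : p ∈ Pc) : wt p ≠ 0 := by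
  have h1 := hp.1
  have h2 := hp.2
  unfold wt
  rw [Ne, ENNReal.ofReal_eq_zero, not_le]
  positivity

/-- the coordinates -/
def Psi (p : Mink) : (ℝ × ℝ) × (ℝ × ℝ) :=
  ((Real.log (p 0 + p 1), Real.log (mass2 p)), (p 2 / (p 0 + p 1), p 3 / (p 0 + p 1)))

theorem meas_Psi : Measurable Psi := by
  have h0 : Measurable fun p : Mink => p 0 + p 1 := cont_x.measurable
  have h1 : Measurable mass2 := continuous_mass2.measurable
  have h2 : Measurable fun p : Mink => p 2 := by fun_prop
  have h3 : Measurable fun p : Mink => p 3 := by fun_prop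
  exact ((Real.measurable_log.comp h0).prodMk (Real.measurable_log.comp h1)).prodMk
    ((h2.div h0).prodMk (h3.div h0))

/-- inverse -/
def Phi (z : (ℝ × ℝ) × (ℝ × ℝ)) : Mink :=
  WithLp.toLp 2 ![
    (Real.exp z.1.1 + (Real.exp (z.1.2 - z.1.1) + (z.2.1 ^ 2 + z.2.2 ^ 2) * Real.exp z.1.1)) / 2,
    (Real.exp z.1.1 - (Real.exp (z.1.2 - z.1.1) + (z.2.1 ^ 2 + z.2.2 ^ 2) * Real.exp z.1.1)) / 2,
    z.2.1 * Real.exp z.1.1, z.2.2 * Real.exp z.1.1]

theorem cont_Phi : Continuous Phi := by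
  unfold Phi
  refine (PiLp.continuous_toLp 2 _).comp ?_
  refine continuous_pi fun i => ?_
  fin_cases i <;> simp <;> fun_prop

theorem Phi_Psi {p : Mink} (hp : p ∈ Pc) : Phi (Psi p) = p := by
  have h1 : 0 < p 0 + p 1 := hp.1
  have h2 : 0 < mass2 p := hp.2
  have hm := mass2_eq p
  have hne : p 0 + p 1 ≠ 0 := h1.ne'
  have e1 : Real.exp (Real.log (mass2 p) - Real.log (p 0 + p 1)) = mass2 p / (p 0 + p 1) := by
    rw [Real.exp_sub, Real.exp_log h1, Real.exp_log h2]
  apply mink_ext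
  · show (Real.exp (Real.log (p 0 + p 1)) + (Real.exp (Real.log (mass2 p) - Real.log (p 0 + p 1))
      + ((p 2 / (p 0 + p 1)) ^ 2 + (p 3 / (p 0 + p 1)) ^ 2) * Real.exp (Real.log (p 0 + p 1)))) / 2
      = p 0
    rw [e1, Real.exp_log h1, hm]
    field_simp
    ring
  · show (Real.exp (Real.log (p 0 + p 1)) - (Real.exp (Real.log (mass2 p) - Real.log (p 0 + p 1))
      + ((p 2 / (p 0 + p 1)) ^ 2 + (p 3 / (p 0 + p 1)) ^ 2) * Real.exp (Real.log (p 0 + p 1)))) / 2
      = p 1
    rw [e1, Real.exp_log h1, hm]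
    field_simp
    ring
  · show (p 2 / (p 0 + p 1)) * Real.exp (Real.log (p 0 + p 1)) = p 2
    rw [Real.exp_log h1]
    field_simp
  · show (p 3 / (p 0 + p 1)) * Real.exp (Real.log (p 0 + p 1)) = p 3
    rw [Real.exp_log h1]
    field_simp

/-- the invariances used -/
structure QS (μ : Measure Mink) : Prop where
  n2 : ∀ b, μ.map (lam (mNull b)) = μ
  n3 : ∀ b, μ.map (lam (mNull' b)) = μ
  bo : ∀ t, μ.map (lam (mBoost t)) = μ
  sc : ∀ s : ℝ, 0 < s → μ.map (fun p => s • p) = ENNReal.ofReal ((s ^ 4)⁻¹) • μ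
  fin : ∀ R, μ (Metric.closedBall 0 R) < ∞

/-- weighted measure on the cone -/
def lw (μ : Measure Mink) : Measure Mink := (μ.restrict Pc).withDensity wt

/-- in coordinates -/
def nu (μ : Measure Mink) : Measure ((ℝ × ℝ) × (ℝ × ℝ)) := (lw μ).map Psi

theorem nu_apply (μ : Measure Mink) {S : Set ((ℝ × ℝ) × (ℝ × ℝ))} (hS : MeasurableSet S) :
    nu μ S = ∫⁻ p, (Pc ∩ Psi ⁻¹' S).indicator wt p ∂μ := by
  unfold nu lw
  rw [Measure.map_apply meas_Psi hS, withDensity_apply _ (meas_Psi hS),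
    Measure.restrict_restrict (meas_Psi hS), inter_comm,
    lintegral_indicator (meas_Pc.inter (meas_Psi hS))]

/-- transport under a map of the cone -/
theorem nu_map {μ : Measure Mink} {T : Mink → Mink} (hT : Measurable T)
    (hTP : ∀ p, T p ∈ Pc ↔ p ∈ Pc) {α γ : ℝ≥0∞} (hα : μ.map T = α • μ) (hγ : γ ≠ ∞)
    (hw : ∀ p ∈ Pc, wt p = γ * wt (T p))
    {A : (ℝ × ℝ) × (ℝ × ℝ) → (ℝ × ℝ) × (ℝ × ℝ)} (hA : Measurable A)
    (hPsi : ∀ p ∈ Pc, Psi (T p) = A (Psi p)) :
    (nu μ).map A = (γ * α) • nu μ := by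
  ext S hS
  rw [Measure.map_apply hA hS, nu_apply μ (hA hS), Measure.smul_apply, nu_apply μ hS]
  have e : ∀ p, (Pc ∩ Psi ⁻¹' (A ⁻¹' S)).indicator wt p
      = γ * (Pc ∩ Psi ⁻¹' S).indicator wt (T p) := by
    intro p
    by_cases hp : p ∈ Pc
    · have h1 : p ∈ Pc ∩ Psi ⁻¹' (A ⁻¹' S) ↔ T p ∈ Pc ∩ Psi ⁻¹' S := by
        simp only [mem_inter_iff, mem_preimage, hTP p, hPsi p hp]
      by_cases h2 : p ∈ Pc ∩ Psi ⁻¹' (A ⁻¹' S)
      · rw [indicator_of_mem h2, indicator_of_mem (h1.1 h2), hw p hp]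
      · rw [indicator_of_notMem h2, indicator_of_notMem fun h => h2 (h1.2 h), mul_zero]
    · rw [indicator_of_notMem fun h => hp h.1, indicator_of_notMem fun h => hp ((hTP p).1 h.1),
        mul_zero]
  have hm : Measurable ((Pc ∩ Psi ⁻¹' S).indicator wt) :=
    meas_wt.indicator (meas_Pc.inter (meas_Psi hS))
  simp_rw [e]
  rw [lintegral_const_mul' _ _ hγ, ← lintegral_map hm hT, hα, lintegral_smul_measure, smul_eq_mul,
    smul_eq_mul, mul_assoc]

theorem n2_x (b : ℝ) (p : Mink) :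
    (lam (mNull b) p) 0 + (lam (mNull b) p) 1 = p 0 + p 1 := by
  simp only [Fin.isValue, mNull, lam_apply, Matrix.cons_val', Matrix.cons_val_zero,
    Matrix.cons_val_fin_one, Fin.sum_univ_four, Matrix.cons_val_one, Matrix.cons_val, mul_zero,
    add_zero, mul_neg]; ring

theorem n2_2 (b : ℝ) (p : Mink) : (lam (mNull b) p) 2 = p 2 + b * (p 0 + p 1) := by
  simp only [Fin.isValue, mNull, lam_apply, Matrix.cons_val', Matrix.cons_val,
    Matrix.cons_val_fin_one, Fin.sum_univ_four, Matrix.cons_val_zero, Matrix.cons_val_one,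
    mul_one, mul_zero, add_zero]; ring

theorem n2_3 (b : ℝ) (p : Mink) : (lam (mNull b) p) 3 = p 3 := by
  simp [Fin.sum_univ_four, mNull]

theorem n2_m (b : ℝ) (p : Mink) : mass2 (lam (mNull b) p) = mass2 p :=
  mdot_lam (isLor_null b) p p

theorem n3_x (b : ℝ) (p : Mink) :
    (lam (mNull' b) p) 0 + (lam (mNull' b) p) 1 = p 0 + p 1 := by
  simp only [Fin.isValue, mNull', lam_apply, Matrix.cons_val', Matrix.cons_val_zero,
    Matrix.cons_val_fin_one, Fin.sum_univ_four, Matrix.cons_val_one, Matrix.cons_val, mul_zero,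
    add_zero, mul_neg]; ring

theorem n3_2 (b : ℝ) (p : Mink) : (lam (mNull' b) p) 2 = p 2 := by
  simp only [Fin.isValue, mNull', lam_apply, Matrix.cons_val', Matrix.cons_val,
    Matrix.cons_val_fin_one, Fin.sum_univ_four, Matrix.cons_val_zero, mul_zero,
    Matrix.cons_val_one, add_zero, mul_one, zero_add]

theorem n3_3 (b : ℝ) (p : Mink) : (lam (mNull' b) p) 3 = p 3 + b * (p 0 + p 1) := by
  simp only [Fin.isValue, mNull', lam_apply, Matrix.cons_val', Matrix.cons_val,
    Matrix.cons_val_fin_one, Fin.sum_univ_four, Matrix.cons_val_zero, Matrix.cons_val_one,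
    mul_zero, add_zero, mul_one]; ring

theorem n3_m (b : ℝ) (p : Mink) : mass2 (lam (mNull' b) p) = mass2 p :=
  mdot_lam (isLor_null' b) p p

theorem bo_x (t : ℝ) (p : Mink) :
    (lam (mBoost t) p) 0 + (lam (mBoost t) p) 1 = Real.exp t * (p 0 + p 1) := by
  have h := SymMeasure.boost_sum (Real.exp t) (Real.exp_pos t) p
  rwa [Real.log_exp] at h

theorem bo_2 (t : ℝ) (p : Mink) : (lam (mBoost t) p) 2 = p 2 := by
  simp only [Fin.isValue, mBoost, lam_apply, Matrix.cons_val', Matrix.cons_val,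
    Matrix.cons_val_fin_one, Fin.sum_univ_four, Matrix.cons_val_zero, mul_zero,
    Matrix.cons_val_one, add_zero, mul_one, zero_add]

theorem bo_3 (t : ℝ) (p : Mink) : (lam (mBoost t) p) 3 = p 3 := by
  simp only [Fin.isValue, mBoost, lam_apply, Matrix.cons_val', Matrix.cons_val,
    Matrix.cons_val_fin_one, Fin.sum_univ_four, Matrix.cons_val_zero, mul_zero,
    Matrix.cons_val_one, add_zero, mul_one, zero_add]

theorem bo_m (t : ℝ) (p : Mink) : mass2 (lam (mBoost t) p) = mass2 p :=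
  mdot_lam (isLor_boost t) p p

section

variable {μ : Measure Mink} (Q : QS μ)
include Q

theorem inv_n2 (b : ℝ) : (nu μ).map (fun z => (z.1, (b, 0) + z.2)) = nu μ := by
  have h := nu_map (μ := μ) (T := lam (mNull b)) (continuous_lam _).measurable
    (by intro p; simp only [Pc, mem_setOf_eq, n2_x, n2_m]) (α := 1) (γ := 1)
    (by rw [Q.n2 b, one_smul]) ENNReal.one_ne_top
    (by intro p _; simp only [wt, n2_x, n2_m, one_mul])
    (A := fun z => (z.1, (b, 0) + z.2)) (by fun_prop)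
    (by
      intro p hp
      have hne : p 0 + p 1 ≠ 0 := hp.1.ne'
      simp only [Psi, n2_x, n2_m, n2_2, n2_3, Prod.mk_add_mk, zero_add, Prod.mk.injEq, true_and,
        and_true]
      field_simp
      ring)
  rwa [mul_one, one_smul] at h

theorem inv_n3 (b : ℝ) : (nu μ).map (fun z => (z.1, (0, b) + z.2)) = nu μ := by
  have h := nu_map (μ := μ) (T := lam (mNull' b)) (continuous_lam _).measurable
    (by intro p; simp only [Pc, mem_setOf_eq, n3_x, n3_m]) (α := 1) (γ := 1)
    (by rw [Q.n3 b, one_smul]) ENNReal.one_ne_top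
    (by intro p _; simp only [wt, n3_x, n3_m, one_mul])
    (A := fun z => (z.1, (0, b) + z.2)) (by fun_prop)
    (by
      intro p hp
      have hne : p 0 + p 1 ≠ 0 := hp.1.ne'
      simp only [Psi, n3_x, n3_m, n3_2, n3_3, Prod.mk_add_mk, zero_add, Prod.mk.injEq, true_and,
        and_true]
      field_simp
      ring)
  rwa [mul_one, one_smul] at h

theorem inv_null (b : ℝ × ℝ) : (nu μ).map (fun z => (z.1, b + z.2)) = nu μ := by
  have hm2 : Measurable fun z : (ℝ × ℝ) × (ℝ × ℝ) => (z.1, (b.1, (0:ℝ)) + z.2) := by fun_prop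
  have hm3 : Measurable fun z : (ℝ × ℝ) × (ℝ × ℝ) => (z.1, ((0:ℝ), b.2) + z.2) := by fun_prop
  have e : (fun z : (ℝ × ℝ) × (ℝ × ℝ) => (z.1, b + z.2))
      = (fun z : (ℝ × ℝ) × (ℝ × ℝ) => (z.1, (b.1, (0:ℝ)) + z.2)) ∘
        (fun z : (ℝ × ℝ) × (ℝ × ℝ) => (z.1, ((0:ℝ), b.2) + z.2)) := by
    funext z
    ext <;> simp
  rw [e, ← Measure.map_map hm2 hm3, inv_n3 Q, inv_n2 Q]

theorem inv_dil (c : ℝ) : (nu μ).map (fun z => ((c, 2 * c) + z.1, z.2)) = nu μ := by
  have hs : 0 < Real.exp c := Real.exp_pos c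
  have hx : ∀ p : Mink, (Real.exp c • p) 0 + (Real.exp c • p) 1 = Real.exp c * (p 0 + p 1) := by
    intro p
    simp only [PiLp.smul_apply, smul_eq_mul]
    ring
  have h := nu_map (μ := μ) (T := fun p => Real.exp c • p) (by fun_prop)
    (by
      intro p
      simp only [Pc, mem_setOf_eq, hx, mass2_smul]
      rw [mul_pos_iff_of_pos_left hs, mul_pos_iff_of_pos_left (by positivity)])
    (α := ENNReal.ofReal ((Real.exp c ^ 4)⁻¹)) (γ := ENNReal.ofReal (Real.exp c ^ 4))
    (Q.sc _ hs) ENNReal.ofReal_ne_top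
    (by
      intro p hp
      have h1 := hp.1
      have h2 := hp.2
      simp only [wt, hx, mass2_smul]
      rw [← ENNReal.ofReal_mul (by positivity)]
      congr 1
      field_simp)
    (A := fun z => ((c, 2 * c) + z.1, z.2)) (by fun_prop)
    (by
      intro p hp
      have h1 := hp.1
      have h2 := hp.2
      simp only [Psi, hx, mass2_smul]
      simp only [PiLp.smul_apply, smul_eq_mul]
      rw [Real.log_mul hs.ne' h1.ne', Real.log_mul (by positivity) h2.ne', Real.log_exp,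
        Real.log_pow, Real.log_exp, mul_div_mul_left _ _ hs.ne', mul_div_mul_left _ _ hs.ne']
      simp)
  rw [← ENNReal.ofReal_mul (by positivity), mul_inv_cancel₀ (by positivity), ENNReal.ofReal_one,
    one_smul] at h
  exact h

theorem inv_boost (t : ℝ) : (nu μ).map (fun z => ((t, 0) + z.1, Real.exp (-t) • z.2))
    = ENNReal.ofReal (Real.exp (2 * t)) • nu μ := by
  have hs : 0 < Real.exp t := Real.exp_pos t
  have h := nu_map (μ := μ) (T := lam (mBoost t)) (continuous_lam _).measurable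
    (by
      intro p
      simp only [Pc, mem_setOf_eq, bo_x, bo_m]
      rw [mul_pos_iff_of_pos_left hs]) (α := 1) (γ := ENNReal.ofReal (Real.exp (2 * t)))
    (by rw [Q.bo t, one_smul]) ENNReal.ofReal_ne_top
    (by
      intro p hp
      have h1 := hp.1
      have h2 := hp.2
      simp only [wt, bo_x, bo_m]
      rw [← ENNReal.ofReal_mul (by positivity), two_mul, Real.exp_add]
      congr 1
      field_simp)
    (A := fun z => ((t, 0) + z.1, Real.exp (-t) • z.2)) (by fun_prop)
    (by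
      intro p hp
      have h1 := hp.1
      have h2 := hp.2
      have hne : p 0 + p 1 ≠ 0 := h1.ne'
      simp only [Psi, bo_x, bo_m, bo_2, bo_3]
      rw [Real.log_mul hs.ne' h1.ne', Real.log_exp, Real.exp_neg]
      ext
      · simp
      · simp
      · simp
        field_simp
      · simp
        field_simp)
  rwa [mul_one] at h

theorem nu_fin (r : ℝ) : nu μ (Metric.closedBall 0 r) < ∞ := by
  have hK : IsCompact (Phi '' Metric.closedBall 0 r) := (isCompact_closedBall 0 r).image cont_Phi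
  obtain ⟨R, hR⟩ := hK.isBounded.subset_closedBall 0
  rw [nu_apply μ measurableSet_closedBall]
  have hle : ∀ p, (Pc ∩ Psi ⁻¹' Metric.closedBall 0 r).indicator wt p
      ≤ (Metric.closedBall (0 : Mink) R).indicator (fun _ => ENNReal.ofReal (Real.exp (3 * r))) p := by
    intro p
    by_cases hp : p ∈ Pc ∩ Psi ⁻¹' Metric.closedBall 0 r
    · rw [indicator_of_mem hp]
      have h1 : p ∈ Metric.closedBall (0 : Mink) R := hR ⟨Psi p, hp.2, Phi_Psi hp.1⟩
      rw [indicator_of_mem h1]
      unfold wt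
      apply ENNReal.ofReal_le_ofReal
      have hx : 0 < p 0 + p 1 := hp.1.1
      have hm : 0 < mass2 p := hp.1.2
      have h2 := hp.2
      rw [mem_preimage, Metric.mem_closedBall, dist_zero_right] at h2
      have h3 : |Real.log (p 0 + p 1)| ≤ r :=
        ((norm_fst_le (Psi p).1).trans (norm_fst_le (Psi p))).trans h2
      have h4 : |Real.log (mass2 p)| ≤ r :=
        ((norm_snd_le (Psi p).1).trans (norm_fst_le (Psi p))).trans h2
      have e : ((p 0 + p 1) ^ 2 * mass2 p)⁻¹
          = Real.exp (-(2 * Real.log (p 0 + p 1) + Real.log (mass2 p))) := by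
        rw [Real.exp_neg, Real.exp_add, two_mul, Real.exp_add, Real.exp_log hx, Real.exp_log hm, sq]
      rw [e]
      apply Real.exp_le_exp.2
      have h5 := neg_abs_le (Real.log (p 0 + p 1))
      have h6 := neg_abs_le (Real.log (mass2 p))
      linarith
    · rw [indicator_of_notMem hp]
      exact bot_le
  refine (lintegral_mono hle).trans_lt ?_
  rw [lintegral_indicator measurableSet_closedBall, setLIntegral_const]
  exact ENNReal.mul_lt_top ENNReal.ofReal_lt_top (Q.fin R)

theorem nu_eq : ∃ c : ℝ≥0, nu μ = c • (volume : Measure ((ℝ × ℝ) × (ℝ × ℝ))) :=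
  eq_smul_volume (nu_fin Q) (inv_null Q) (inv_dil Q) (inv_boost Q)

theorem lw_eq : ∃ c : ℝ≥0, lw μ = c • (volume : Measure ((ℝ × ℝ) × (ℝ × ℝ))).map Phi := by
  obtain ⟨c, hc⟩ := nu_eq Q
  refine ⟨c, ?_⟩
  rw [← Measure.map_smul, ← hc]
  unfold nu
  rw [Measure.map_map cont_Phi.measurable meas_Psi]
  have h : (Phi ∘ Psi) =ᵐ[lw μ] id := by
    have h1 : ∀ᵐ p ∂(lw μ), p ∈ Pc := by
      unfold lw
      exact (withDensity_absolutelyContinuous _ _).ae_le (ae_restrict_mem meas_Pc)
    filter_upwards [h1] with p hp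
    exact Phi_Psi hp
  rw [Measure.map_congr h, Measure.map_id]

end

theorem restrict_eq_lw (μ : Measure Mink) :
    μ.restrict Pc = (lw μ).withDensity fun p => (wt p)⁻¹ := by
  unfold lw
  rw [withDensity_inv_same meas_wt]
  · filter_upwards [ae_restrict_mem meas_Pc] with p hp
    exact wt_ne_zero hp
  · exact ae_of_all _ fun p => ENNReal.ofReal_ne_top

theorem QS_volume : QS (volume : Measure Mink) where
  n2 b := (measurePreserving_lam_volume (isLor_null b)).map_eq
  n3 b := (measurePreserving_lam_volume (isLor_null' b)).map_eq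
  bo t := (measurePreserving_lam_volume (isLor_boost t)).map_eq
  sc s hs := by
    have h := Measure.map_addHaar_smul (volume : Measure Mink) hs.ne'
    have hd : Module.finrank ℝ Mink = 4 := by simp
    rw [hd, abs_of_pos (by positivity)] at h
    exact h
  fin R := measure_closedBall_lt_top

theorem QS_sym {μ : Measure Mink} (S : SymMeasure μ 2) : QS μ where
  n2 b := (S.lor _ (isLor_null b)).map_eq
  n3 b := (S.lor _ (isLor_null' b)).map_eq
  bo t := (S.lor _ (isLor_boost t)).map_eq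
  sc s hs := by
    ext B hB
    have hm : Measurable fun p : Mink => s • p := by fun_prop
    have h := S.scale s⁻¹ (inv_pos.2 hs) B hB
    rw [inv_inv] at h
    rw [Measure.map_apply hm hB, h, Measure.smul_apply, smul_eq_mul]
    congr 2
    have : (2 * (2 : ℝ)) = ((4 : ℕ) : ℝ) := by norm_num
    rw [this, Real.rpow_natCast, inv_pow]
  fin := S.fin

theorem null_Pc {μ : Measure Mink} (S : SymMeasure μ 2) : μ Pcᶜ = 0 := by
  refine measure_mono_null (t := fwdConeᶜ ∪ {p | mass2 p = 0}) ?_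
    (measure_union_null S.cone (S.null_zero (by norm_num)))
  intro p hp
  by_contra h
  rw [mem_union, not_or] at h
  obtain ⟨h1, h2⟩ := h
  rw [mem_compl_iff, not_not] at h1
  apply hp
  have hm0 : 0 ≤ mass2 p := h1.2
  have hm : 0 < mass2 p := lt_of_le_of_ne hm0 fun h => h2 h.symm
  have h3 := abs_le.1 (abs_le_of_mem_fwdCone h1)
  refine ⟨?_, hm⟩
  have h4 : 0 ≤ p 0 + p 1 := by linarith [h3.1]
  refine lt_of_le_of_ne h4 fun h5 => ?_
  have h6 := mass2_eq p
  rw [← h5] at h6
  nlinarith [sq_nonneg (p 2), sq_nonneg (p 3)]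

/-- **a Lorentz invariant measure on the forward cone of degree 2 is `≤ C d⁴p`** -/
theorem sym_eq_volume {μ : Measure Mink} (S : SymMeasure μ 2) :
    ∃ C : ℝ≥0, μ = (C : ℝ≥0∞) • (volume : Measure Mink).restrict Pc := by
  obtain ⟨c1, h1⟩ := lw_eq (QS_sym S)
  obtain ⟨c2, h2⟩ := lw_eq QS_volume
  have hc2 : c2 ≠ 0 := by
    intro h
    rw [h, zero_smul] at h2
    have h3 : (volume : Measure Mink).restrict Pc = 0 := by
      rw [restrict_eq_lw, h2, withDensity_zero_left]
    rw [Measure.restrict_eq_zero] at h3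
    have h4 : (WithLp.toLp 2 ![1, 0, 0, 0] : Mink) ∈ Pc := by
      refine ⟨?_, ?_⟩
      · show (0:ℝ) < 1 + 0
        norm_num
      · rw [mass2_eq]
        show (0:ℝ) < (1 - 0) * (1 + 0) - 0 ^ 2 - 0 ^ 2
        norm_num
    exact (isOpen_Pc.measure_pos volume ⟨_, h4⟩).ne' h3
  refine ⟨c1 / c2, ?_⟩
  have h3 : lw μ = ((c1 / c2 : ℝ≥0) : ℝ≥0∞) • lw (volume : Measure Mink) := by
    rw [h1, h2]
    rw [← ENNReal.smul_def, smul_smul, div_mul_cancel₀ _ hc2]
  have h4 : μ.restrict Pc = μ := by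
    refine Measure.restrict_eq_self_of_ae_mem ?_
    rw [ae_iff]
    exact null_Pc S
  rw [← h4, restrict_eq_lw μ, h3, withDensity_smul_measure, ← restrict_eq_lw]

/-- the form asked for in note 13051 -/
theorem sym_le_volume {μ : Measure Mink} (S : SymMeasure μ 2) :
    ∃ C : ℝ≥0, μ ≤ (C : ℝ≥0∞) • (volume : Measure Mink) := by
  obtain ⟨C, hC⟩ := sym_eq_volume S
  refine ⟨C, ?_⟩
  conv_lhs => rw [hC]
  refine Measure.le_iff.2 fun s hs => ?_
  rw [Measure.smul_apply, Measure.smul_apply]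
  exact mul_le_mul_right (Measure.restrict_apply_le _ _) _

end Vale.Agent.P352.H731

end
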