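import Vale.Agent.P352.H15.Top
import Vale.Agent.P352.H496.Enl2
import Vale.Agent.P352.H746.Chg2

set_option linter.all false

/-!
# P352: the improvement field and all local fields
-/

noncomputable section

open MeasureTheory Filter Topology SchwartzMap
open scoped SchwartzMap ComplexConjugate LineDeriv

namespace Vale.Agent.P352.H731

open GF (Ix V Fn Fld Theory Sch IsLor bas eta o sim pd tr improve ev bar Sep)
open H246 H496 H755 H746 H846 H15

variable {D : Type*} [NormedAddCommGroup D] [InnerProductSpace ℂ D]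
variable {Q Q' : GF.Theory D} {T : Ix → Ix → GF.Fld D} {J : Ix → GF.Fld D}
  {A : (V → V) → D → D} {K : V → D → D}

/-- `main1` with the improvement field made explicit -/
theorem main_L (hT : Q.IsStress T) (hJ : IsVirial Q T J) (h : ConfGen Q A K)
    (hm : Mom Q T K ∨ Act Q J K) :
    ∃ Q' : Theory D, IsEnl Q Q' ∧ Q'.IsScalar (Lf J K H15.a0 H15.b0) 2 ∧
      ∀ f v, GF.IsTest f → tr (improve T (Lf J K H15.a0 H15.b0)) f v = 0 := by
  obtain ⟨Y, hY⟩ := H15.tens hT hJ h
  obtain ⟨y1, y2, y3, y4, y5⟩ := hY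
  have hprim : ∀ a f, IsNull a → GF.IsTest f → K a (Y f) = -(Complex.I • Y (kd a 2 f)) :=
    fun a f ha hf => H148.prim h y2 y3 y4 ha hf
  have hLY : ∀ a b f, NPr a b → GF.IsTest f → Lf J K a b f Q.vac = (Complex.I / 12) • Y f := by
    intro a b f hp hf
    unfold Lf
    rw [y1 a b f hp.1 hp.2.1 hf, hp.2.2, smul_smul]
    congr 1
    push_cast
    ring
  have hF : LFam Q (Lf J K) := H15.lfam_Lf hT hJ h hm fun a b a' b' f hp hp' hf => by
    rw [hLY a b f hp hf, hLY a' b' f hp' hf]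
  have htr0 : ∀ f, GF.IsTest f → tr T f Q.vac = (3 : ℂ) • Lf J K H15.a0 H15.b0 (box f) Q.vac := by
    intro f hf
    have hb : GF.IsTest (box f) := by
      obtain ⟨F, rfl⟩ := exists_fl hf
      rw [box_fl]
      exact isTest_fl _
    rw [trace_vac hT hJ h ⟨y1, y2, y3, y4, y5⟩ hprim hf, hLY H15.a0 H15.b0 _ npr0 hb, smul_smul]
    congr 1
    ring
  obtain ⟨Q', h1, h2⟩ := exists_enl Q (Lf J K H15.a0 H15.b0)
    (fun f g c v hf hg => Lf_lin hJ h npr0.1 npr0.2.1 hf hg c v)
    (fun v => Lf_cont hJ h npr0.1 npr0.2.1 v)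
    (fun f v w hf => Lf_herm hJ h npr0.1 npr0.2.1 hf v w)
    (fun B f g v hB hf hg hs => hF.loc_fld npr0 hB hf hg hs v)
    (fun f g v hf hg hs => hF.loc_self npr0 hf hg hs v)
    (fun s M x f v hs hM hf => Lf_cov hJ h hF npr0 x v hs hM hf)
  refine ⟨Q', h1, h2, fun f v hf => ?_⟩
  rw [tr_improve (fun f g c v hf hg => Lf_lin hJ h npr0.1 npr0.2.1 hf hg c v) hf,
    hF.trace hT npr0 htr0 hf, sub_self]

/-! ### Enlargements -/

lemma enl_virial (he : IsEnl Q Q') (hJ : IsVirial Q T J) : IsVirial Q' T J where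
  bose m := he.bose _ (hJ.bose m)
  herm := hJ.herm
  cov := by
    intro m s L a f v hs hL hf
    rw [he.U]
    exact hJ.cov m s L a f v hs hL hf
  div := hJ.div

lemma enl_rep (he : IsEnl Q Q') (h : Rep Q A) : Rep Q' A where
  mul := by
    intro s L a s' L' a' v h1 h2 h3 h4
    rw [he.U]
    exact h.mul s L a s' L' a' v h1 h2 h3 h4
  add := h.add
  der := by
    intro s L a X v h1 h2 h3 h4 h5
    rw [he.U]
    exact h.der s L a X v h1 h2 h3 h4 h5

lemma enl_conf (he : IsEnl Q Q') (h : ConfGen Q A K) : ConfGen Q' A K where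
  toRep := enl_rep he h.toRep
  symm := h.symm
  cov := by
    intro s L r a b v h1 h2 h3 h4 h5 h6
    rw [he.U]
    exact h.cov s L r a b v h1 h2 h3 h4 h5 h6
  tra := by
    intro a x v ha
    rw [he.U]
    exact h.tra a x v ha

lemma enl_mom (he : IsEnl Q Q') (h : Mom Q T K) : Mom Q' T K := by
  intro a b κ y ψ v w had
  rw [he.U]
  exact h a b κ y ψ v w had

lemma enl_locOp (he : IsEnl Q Q') {O : Set V} {P P' : D → D} (h : LocOp Q' O P P') :
    LocOp Q O P P' where
  adj := h.adj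
  comm := fun B f v hB hf => h.comm B f v (he.bose B hB) hf
  comm' := fun B f v hB hf => h.comm' B f v (he.bose B hB) hf

lemma enl_act (he : IsEnl Q Q') (h : Act Q J K) : Act Q' J K :=
  fun a m O P P' f v ha hO hP hf => h a m O P P' f v ha hO (enl_locOp he hP) hf

/-- **The improvement field and all local fields.** -/
theorem main_all (hT : Q.IsStress T) (hJ : IsVirial Q T J) (h : ConfGen Q A K)
    (hm : Mom Q T K ∨ Act Q J K) :
    ∃ L : Fld D, ∀ Q₁ : Theory D, IsEnl Q Q₁ → ∃ Q₂ : Theory D, IsEnl Q₁ Q₂ ∧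
      Q₂.IsScalar L 2 ∧ Q₂.IsStress (improve T L) ∧ IsImpr Q₂ T (improve T L) ∧
      IsT Q₂ (improve T L) := by
  refine ⟨Lf J K H15.a0 H15.b0, fun Q₁ he => ?_⟩
  have hT1 := isStress_enl he hT
  obtain ⟨Q', h1, h2, h3⟩ := main_L hT1 (enl_virial he hJ) (enl_conf he h)
    (hm.imp (enl_mom he) (enl_act he))
  obtain ⟨Q₂, g1, g2, g3, g4, g5, g6⟩ := exists_stress hT1 h1 h2 h3
    fun Q'' hQ => isStress_enl (enl_trans he hQ) hT
  exact ⟨Q₂, g1, g3, g4, g5, g6⟩

end Vale.Agent.P352.H731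

end
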