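import Mathlib

namespace Vale.Agent.P352.H731

open MeasureTheory Filter Topology
open scoped ContDiff

/-- telescoping over the integers -/
theorem hasSum_tele {f : ℤ → ℝ} {a : ℤ} {N : ℕ} (h0 : ∀ j ≤ a, f j = 0)
    (h1 : ∀ j, a + N ≤ j → f j = 1) : HasSum (fun j : ℤ => f (j + 1) - f j) 1 := by
  have hoff : ∀ b : ℤ, b ∉ (Finset.range N).map ⟨fun n : ℕ => a + (n : ℤ), fun x y h => by
      simpa using h⟩ → f (b + 1) - f b = 0 := by
    intro b hb
    by_cases h : b < a
    · rw [h0 _ (by omega), h0 _ (by omega), sub_zero]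
    · by_cases h' : a + N ≤ b
      · rw [h1 _ (by omega), h1 _ (by omega), sub_self]
      · exfalso
        apply hb
        rw [Finset.mem_map]
        refine ⟨(b - a).toNat, ?_, ?_⟩
        · rw [Finset.mem_range]; omega
        · show a + ((b - a).toNat : ℤ) = b
          omega
  have key : HasSum (fun j : ℤ => f (j + 1) - f j) _ := hasSum_sum_of_ne_finset_zero hoff
  rw [Finset.sum_map] at key
  have e : ∑ n ∈ Finset.range N, (f (a + (n : ℤ) + 1) - f (a + (n : ℤ))) = 1 := by
    have := Finset.sum_range_sub (fun n : ℕ => f (a + (n : ℤ))) N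
    simp only [Nat.cast_add, Nat.cast_one, Nat.cast_zero, add_zero] at this
    rw [h1 (a + N) le_rfl, h0 a le_rfl, sub_zero] at this
    rw [← this]
    refine Finset.sum_congr rfl fun n _ => ?_
    rw [add_assoc]
  have key2 : HasSum (fun j : ℤ => f (j + 1) - f j)
    (∑ n ∈ Finset.range N, (f (a + (n : ℤ) + 1) - f (a + (n : ℤ)))) := key
  rw [e] at key2
  exact key2

/-- the smooth step from 0 (below 1) to 1 (above 4) -/
noncomputable def chi (x : ℝ) : ℝ := Real.smoothTransition ((x - 1) / 3)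

theorem chi_zero {x : ℝ} (h : x ≤ 1) : chi x = 0 :=
  Real.smoothTransition.zero_of_nonpos (by linarith)

theorem chi_one {x : ℝ} (h : 4 ≤ x) : chi x = 1 :=
  Real.smoothTransition.one_of_one_le (by linarith)

theorem chi_contDiff : ContDiff ℝ ∞ chi := by
  unfold chi
  exact Real.smoothTransition.contDiff.comp (by fun_prop)

theorem chi_mono : Monotone chi := by
  intro x y h
  exact Real.smoothTransition.monotone (by linarith)

/-- **(D)** -/
theorem exists_bumps : ∃ g θ : ℝ → ℝ, ContDiff ℝ ∞ g ∧ HasCompactSupport g ∧ (∀ x, 0 ≤ g x) ∧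
    ∫ x, g x = 1 ∧ ContDiff ℝ ∞ θ ∧ (∀ x, θ x ≠ 0 → 1/4 ≤ x ∧ x ≤ 4) ∧ (∀ x, 0 ≤ θ x) ∧
    ContDiff ℝ ∞ (fun x => θ x / x) ∧
    ∀ m, 0 < m → HasSum (fun j : ℤ => θ ((4:ℝ) ^ j * m)) 1 := by
  let φ : ContDiffBump (0 : ℝ) := ⟨1, 2, by norm_num, by norm_num⟩
  have hθ : ContDiff ℝ ∞ (fun x : ℝ => chi (4 * x) - chi x) :=
    (chi_contDiff.comp (by fun_prop)).sub chi_contDiff
  have hz : ∀ x : ℝ, x < 1/4 → chi (4 * x) - chi x = 0 := fun x hx => by
    rw [chi_zero (by linarith), chi_zero (by linarith), sub_zero]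
  refine ⟨φ.normed volume, fun x => chi (4 * x) - chi x, φ.contDiff_normed,
    φ.hasCompactSupport_normed, φ.nonneg_normed, φ.integral_normed, hθ, ?_, ?_, ?_, ?_⟩
  · intro x hx
    constructor
    · by_contra h
      exact hx (hz x (by linarith))
    · by_contra h
      apply hx
      simp only
      rw [chi_one (by linarith), chi_one (by linarith), sub_self]
  · intro x
    by_cases h : x < 1/4
    · simp only
      rw [hz x h]
    · have := chi_mono (show x ≤ 4 * x by linarith)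
      simp only
      linarith
  · rw [contDiff_iff_contDiffAt]
    intro x
    by_cases h : x < 1/4
    · have e : (fun x : ℝ => (chi (4 * x) - chi x) / x) =ᶠ[𝓝 x] fun _ => (0 : ℝ) := by
        filter_upwards [Iio_mem_nhds h] with y hy
        rw [hz y hy, zero_div]
      exact contDiffAt_const.congr_of_eventuallyEq e
    · exact hθ.contDiffAt.div contDiffAt_id (by show x ≠ 0; intro h0; linarith)
  · intro m hm
    -- choose bounds
    obtain ⟨p, hp⟩ : ∃ p : ℕ, m / 4 ^ p ≤ 1 := by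
      obtain ⟨p, hp⟩ := pow_unbounded_of_one_lt m (show (1:ℝ) < 4 by norm_num)
      exact ⟨p, by rw [div_le_one (by positivity)]; exact hp.le⟩
    obtain ⟨q, hq⟩ : ∃ q : ℕ, 4 ≤ m * 4 ^ q := by
      obtain ⟨q, hq⟩ := pow_unbounded_of_one_lt (4 / m) (show (1:ℝ) < 4 by norm_num)
      refine ⟨q, ?_⟩
      rw [div_lt_iff₀ hm] at hq
      linarith
    have key := hasSum_tele (f := fun j : ℤ => chi ((4:ℝ) ^ j * m)) (a := -(p : ℤ)) (N := p + q)
      (by
        intro j hj
        apply chi_zero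
        have h1 : (4:ℝ) ^ j ≤ (4:ℝ) ^ (-(p : ℤ)) := zpow_le_zpow_right₀ (by norm_num) hj
        rw [zpow_neg, zpow_natCast] at h1
        calc (4:ℝ) ^ j * m ≤ ((4:ℝ) ^ p)⁻¹ * m := by
              exact mul_le_mul_of_nonneg_right h1 hm.le
          _ = m / 4 ^ p := by rw [div_eq_mul_inv, mul_comm]
          _ ≤ 1 := hp)
      (by
        intro j hj
        apply chi_one
        have h1 : (4:ℝ) ^ (q : ℤ) ≤ (4:ℝ) ^ j := by
          apply zpow_le_zpow_right₀ (by norm_num)
          push_cast at hj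
          omega
        rw [zpow_natCast] at h1
        calc (4:ℝ) ≤ m * 4 ^ q := hq
          _ = 4 ^ q * m := mul_comm _ _
          _ ≤ (4:ℝ) ^ j * m := mul_le_mul_of_nonneg_right h1 hm.le)
    have e : (fun j : ℤ => chi (4 * ((4:ℝ) ^ j * m)) - chi ((4:ℝ) ^ j * m))
        = fun j : ℤ => chi ((4:ℝ) ^ (j + 1) * m) - chi ((4:ℝ) ^ j * m) := by
      funext j
      rw [zpow_add_one₀ (by norm_num : (4:ℝ) ≠ 0)]
      congr 2
      ring
    show HasSum (fun j : ℤ => chi (4 * ((4:ℝ) ^ j * m)) - chi ((4:ℝ) ^ j * m)) 1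
    rw [e]
    exact key

end Vale.Agent.P352.H731
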