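import Vale.Agent.P352.H246.Defs

open UniformSpace (Completion)

namespace Vale.Agent.P352.H731

open GF

noncomputable section

variable {D : Type*} [NormedAddCommGroup D] [InnerProductSpace ℂ D]

/-- `K` is a vector valued tensor distribution of rank two and scaling dimension two, covariant
under all similitudes. -/
structure Ct0 (Q : Theory D) (K : Ix → Ix → Fn → Completion D) : Prop where
  lin : ∀ m n f g (c : ℂ), IsTest f → IsTest g →
    K m n (fun x => f x + c * g x) = K m n f + c • K m n g
  cont : ∀ m n, Continuous fun g => K m n (ev g)
  cov : ∀ m n s L a f v, 0 < s → IsLor L → IsTest f →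
    inner ℂ (K m n f) (Q.U s L a v : Completion D) =
      ∑ k, ∑ l, (s ^ 2 * L k m * L l n : ℂ) *
        inner ℂ (K k l (fun x => f (sim s L a x))) (v : Completion D)

end

end Vale.Agent.P352.H731
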