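import Mathlib

namespace Vale.Agent.P352.H731

open MeasureTheory Filter Topology
open scoped ENNReal

/-- `2 (1 - cos (t y)) / t^2 → y^2` along `t n → 0`. -/
theorem tendsto_cos_quot (y : ℝ) (t : ℕ → ℝ) (t0 : ∀ n, 0 < t n) (tt : Tendsto t atTop (𝓝 0)) :
    Tendsto (fun n => 2 * (1 - Real.cos (t n * y)) / (t n)^2) atTop (𝓝 (y ^ 2)) := by
  have h1 : ∀ᶠ n in atTop, |t n * y| ≤ 1 := by
    have : Tendsto (fun n => |t n * y|) atTop (𝓝 |0 * y|) := (tt.mul_const y).abs
    rw [zero_mul, abs_zero] at this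
    exact (this.eventually (Iio_mem_nhds one_pos)).mono fun n hn => le_of_lt hn
  have hb : ∀ᶠ n in atTop, |2 * (1 - Real.cos (t n * y)) / (t n)^2 - y ^ 2| ≤ y ^ 4 * (t n) ^ 2 := by
    filter_upwards [h1] with n hn
    have h := Real.cos_bound hn
    have ht := t0 n
    have h3 : 0 < (t n)^2 := by positivity
    have e : 2 * (1 - Real.cos (t n * y)) / (t n)^2 - y ^ 2
        = -(2 * (Real.cos (t n * y) - (1 - (t n * y) ^ 2 / 2))) / (t n)^2 := by
      field_simp
      ring
    rw [e, abs_div, abs_neg, abs_mul, abs_of_pos h3, div_le_iff₀ h3]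
    have h4 : |t n * y| ^ 4 = (t n)^4 * y^4 := by
      rw [← abs_pow, abs_of_nonneg (by positivity)]; ring
    rw [h4] at h
    rw [abs_of_pos (by norm_num : (0:ℝ) < 2)]
    have h5 : 0 ≤ (t n)^4 * y^4 := by positivity
    nlinarith
  have h2 : Tendsto (fun n => y ^ 4 * (t n) ^ 2) atTop (𝓝 0) := by
    have : Tendsto (fun n => y ^ 4 * (t n) ^ 2) atTop (𝓝 (y ^ 4 * 0 ^ 2)) := (tt.pow 2).const_mul _
    simpa using this
  rw [tendsto_iff_norm_sub_tendsto_zero]
  exact squeeze_zero' (Eventually.of_forall fun n => norm_nonneg _) hb h2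

/-- **(C)** -/
theorem fatou_sq {X : Type*} [MeasurableSpace X] (ν : Measure X) [IsFiniteMeasure ν] (f : X → ℝ)
    (hf : Measurable f) (M : ℝ) (t : ℕ → ℝ) (t0 : ∀ n, 0 < t n) (tt : Tendsto t atTop (𝓝 0))
    (m : ℕ → ℝ) (hm : Tendsto m atTop (𝓝 M))
    (h : ∀ n, ∫ x, 2 * (1 - Real.cos (t n * f x)) ∂ν ≤ m n * (t n)^2) :
    Integrable (fun x => f x ^ 2) ν ∧ ∫ x, f x ^ 2 ∂ν ≤ M := by
  have hnn : ∀ n x, 0 ≤ 2 * (1 - Real.cos (t n * f x)) := fun n x => by
    have := Real.cos_le_one (t n * f x)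
    linarith
  have hint : ∀ n, Integrable (fun x => 2 * (1 - Real.cos (t n * f x)) / (t n)^2) ν := by
    intro n
    refine Integrable.of_bound (C := 4 / (t n)^2) ?_ ?_
    · exact Measurable.aestronglyMeasurable (by fun_prop)
    · refine ae_of_all _ fun x => ?_
      rw [Real.norm_eq_abs, abs_of_nonneg (div_nonneg (hnn n x) (by positivity))]
      have := Real.neg_one_le_cos (t n * f x)
      gcongr
      linarith
  have hm0 : ∀ n, 0 ≤ m n := by
    intro n
    have h1 : 0 ≤ ∫ x, 2 * (1 - Real.cos (t n * f x)) ∂ν := integral_nonneg fun x => hnn n x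
    have h2 : 0 ≤ m n * (t n)^2 := h1.trans (h n)
    have h3 : 0 < (t n)^2 := by have := t0 n; positivity
    exact nonneg_of_mul_nonneg_left h2 h3
  have hM : 0 ≤ M := ge_of_tendsto' hm hm0
  have hl : ∫⁻ x, ENNReal.ofReal (f x ^ 2) ∂ν ≤ ENNReal.ofReal M := by
    have e : ∀ x, ENNReal.ofReal (f x ^ 2)
        = liminf (fun n => ENNReal.ofReal (2 * (1 - Real.cos (t n * f x)) / (t n)^2)) atTop := by
      intro x
      have := (ENNReal.continuous_ofReal.tendsto _).comp (tendsto_cos_quot (f x) t t0 tt)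
      exact this.liminf_eq.symm
    calc ∫⁻ x, ENNReal.ofReal (f x ^ 2) ∂ν
        = ∫⁻ x, liminf (fun n => ENNReal.ofReal (2 * (1 - Real.cos (t n * f x)) / (t n)^2)) atTop ∂ν := by
          simp_rw [← e]
      _ ≤ liminf (fun n => ∫⁻ x, ENNReal.ofReal (2 * (1 - Real.cos (t n * f x)) / (t n)^2) ∂ν) atTop :=
          lintegral_liminf_le fun n => by fun_prop
      _ ≤ liminf (fun n => ENNReal.ofReal (m n)) atTop := by
          refine liminf_le_liminf (Eventually.of_forall fun n => ?_)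
          rw [← ofReal_integral_eq_lintegral_ofReal (hint n)
            (ae_of_all _ fun x => div_nonneg (hnn n x) (by positivity))]
          apply ENNReal.ofReal_le_ofReal
          have h3 : 0 < (t n)^2 := by have := t0 n; positivity
          rw [integral_div, div_le_iff₀ h3]
          exact h n
      _ = ENNReal.ofReal M := ((ENNReal.continuous_ofReal.tendsto _).comp hm).liminf_eq
  have hI : Integrable (fun x => f x ^ 2) ν := by
    refine ⟨(hf.pow_const 2).aestronglyMeasurable, ?_⟩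
    rw [hasFiniteIntegral_iff_ofReal (ae_of_all _ fun x => sq_nonneg _)]
    exact hl.trans_lt ENNReal.ofReal_lt_top
  refine ⟨hI, ?_⟩
  rw [← ofReal_integral_eq_lintegral_ofReal hI (ae_of_all _ fun x => sq_nonneg _)] at hl
  exact (ENNReal.ofReal_le_ofReal_iff hM).1 hl

end Vale.Agent.P352.H731
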