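import Mathlib.Analysis.Normed.Algebra.MatrixExponential
import Mathlib.Analysis.SpecialFunctions.Exponential
import Vale.Agent.P352.H246.Ind

set_option linter.all false

noncomputable section

open MeasureTheory SchwartzMap Complex Filter Topology
open scoped SchwartzMap ComplexConjugate ENNReal LineDeriv

namespace Vale.Agent.P352.H731

open GF (Ix V Fn Sch ev pd bar sim bas o)
open H246

/-! ### Curves of Lorentz transformations -/

open scoped Matrix.Norms.Operator in
lemma exists_lor_eig {w : Ix → V} (hw : ∀ m n, GF.eta n * w m n = -(GF.eta m * w n m))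
    {a : V} {l : ℝ} (hl : ∀ n, ∑ m, a m * w m n = l * a n)
    (hz : ∀ z, GF.mdot a z = 0 → ∃ t : ℝ, ∀ n, ∑ m, z m * w m n = t * a n) :
    ∃ L : ℝ → Ix → V, L 0 = GF.one ∧ (∀ e, GF.IsLor (L e)) ∧
      (∀ m n, HasDerivAt (fun e => L e m n) (w m n) 0) ∧
      (∀ e n, ∑ m, a m * L e m n = Real.exp (e * l) * a n) ∧
      ∀ e z, GF.mdot a z = 0 → ∃ t : ℝ, ∀ n, ∑ m, z m * L e m n = z n + t * a n := by
  set W : Matrix Ix Ix ℝ := Matrix.of w with hW
  set E : Matrix Ix Ix ℝ := Matrix.diagonal GF.eta with hE
  have hEE : E * E = 1 := by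
    rw [hE, Matrix.diagonal_mul_diagonal]
    have : (fun i => GF.eta i * GF.eta i) = fun _ => 1 := by
      funext i; exact eta_sq i
    rw [this, Matrix.diagonal_one]
  have hEu : IsUnit E := IsUnit.of_mul_eq_one E hEE
  have hEi : E⁻¹ = E := Matrix.inv_eq_right_inv hEE
  have hEW : E * W.transpose * E = -W := by
    ext m n
    rw [hE, Matrix.mul_diagonal, Matrix.diagonal_mul]
    simp only [hW, Matrix.transpose_apply, Matrix.of_apply, Matrix.neg_apply]
    have h1 := hw m n
    have h2 := eta_sq m
    have h3 := eta_sq n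
    linear_combination (GF.eta n) * h1 - (w m n) * h3
  set P : ℝ → Matrix Ix Ix ℝ := fun e => NormedSpace.exp (e • W) with hP
  have hT : ∀ e, E * (P e).transpose * E = (P e)⁻¹ := by
    intro e
    have h1 : E * (e • W).transpose * E⁻¹ = -(e • W) := by
      rw [hEi, Matrix.transpose_smul, Matrix.mul_smul, Matrix.smul_mul, hEW, smul_neg]
    have h2 := Matrix.exp_conj E (e • W).transpose hEu
    rw [h1, Matrix.exp_neg, Matrix.exp_transpose, hEi] at h2
    exact h2.symm
  have hdet : ∀ e, IsUnit (P e).det := fun e =>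
    (Matrix.isUnit_iff_isUnit_det _).1 (Matrix.isUnit_exp _)
  have hPi : ∀ e, P e * (P e)⁻¹ = 1 := fun e => Matrix.mul_nonsing_inv _ (hdet e)
  have hiP : ∀ e, (P e)⁻¹ * P e = 1 := fun e => Matrix.nonsing_inv_mul _ (hdet e)
  have hPP : ∀ e, P e = P (e / 2) * P (e / 2) := by
    intro e
    simp only [hP]
    rw [← Matrix.exp_add_of_commute _ _ (Commute.refl _), ← add_smul, add_halves]
  have h1 : ∀ e, P e * E * (P e).transpose = E := by
    intro e
    have h := hPi e
    rw [← hT e] at h
    have h2 : P e * E * (P e).transpose * (E * E) = E := by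
      calc P e * E * (P e).transpose * (E * E) = P e * (E * (P e).transpose * E) * E := by
            simp only [Matrix.mul_assoc]
        _ = E := by rw [h, Matrix.one_mul]
    rwa [hEE, Matrix.mul_one] at h2
  have h2 : ∀ e, (P e).transpose * E * P e = E := by
    intro e
    have h := hiP e
    rw [← hT e] at h
    have h2 : (E * E) * ((P e).transpose * E * P e) = E := by
      calc (E * E) * ((P e).transpose * E * P e) = E * (E * (P e).transpose * E * P e) := by
            simp only [Matrix.mul_assoc]
        _ = E := by rw [h, Matrix.mul_one]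
    rwa [hEE, Matrix.one_mul] at h2
  have hd2 : ∀ e, (P e).det * (P e).det = 1 := by
    intro e
    have h3 := congrArg Matrix.det (h1 e)
    rw [Matrix.det_mul, Matrix.det_mul, Matrix.det_transpose] at h3
    have h4 : E.det * E.det = 1 := by rw [← Matrix.det_mul, hEE, Matrix.det_one]
    have h5 : E.det ≠ 0 := by
      intro h0
      rw [h0, zero_mul] at h4
      exact zero_ne_one h4
    have h6 : (P e).det * (P e).det * E.det = 1 * E.det := by linear_combination h3
    exact mul_right_cancel₀ h5 h6
  have hd : ∀ e, (P e).det = 1 := by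
    intro e
    rw [hPP e, Matrix.det_mul, hd2]
  have e1 : ∀ e m n, ∑ k, GF.eta k * P e m k * P e n k = E m n := by
    intro e m n
    rw [← h1 e, Matrix.mul_apply]
    refine Finset.sum_congr rfl fun k _ => ?_
    rw [hE, Matrix.mul_diagonal, Matrix.transpose_apply]
    ring
  have e2 : ∀ e m n, ∑ k, GF.eta k * P e k m * P e k n = E m n := by
    intro e m n
    have h3 := congrFun (congrFun (h2 e) m) n
    rw [← h3, Matrix.mul_apply]
    refine Finset.sum_congr rfl fun k _ => ?_
    rw [hE, Matrix.mul_diagonal, Matrix.transpose_apply]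
    ring
  have hder : ∀ (z : V) (n : Ix) (t : ℝ), HasDerivAt (fun t => ∑ m, z m * P t m n)
      (∑ k, (∑ m, z m * w m k) * P t k n) t := by
    intro z n t
    have h3 := hasDerivAt_exp_smul_const' (𝕂 := ℝ) W t
    set c : Matrix Ix Ix ℝ →L[ℝ] ℝ := LinearMap.toContinuousLinearMap
      (∑ m, z m • Matrix.entryLinearMap ℝ ℝ m n) with hc
    have hca : ∀ M, c M = ∑ m, z m * M m n := by
      intro M
      rw [hc]
      simp
    have h4 := c.hasFDerivAt.comp_hasDerivAt t h3
    have h5 : c (W * NormedSpace.exp (t • W)) = ∑ k, (∑ m, z m * w m k) * P t k n := by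
      rw [hca]
      simp only [Matrix.mul_apply, Finset.mul_sum]
      rw [Finset.sum_comm]
      refine Finset.sum_congr rfl fun k _ => ?_
      rw [Finset.sum_mul]
      refine Finset.sum_congr rfl fun m _ => ?_
      simp only [hW, Matrix.of_apply, hP]
      ring
    refine (h4.congr_deriv h5).congr_of_eventuallyEq (Eventually.of_forall fun u => ?_)
    simp only [Function.comp_apply, hca, hP]
    rfl
  have hP0 : P 0 = 1 := by simp only [hP, zero_smul, NormedSpace.exp_zero]
  have heig : ∀ e n, ∑ m, a m * P e m n = Real.exp (e * l) * a n := by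
    intro e n
    have hd1 : ∀ t : ℝ, HasDerivAt (fun t => ∑ m, a m * P t m n) (l * ∑ m, a m * P t m n) t := by
      intro t
      refine (hder a n t).congr_deriv ?_
      rw [Finset.mul_sum]
      refine Finset.sum_congr rfl fun k _ => ?_
      rw [hl k]
      ring
    have hd2' : ∀ t : ℝ, HasDerivAt (fun t => Real.exp (-(t * l)) * ∑ m, a m * P t m n) 0 t := by
      intro t
      have h1 : HasDerivAt (fun t : ℝ => Real.exp (-(t * l))) (Real.exp (-(t * l)) * (-l)) t := by
        have := ((hasDerivAt_id t).mul_const l).neg.exp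
        simpa using this
      refine (h1.mul (hd1 t)).congr_deriv ?_
      ring
    have h8 := is_const_of_deriv_eq_zero (f := fun t => Real.exp (-(t * l)) * ∑ m, a m * P t m n)
      (fun t => (hd2' t).differentiableAt) (fun t => (hd2' t).deriv) e 0
    simp only [zero_mul, neg_zero, Real.exp_zero, one_mul] at h8
    have h9 : ∑ m, a m * P 0 m n = a n := by
      rw [hP0]
      simp [Matrix.one_apply]
    rw [h9] at h8
    have h10 : Real.exp (e * l) * Real.exp (-(e * l)) = 1 := by
      rw [← Real.exp_add, add_neg_cancel, Real.exp_zero]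
    calc ∑ m, a m * P e m n = (Real.exp (e * l) * Real.exp (-(e * l))) * ∑ m, a m * P e m n := by
          rw [h10, one_mul]
      _ = Real.exp (e * l) * a n := by rw [mul_assoc, h8]
  refine ⟨fun e m n => P e m n, ?_, fun e => ⟨fun m n => ?_, ?_, ?_⟩, fun m n => ?_,
    fun e n => heig e n, fun e z haz => ?_⟩
  · funext m n
    simp only [hP, zero_smul, NormedSpace.exp_zero]
    rw [Matrix.one_apply]
    simp only [GF.one, bas, eq_comm]
  · show ∑ k, GF.eta k * P e m k * P e n k = _
    rw [e1, hE, Matrix.diagonal_apply]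
    simp only [bas, eq_comm]
  · show 0 < P e 0 0
    rw [hPP e, Matrix.mul_apply, Fin.sum_univ_four]
    set A := P (e / 2) with hA
    have a1 := e1 (e / 2) 0 0
    have a2 := e2 (e / 2) 0 0
    rw [hE, Matrix.diagonal_apply, if_pos rfl, Fin.sum_univ_four] at a1 a2
    simp [GF.eta, o] at a1 a2
    nlinarith [sq_nonneg (A 0 1 + A 1 0), sq_nonneg (A 0 2 + A 2 0), sq_nonneg (A 0 3 + A 3 0),
      sq_nonneg (A 0 0)]
  · show Matrix.det (P e) = 1
    exact hd e
  · have h3 := hasDerivAt_exp_smul_const (𝕂 := ℝ) W (0 : ℝ)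
    rw [zero_smul, NormedSpace.exp_zero, one_mul] at h3
    set c : Matrix Ix Ix ℝ →L[ℝ] ℝ := LinearMap.toContinuousLinearMap
      (Matrix.entryLinearMap ℝ ℝ m n) with hc
    have h4 := c.hasFDerivAt.comp_hasDerivAt (0 : ℝ) h3
    exact h4
  · obtain ⟨τ, hτ⟩ := hz z haz
    have hd1 : ∀ n (t : ℝ), HasDerivAt (fun t => ∑ m, z m * P t m n) (τ * Real.exp (t * l) * a n) t := by
      intro n t
      refine (hder z n t).congr_deriv ?_
      have e1 : ∀ k, (∑ m, z m * w m k) * P t k n = τ * (a k * P t k n) := by
        intro k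
        rw [hτ k]; ring
      simp only [e1]
      rw [← Finset.mul_sum, heig]
      ring
    by_cases h0 : a = 0
    · refine ⟨0, fun n => ?_⟩
      have h8 := is_const_of_deriv_eq_zero (f := fun t => ∑ m, z m * P t m n)
        (fun t => (hd1 n t).differentiableAt) (fun t => by rw [(hd1 n t).deriv, h0]; simp) e 0
      show ∑ m, z m * P e m n = _
      rw [h8, hP0]
      simp [Matrix.one_apply]
    · obtain ⟨j, hj⟩ := Function.ne_iff.1 h0
      have hj' : a j ≠ 0 := hj
      refine ⟨(∑ m, z m * P e m j - z j) / a j, fun n => ?_⟩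
      have hd3 : ∀ t : ℝ, HasDerivAt (fun t => a j * (∑ m, z m * P t m n) -
          a n * ∑ m, z m * P t m j) 0 t := by
        intro t
        refine (((hd1 n t).const_mul (a j)).sub ((hd1 j t).const_mul (a n))).congr_deriv ?_
        ring
      have h8 := is_const_of_deriv_eq_zero (f := fun t => a j * (∑ m, z m * P t m n) -
          a n * ∑ m, z m * P t m j) (fun t => (hd3 t).differentiableAt) (fun t => (hd3 t).deriv) e 0
      have h9 : ∀ n, ∑ m, z m * P 0 m n = z n := by
        intro n
        rw [hP0]
        simp [Matrix.one_apply]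
      rw [h9, h9] at h8
      show ∑ m, z m * P e m n = _
      field_simp
      linear_combination h8

end Vale.Agent.P352.H731

end
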