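import Vale.Agent.P352.H731.Nc0
import Vale.Agent.P352.H731.Top2
import Vale.Agent.P352.H148.Kd2
import Vale.Agent.P352.H746.Bk3
import Vale.Agent.P352.H846.Tn1

set_option linter.all false

/-!
# P352: the null charge of the virial current vanishes on fields of real scaling dimension
-/

noncomputable section

open MeasureTheory SchwartzMap Complex Filter Topology
open scoped SchwartzMap ComplexConjugate ENNReal LineDeriv

namespace Vale.Agent.P352.H731

open GF (Ix V Fn Sch ev pd bar sim bas o)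
open H246 H496 H755 H746 H993 H15
open H148 (XK isSim_XK)
open UniformSpace (Completion)

variable {D : Type*} [NormedAddCommGroup D] [InnerProductSpace ℂ D]
variable {Q : GF.Theory D} {A : (V → V) → D → D} {K C : D → D} {a : V}

/-- the operators `K = K a` and `C = C a` -/
structure KC (Q : GF.Theory D) (A : (V → V) → D → D) (a : V) (K C : D → D) : Prop where
  rep : Rep Q A
  nul : IsNull a
  ks : ∀ v w, inner ℂ (K v) w = inner ℂ v (K w)
  cs : ∀ v w, inner ℂ (C v) w = inner ℂ v (C w)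
  kc : ∀ (s : ℝ) (L : Ix → V) (r : ℝ) (v : D), 0 < s → 0 < r → GF.IsLor L → sim 1 L 0 a = r • a →
    Q.U s L 0 (K v) = ((r / s : ℝ) : ℂ) • K (Q.U s L 0 v)
  cc : ∀ (s : ℝ) (L : Ix → V) (r : ℝ) (x : V) (v : D), 0 < s → 0 < r → GF.IsLor L → sim 1 L 0 a = r • a →
    Q.U s L x (C v) = C (Q.U s L x v)
  tra : ∀ x v, Q.U 1 GF.one x (K (Q.U 1 GF.one (-x) v)) = K v + A (XK a x) v -
    ((2 * GF.mdot a x : ℝ) : ℂ) • C v

/-- vector valued distributions that are covariant under the dilations, the boosts and the null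
rotations that preserve the direction of `a`, with real weights -/
structure YB (Q : GF.Theory D) (a : V) (p q : ℝ) (Y : 𝓢(Mink, ℂ) →L[ℂ] D) : Prop where
  tau : ∀ (x : Mink) F, Y (tauS x F) = U1 Q x (Y F)
  cov : ∀ (s r : ℝ) (L : Ix → V) (hs : 0 < s) (hr : 0 < r) (hL : GF.IsLor L),
    H846.Scr a L r → ∀ F, Y F = ((s ^ p * r ^ q : ℝ) : ℂ) • Q.U s L 0 (Y (simS s hs hL 0 F))

lemma sim_scale (a : V) : sim 1 GF.one 0 a = a := by
  rw [sim_one]; funext n; simp

lemma scr_one (a : V) : H846.Scr a GF.one 1 :=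
  ⟨by rw [sim_scale, one_smul], fun w _ => ⟨0, by rw [sim_scale, zero_smul, add_zero]⟩⟩

lemma simS_split {s : ℝ} (hs : 0 < s) {L : Ix → V} (hL : GF.IsLor L) (x : V)
    (F : 𝓢(Mink, ℂ)) : simS s hs hL x F = simS s hs hL 0 (tauS (-(WithLp.toLp 2 x)) F) := by
  ext z
  rw [simS_apply, simS_apply, tauS_apply]
  congr 1
  ext n
  simp [sim]
  ring

lemma U_split (h : Rep Q A) {s : ℝ} (hs : 0 < s) {L : Ix → V} (hL : GF.IsLor L) (x : V) (v : D) :
    Q.U s L x v = Q.U 1 GF.one x (Q.U s L 0 v) := by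
  rw [h.mul 1 GF.one x s L 0 v one_pos hs isLor_one hL, one_mul]
  have e1 : (fun m => sim 1 GF.one 0 (L m)) = L := by
    funext m
    rw [sim_one]; funext n; simp
  have e2 : sim 1 GF.one x 0 = x := by
    rw [sim_one]; funext n; simp
  rw [e1, e2]

lemma YB.cov_all (h : Rep Q A) {p q : ℝ} {Y : 𝓢(Mink, ℂ) →L[ℂ] D} (hY : YB Q a p q Y)
    {s r : ℝ} {L : Ix → V} (hs : 0 < s) (hr : 0 < r) (hL : GF.IsLor L)
    (hLa : H846.Scr a L r) (x : V) (F : 𝓢(Mink, ℂ)) :
    Y F = ((s ^ p * r ^ q : ℝ) : ℂ) • Q.U s L x (Y (simS s hs hL x F)) := by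
  have h1 : Y F = U1 Q (WithLp.toLp 2 x) (Y (tauS (-(WithLp.toLp 2 x)) F)) := by
    rw [← hY.tau, tauS_tauS, neg_add_cancel, tauS_zero']
  rw [U_split h hs hL x, simS_split hs hL x, h1, hY.cov s r L hs hr hL hLa, U1_smul]

/-- the action of the generators -/
lemma YB.A_law (h : Rep Q A) {p q : ℝ} {Y : 𝓢(Mink, ℂ) →L[ℂ] D} (hY : YB Q a p q Y)
    {X : V → V} {c : V} {w : Ix → V} {r l : ℝ}
    (hw : ∀ m n, GF.eta n * w m n = -(GF.eta m * w n m))
    (hl : ∀ n, ∑ m, a m * w m n = l * a n)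
    (hz : ∀ z, GF.mdot a z = 0 → ∃ t : ℝ, ∀ n, ∑ m, z m * w m n = t * a n)
    (hX : ∀ z n, X z n = c n + r * z n + ∑ m, z m * w m n) (F : 𝓢(Mink, ℂ)) :
    A X (Y F) = I • (((p * r + q * l : ℝ) : ℂ) • Y F + Y (vfS w r c F)) := by
  obtain ⟨L, L0, hL, dL, hLa, hLz⟩ := exists_lor_eig hw hl hz
  have K : Crv (fun e => Real.exp (e * r)) L (fun e => e • c) w r c := by
    refine ⟨by simp, L0, by simp, fun e => Real.exp_pos _, hL, ?_, dL, fun n => ?_⟩
    · have h := ((hasDerivAt_id (0 : ℝ)).mul_const r).exp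
      simpa using h
    · have h := (hasDerivAt_id (0 : ℝ)).mul_const (c n)
      simpa using h
  have hsim : ∀ e, H846.Scr a (L e) (Real.exp (e * l)) := by
    intro e
    refine ⟨?_, fun z haz => ?_⟩
    · funext n
      simp only [sim, Pi.zero_apply, zero_add, one_mul, Pi.smul_apply, smul_eq_mul]
      exact hLa e n
    · obtain ⟨t, ht⟩ := hLz e z haz
      refine ⟨t, funext fun n => ?_⟩
      simp only [sim, Pi.zero_apply, zero_add, one_mul, Pi.smul_apply, smul_eq_mul, Pi.add_apply]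
      exact ht n
  set ψ : ℝ → D := fun e => (((Real.exp (e * r)) ^ p * (Real.exp (e * l)) ^ q : ℝ) : ℂ) •
    Y (K.cs F e) with hψ
  have dψ : HasDerivAt ψ (((p * r + q * l : ℝ) : ℂ) • Y F + Y (vfS w r c F)) 0 := by
    have h2 := K.der (Y.restrictScalars ℝ) F
    have h3 : HasDerivAt (fun e : ℝ => (Real.exp (e * r)) ^ p * (Real.exp (e * l)) ^ q)
        (p * r + q * l) 0 := by
      have e1 : (fun e : ℝ => (Real.exp (e * r)) ^ p * (Real.exp (e * l)) ^ q) =
          fun e => Real.exp (e * (p * r + q * l)) := by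
        funext e
        rw [← Real.exp_mul, ← Real.exp_mul, ← Real.exp_add]
        congr 1
        ring
      rw [e1]
      have h := ((hasDerivAt_id (0 : ℝ)).mul_const (p * r + q * l)).exp
      simpa using h
    have h4 := h3.smul h2
    rw [K.cs_zero] at h4
    simp only [zero_mul, Real.exp_zero, Real.one_rpow, mul_one, one_smul] at h4
    rw [add_comm]
    refine (h4.congr_deriv ?_).congr_of_eventuallyEq (Eventually.of_forall fun e => ?_)
    · rfl
    · rfl
  have h1 := der_U h K hX dψ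
  have h2 : (fun e => Q.U (Real.exp (e * r)) (L e) (e • c) (ψ e)) = fun _ => Y F := by
    funext e
    rw [hψ]
    simp only
    rw [U_smul (Real.exp_pos _) (hL e)]
    exact (hY.cov_all h (Real.exp_pos _) (Real.exp_pos _) (hL e) (hsim e) (e • c) F).symm
  rw [h2] at h1
  have h3 := h1.unique (hasDerivAt_const _ _)
  have h4 : ψ 0 = Y F := by
    simp only [hψ, K.cs_zero, zero_mul, Real.exp_zero, Real.one_rpow, mul_one, ofReal_one, one_smul]
  rw [h4] at h3
  have h5 := congrArg (fun u => (-I) • u) h3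
  simp only [smul_add, smul_smul, smul_zero] at h5
  have e2 : -I * I = 1 := by rw [neg_mul, I_mul_I, neg_neg]
  rw [e2, one_smul] at h5
  have h6 := eq_neg_of_add_eq_zero_left h5
  rw [h6]
  simp only [smul_add, smul_smul, neg_mul, neg_smul, neg_add, neg_neg]

end Vale.Agent.P352.H731

end
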