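import Vale.Agent.P352.H731.Nc1

set_option linter.all false

noncomputable section

open MeasureTheory SchwartzMap Complex Filter Topology
open scoped SchwartzMap ComplexConjugate ENNReal LineDeriv

namespace Vale.Agent.P352.H731

open GF (Ix V Fn Sch ev pd bar sim bas o)
open H246 H496 H755 H746 H993 H15
open H148 (XK isSim_XK)
open UniformSpace (Completion)

variable {D : Type*} [NormedAddCommGroup D] [InnerProductSpace ℂ D]
variable {Q : GF.Theory D} {A : (V → V) → D → D} {K C : D → D} {a : V}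

/-! ### Operators with an adjoint -/

section adj

variable {E E' : D → D} (hE : ∀ v w, inner ℂ (E v) w = inner ℂ v (E' w))
include hE

lemma adj_flip (z v : D) : inner ℂ z (E v) = inner ℂ (E' z) v := by
  rw [← inner_conj_symm, hE, inner_conj_symm]

lemma adj_add (v w : D) : E (v + w) = E v + E w := by
  refine ext_inner_left ℂ fun z => ?_
  rw [adj_flip hE, inner_add_right, inner_add_right, adj_flip hE, adj_flip hE]

lemma adj_smul (c : ℂ) (v : D) : E (c • v) = c • E v := by
  refine ext_inner_left ℂ fun z => ?_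
  rw [adj_flip hE, inner_smul_right, inner_smul_right, adj_flip hE]

/-- `E ∘ Y` -/
def cmp (Y : 𝓢(Mink, ℂ) →L[ℂ] D) : 𝓢(Mink, ℂ) →L[ℂ] D where
  toFun F := E (Y F)
  map_add' F G := by rw [map_add, adj_add hE]
  map_smul' c F := by rw [map_smul, adj_smul hE]; rfl
  cont := by
    have := barrelled_schwartz
    refine cont_of_weak (E := 𝓢(Mink, ℂ)) (H := D)
      { toFun := fun F => E (Y F)
        map_add' := fun F G => by rw [map_add, adj_add hE]
        map_smul' := fun c F => by rw [map_smul, adj_smul hE]; rfl } (Z := Set.univ)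
      dense_univ fun z _ => ?_
    show Continuous fun F : 𝓢(Mink, ℂ) => inner ℂ z (E (Y F))
    simp only [adj_flip hE]
    exact continuous_const.inner Y.continuous

lemma cmp_apply (Y : 𝓢(Mink, ℂ) →L[ℂ] D) (F : 𝓢(Mink, ℂ)) : cmp hE Y F = E (Y F) := rfl

end adj

section

variable (k : KC Q A a K C)
include k

lemma KC.Kadd (v w : D) : K (v + w) = K v + K w := adj_add k.ks v w
lemma KC.Ksmul (c : ℂ) (v : D) : K (c • v) = c • K v := adj_smul k.ks c v
lemma KC.Cadd (v w : D) : C (v + w) = C v + C w := adj_add k.cs v w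
lemma KC.Csmul (c : ℂ) (v : D) : C (c • v) = c • C v := adj_smul k.cs c v

lemma KC.Ksub (v w : D) : K (v - w) = K v - K w := by
  have h := k.Ksmul (-1) w
  rw [neg_one_smul, neg_one_smul] at h
  rw [sub_eq_add_neg, k.Kadd, h, ← sub_eq_add_neg]

lemma KC.Csub (v w : D) : C (v - w) = C v - C w := by
  have h := k.Csmul (-1) w
  rw [neg_one_smul, neg_one_smul] at h
  rw [sub_eq_add_neg, k.Cadd, h, ← sub_eq_add_neg]

lemma KC.CU1 (x : Mink) (v : D) : C (U1 Q x v) = U1 Q x (C v) :=
  (k.cc 1 GF.one 1 x.ofLp v one_pos one_pos isLor_one (by rw [sim_scale, one_smul])).symm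

lemma KC.KU1 (x : Mink) (v : D) : U1 Q x (K v) = K (U1 Q x v) + A (XK a x.ofLp) (U1 Q x v) -
    ((2 * GF.mdot a x.ofLp : ℝ) : ℂ) • C (U1 Q x v) := by
  have h := k.tra x.ofLp (U1 Q x v)
  have e : Q.U 1 GF.one (-x.ofLp) (U1 Q x v) = v := by
    have h3 := U1_U1_all (-x) x v (Q := Q)
    rw [neg_add_cancel, U1_zero_all] at h3
    exact h3
  rw [e] at h
  exact h

/-- the Lorentz part of `XK a x` -/
def wK (a x : V) : Ix → V := fun m n => 2 * GF.eta m * (x m * a n - a m * x n)

omit k in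
lemma wK_anti (a x : V) (m n : Ix) : GF.eta n * wK a x m n = -(GF.eta m * wK a x n m) := by
  unfold wK; ring

omit k in
lemma wK_eig (ha : GF.mdot a a = 0) (x : V) (n : Ix) :
    ∑ m, a m * wK a x m n = (2 * GF.mdot a x) * a n := by
  have h1 : ∑ m, a m * wK a x m n = 2 * GF.mdot a x * a n - 2 * GF.mdot a a * x n := by
    simp only [wK, GF.mdot, Fin.sum_univ_four]
    ring
  rw [h1, ha]; ring

omit k in
lemma wK_tr (a x z : V) (hz : GF.mdot a z = 0) : ∃ t : ℝ, ∀ n, ∑ m, z m * wK a x m n = t * a n := by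
  refine ⟨2 * GF.mdot z x, fun n => ?_⟩
  have h1 : ∑ m, z m * wK a x m n = 2 * GF.mdot z x * a n - 2 * GF.mdot a z * x n := by
    simp only [wK, GF.mdot, Fin.sum_univ_four]
    ring
  rw [h1, hz]; ring

omit k in
lemma XK_eq (a x z : V) (n : Ix) : XK a x z n = cK a x n + (-(2 * GF.mdot a x)) * z n +
    ∑ m, z m * wK a x m n := by
  unfold XK wK
  simp only [Pi.add_apply, Pi.sub_apply, Pi.smul_apply, smul_eq_mul, GF.mdot, Fin.sum_univ_four]
  ring

/-- `C` commutes with the generators of the stabilizer -/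
lemma KC.A_C {X : V → V} {c : V} {w : Ix → V} {r l : ℝ}
    (hw : ∀ m n, GF.eta n * w m n = -(GF.eta m * w n m))
    (hl : ∀ n, ∑ m, a m * w m n = l * a n)
    (hz : ∀ z, GF.mdot a z = 0 → ∃ t : ℝ, ∀ n, ∑ m, z m * w m n = t * a n)
    (hX : ∀ z n, X z n = c n + r * z n + ∑ m, z m * w m n) (v : D) :
    A X (C v) = C (A X v) := by
  obtain ⟨L, L0, hL, dL, hLa, -⟩ := exists_lor_eig hw hl hz
  have Kc : Crv (fun e => Real.exp (e * r)) L (fun e => e • c) w r c := by
    refine ⟨by simp, L0, by simp, fun e => Real.exp_pos _, hL, ?_, dL, fun n => ?_⟩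
    · have h := ((hasDerivAt_id (0 : ℝ)).mul_const r).exp
      simpa using h
    · have h := (hasDerivAt_id (0 : ℝ)).mul_const (c n)
      simpa using h
  have hsim : ∀ e, sim 1 (L e) 0 a = Real.exp (e * l) • a := by
    intro e
    funext n
    simp only [sim, Pi.zero_apply, zero_add, one_mul, Pi.smul_apply, smul_eq_mul]
    exact hLa e n
  refine ext_inner_left ℂ fun z => ?_
  have h1 : HasDerivAt (fun e => inner ℂ z (Q.U (Real.exp (e * r)) (L e) (e • c) (C v)))
      (inner ℂ z (I • A X (C v))) 0 :=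
    ((innerSL ℂ z).restrictScalars ℝ).hasFDerivAt.comp_hasDerivAt (0 : ℝ)
      (der_U0 k.rep Kc hX (C v))
  have h2 : HasDerivAt (fun e => inner ℂ (C z) (Q.U (Real.exp (e * r)) (L e) (e • c) v))
      (inner ℂ (C z) (I • A X v)) 0 :=
    ((innerSL ℂ (C z)).restrictScalars ℝ).hasFDerivAt.comp_hasDerivAt (0 : ℝ)
      (der_U0 k.rep Kc hX v)
  have h3 : (fun e => inner ℂ z (Q.U (Real.exp (e * r)) (L e) (e • c) (C v))) =
      fun e => inner ℂ (C z) (Q.U (Real.exp (e * r)) (L e) (e • c) v) := by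
    funext e
    rw [k.cc (Real.exp (e * r)) (L e) (Real.exp (e * l)) (e • c) v (Real.exp_pos _)
      (Real.exp_pos _) (hL e) (hsim e), k.cs]
  rw [h3] at h1
  have h4 := h1.unique h2
  rw [inner_smul_right, inner_smul_right] at h4
  have h5 := mul_left_cancel₀ I_ne_zero h4
  rw [h5, k.cs]

lemma KC.A_XK (x : V) (v : D) : A (XK a x) (C v) = C (A (XK a x) v) :=
  k.A_C (wK_anti a x) (wK_eig k.nul.1 x) (wK_tr a x) (XK_eq a x) v

/-- the commutator `[K, C]` -/
def Zop (K C : D → D) (v : D) : D := K (C v) - C (K v)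

lemma KC.zs (v w : D) : inner ℂ (Zop K C v) w = inner ℂ v (-Zop K C w) := by
  unfold Zop
  rw [inner_sub_left, neg_sub, inner_sub_right, k.ks, k.cs, k.cs, k.ks]

lemma KC.Z_U1 (x : Mink) (v : D) : Zop K C (U1 Q x v) = U1 Q x (Zop K C v) := by
  unfold Zop
  have e1 := k.KU1 x (C v)
  have e2 := k.KU1 x v
  rw [← k.CU1 x v] at e1
  rw [U1_sub, e1, ← k.CU1 x (K v), e2, k.Csub, k.Cadd, k.Csmul, ← k.A_XK]
  abel

end

end Vale.Agent.P352.H731

end
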