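import Vale.Agent.P352.H731.Nc2

set_option linter.all false

noncomputable section

open MeasureTheory SchwartzMap Complex Filter Topology
open scoped SchwartzMap ComplexConjugate ENNReal LineDeriv

namespace Vale.Agent.P352.H731

open GF (Ix V Fn Sch ev pd bar sim bas o)
open H246 H496 H755 H746 H993 H15
open H148 (XK isSim_XK)
open UniformSpace (Completion)

variable {D : Type*} [NormedAddCommGroup D] [InnerProductSpace ℂ D]
variable {Q : GF.Theory D} {A : (V → V) → D → D} {K C : D → D} {a : V}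

section

variable (k : KC Q A a K C) {p q : ℝ} {Y : 𝓢(Mink, ℂ) →L[ℂ] D} (hY : YB Q a p q Y)
include k

lemma KC.K_U {s r : ℝ} {L : Ix → V} (hs : 0 < s) (hr : 0 < r) (hL : GF.IsLor L)
    (hLa : sim 1 L 0 a = r • a) (v : D) :
    K (Q.U s L 0 v) = ((s / r : ℝ) : ℂ) • Q.U s L 0 (K v) := by
  have h := k.kc s L r v hs hr hL hLa
  rw [h, smul_smul]
  have h1 : ((s / r : ℝ) : ℂ) * ((r / s : ℝ) : ℂ) = 1 := by
    rw [← ofReal_mul]
    have : s / r * (r / s) = 1 := by field_simp
    rw [this, ofReal_one]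
  rw [h1, one_smul]

lemma KC.C_U {s r : ℝ} {L : Ix → V} (hs : 0 < s) (hr : 0 < r) (hL : GF.IsLor L)
    (hLa : sim 1 L 0 a = r • a) (v : D) :
    C (Q.U s L 0 v) = Q.U s L 0 (C v) := (k.cc s L r 0 v hs hr hL hLa).symm

omit k in
lemma wt_eq {s r p q : ℝ} (hs : 0 < s) (hr : 0 < r) :
    s ^ (p + 1) * r ^ (q - 1) = s ^ p * r ^ q * (s / r) := by
  rw [Real.rpow_add hs, Real.rpow_one, Real.rpow_sub hr, Real.rpow_one]
  field_simp

include hY

theorem YB.c : YB Q a p q (cmp k.cs Y) where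
  tau x F := by rw [cmp_apply, cmp_apply, hY.tau, k.CU1]
  cov s r L hs hr hL hSc F := by
    have hLa := hSc.1
    rw [cmp_apply, cmp_apply, hY.cov s r L hs hr hL hSc F, k.Csmul, k.C_U hs hr hL hLa]

theorem YB.z : YB Q a (p + 1) (q - 1) (cmp k.zs Y) where
  tau x F := by rw [cmp_apply, cmp_apply, hY.tau, k.Z_U1]
  cov s r L hs hr hL hSc F := by
    have hLa := hSc.1
    rw [cmp_apply, cmp_apply]
    conv_lhs => rw [hY.cov s r L hs hr hL hSc F]
    rw [wt_eq hs hr]
    unfold Zop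
    rw [k.Csmul, k.Ksmul, k.Ksmul, k.Csmul, k.C_U hs hr hL hLa, k.K_U hs hr hL hLa,
      k.K_U hs hr hL hLa, k.Csmul, k.C_U hs hr hL hLa, H746.U_sub' hs hL]
    simp only [smul_sub, smul_smul, ← ofReal_mul]

/-- the deviation of `K` from the action on a field with charge `C` -/
def kapC (k : KC Q A a K C) (p q : ℝ) (Y : 𝓢(Mink, ℂ) →L[ℂ] D) : 𝓢(Mink, ℂ) →L[ℂ] D :=
  cmp k.ks Y + I • Y.comp (H746.kdL a (4 - (p - q))) - (2 : ℂ) • (cmp k.cs Y).comp (axL a)

omit hY in
lemma kapC_apply (Y : 𝓢(Mink, ℂ) →L[ℂ] D) (F : 𝓢(Mink, ℂ)) : kapC k p q Y F =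
    K (Y F) + I • Y (H746.kdL a (4 - (p - q)) F) - (2 : ℂ) • C (Y (axL a F)) := rfl

theorem YB.kap : YB Q a (p + 1) (q - 1) (kapC k p q Y) where
  tau x F := by
    obtain ⟨G, rfl⟩ : ∃ G, tauS (-x) G = F := ⟨tauS x F, by
      rw [tauS_tauS, add_neg_cancel, tauS_zero']⟩
    have eG : tauS x (tauS (-x) G) = G := by
      rw [tauS_tauS, neg_add_cancel, tauS_zero']
    have hU : ∀ H, U1 Q x (Y (tauS (-x) H)) = Y H := by
      intro H
      rw [← hY.tau, tauS_tauS, neg_add_cancel, tauS_zero']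
    have e1 : H746.kdL a (4 - (p - q)) (tauS (-x) G) = tauS (-x) (H746.kdL a (4 - (p - q)) G -
        vfS (wK a x.ofLp) (-(2 * GF.mdot a x.ofLp)) (cK a x.ofLp) G +
        (((8 - 2 * (4 - (p - q))) * GF.mdot a x.ofLp : ℝ) : ℂ) • G) := kd_tau a x.ofLp _ G
    have e2 : axL a (tauS (-x) G) = tauS (-x) (axL a G - (GF.mdot a x.ofLp : ℂ) • G) :=
      ax_tau x.ofLp a G
    have e3 := hY.A_law k.rep (wK_anti a x.ofLp) (wK_eig k.nul.1 x.ofLp) (wK_tr a x.ofLp) (XK_eq a x.ofLp) G
    rw [eG, kapC_apply, kapC_apply, U1_sub, U1_add, U1_smul, U1_smul, k.KU1, ← k.CU1, hU, e1, hU,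
      e2, hU, e3, map_add, map_sub, map_smul, map_sub, map_smul, k.Csub, k.Csmul]
    simp only [smul_add, smul_sub, smul_smul]
    push_cast
    module
  cov s r L hs hr hL hSc F := by
    have hLa := hSc.1
    have e1 := hY.cov s r L hs hr hL hSc F
    have e2 := hY.cov s r L hs hr hL hSc (H746.kdL a (4 - (p - q)) F)
    have e3 := hY.cov s r L hs hr hL hSc (axL a F)
    have e4 := H746.kdL_sim (4 - (p - q)) hs hL hLa F
    have e5 : axL a (simS s hs hL 0 F) = ((r / s : ℝ) : ℂ) • simS s hs hL 0 (axL a F) := by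
      rw [axL_sim hs hL a F, hLa]
      have : axL (r • a) F = (r : ℂ) • axL a F := by
        unfold axL
        rw [ContinuousLinearMap.sum_apply, ContinuousLinearMap.sum_apply, Finset.smul_sum]
        refine Finset.sum_congr rfl fun m _ => ?_
        rw [ContinuousLinearMap.smul_apply, ContinuousLinearMap.smul_apply, smul_smul]
        congr 1
        simp only [Pi.smul_apply, smul_eq_mul]
        push_cast
        ring
      rw [this]
      have h2 : simS s hs hL 0 ((r : ℂ) • axL a F) = (r : ℂ) • simS s hs hL 0 (axL a F) := by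
        ext z
        rw [simS_apply, SchwartzMap.smul_apply, SchwartzMap.smul_apply, simS_apply]
      rw [h2, smul_smul]
      congr 1
      push_cast
      field_simp
    have hsr : ((s / r : ℝ) : ℂ) * ((r / s : ℝ) : ℂ) = 1 := by
      rw [← ofReal_mul]
      have : s / r * (r / s) = 1 := by field_simp
      rw [this, ofReal_one]
    have e6 : simS s hs hL 0 (H746.kdL a (4 - (p - q)) F) =
        ((s / r : ℝ) : ℂ) • H746.kdL a (4 - (p - q)) (simS s hs hL 0 F) := by
      rw [e4, smul_smul, hsr, one_smul]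
    have e7 : simS s hs hL 0 (axL a F) = ((s / r : ℝ) : ℂ) • axL a (simS s hs hL 0 F) := by
      rw [e5, smul_smul, hsr, one_smul]
    rw [kapC_apply, kapC_apply, e2, e3, e6, e7]
    conv_lhs => rw [e1]
    rw [wt_eq hs hr, k.Ksmul, k.K_U hs hr hL hLa, k.Csmul, k.C_U hs hr hL hLa, map_smul,
      map_smul, U_smul hs hL, H746.U_sub' hs hL, U_add hs hL, U_smul hs hL, U_smul hs hL, k.Csmul,
      U_smul hs hL]
    simp only [smul_add, smul_sub, smul_smul]
    push_cast
    module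

end

end Vale.Agent.P352.H731

end
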