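import Vale.Agent.P352.H731.Nc3

set_option linter.all false

noncomputable section

open MeasureTheory SchwartzMap Complex Filter Topology
open scoped SchwartzMap ComplexConjugate ENNReal NNReal LineDeriv

namespace Vale.Agent.P352.H731

open GF (Ix V Fn Sch ev pd bar sim bas o)
open H246 H496 H755 H746 H993 H15
open H148 (XK isSim_XK)
open UniformSpace (Completion)

variable {D : Type*} [NormedAddCommGroup D] [InnerProductSpace ℂ D]
variable {Q : GF.Theory D} {A : (V → V) → D → D} {K C : D → D} {a : V}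

/-- the completed distribution -/
def cpl (Y : 𝓢(Mink, ℂ) →L[ℂ] D) : 𝓢(Mink, ℂ) →L[ℂ] Completion D :=
  (Completion.toComplL (𝕜 := ℂ) (E := D)).comp Y

lemma cpl_apply (Y : 𝓢(Mink, ℂ) →L[ℂ] D) (F : 𝓢(Mink, ℂ)) : cpl Y F = ((Y F : D) : Completion D) :=
  rfl

lemma YB.cvd {p q : ℝ} {Y : 𝓢(Mink, ℂ) →L[ℂ] D} (hY : YB Q a p q Y) :
    ∃ μ, Cvd Q (cpl Y) μ := by
  refine exists_cvd (cpl Y) fun g x z => ?_
  rw [cpl_apply, cpl_apply, hY.tau, Completion.inner_coe, Completion.inner_coe, U1_inner]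

/-- distributions of negative dimension vanish -/
theorem YB.zero {p q : ℝ} {Y : 𝓢(Mink, ℂ) →L[ℂ] D} (hY : YB Q a p q Y) (hp : 4 < p)
    (f : 𝓢(Mink, ℂ)) : Y f = 0 := by
  obtain ⟨μ, Kd⟩ := hY.cvd
  have := Kd.fin
  have hnorm : ∀ {s : ℝ} (hs : 0 < s) f, ‖cpl Y f‖ = s ^ p * ‖cpl Y (simS s hs isLor_one 0 f)‖ := by
    intro s hs f
    have h1 := hY.cov s 1 GF.one hs one_pos isLor_one (scr_one a) f
    rw [Real.one_rpow, mul_one] at h1
    rw [cpl_apply, cpl_apply, Completion.norm_coe, Completion.norm_coe, h1, norm_smul,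
      U_nrm hs isLor_one, Complex.norm_real, Real.norm_eq_abs, abs_of_pos (Real.rpow_pos_of_pos hs p)]
  -- compactly supported Fourier transforms
  have key : ∀ G : 𝓢(Mink, ℂ), HasCompactSupport G → ∫ p, ‖G p‖ ^ 2 ∂μ = 0 := by
    intro G hG
    obtain ⟨g, hg⟩ := mftS_surj G
    have hg' : ∀ p, mft g p = G p := fun p => by rw [← hg, mftS_apply]
    obtain ⟨R, hR⟩ := hG.isCompact.isBounded.subset_closedBall (0 : Mink)
    obtain ⟨B, hC⟩ := hG.exists_bound_of_continuous G.continuous
    have hC0 : 0 ≤ B := (norm_nonneg _).trans (hC 0)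
    have hb : ∀ s : ℝ, 0 < s → s ≤ 1 →
        ∫ p, ‖G p‖ ^ 2 ∂μ ≤ s ^ (2 * p - 8) * (B ^ 2 * μ.real (Metric.closedBall 0 R)) := by
      intro s hs hs1
      have h1 := hnorm hs g
      have h2 : ∫ p, ‖G p‖ ^ 2 ∂μ = ‖cpl Y g‖ ^ 2 := by
        rw [cvd_norm_sq Kd]
        simp only [hg']
      have h3 : ‖cpl Y (simS s hs isLor_one 0 g)‖ ^ 2 =
          ∫ p, (s ^ 8)⁻¹ * ‖G (s⁻¹ • p)‖ ^ 2 ∂μ := by
        rw [cvd_norm_sq Kd]
        refine integral_congr_ae (Eventually.of_forall fun p => ?_)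
        show ‖mft (simS s hs isLor_one 0 g) p‖ ^ 2 = _
        rw [mft_simS, norm_mul, norm_mul, norm_chr, one_mul, hg', Complex.norm_real,
          Real.norm_of_nonneg (by positivity)]
        have e : lam GF.one p = p := by
          ext k
          simp [lam_apply, GF.one, bas]
        rw [e]
        ring
      have h4 : ∫ p, (s ^ 8)⁻¹ * ‖G (s⁻¹ • p)‖ ^ 2 ∂μ ≤
          (s ^ 8)⁻¹ * (B ^ 2 * μ.real (Metric.closedBall 0 R)) := by
        rw [integral_const_mul]
        refine mul_le_mul_of_nonneg_left ?_ (by positivity)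
        have h5 : ∀ p, ‖G (s⁻¹ • p)‖ ^ 2 ≤
            (Metric.closedBall (0 : Mink) R).indicator (fun _ => B ^ 2) p := by
          intro p
          by_cases hp : p ∈ Metric.closedBall (0 : Mink) R
          · rw [Set.indicator_of_mem hp]
            exact pow_le_pow_left₀ (norm_nonneg _) (hC _) 2
          · rw [Set.indicator_of_notMem hp]
            have : G (s⁻¹ • p) = 0 := by
              by_contra h0
              apply hp
              have h6 := hR (subset_tsupport _ h0)
              rw [mem_closedBall_zero_iff, norm_smul, norm_inv, Real.norm_of_nonneg hs.le] at h6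
              rw [mem_closedBall_zero_iff]
              have h7 : ‖p‖ ≤ s⁻¹ * ‖p‖ := by
                have : 1 ≤ s⁻¹ := (one_le_inv₀ hs).2 hs1
                nlinarith [norm_nonneg p]
              exact h7.trans h6
            rw [this]; simp
        have h8 : Integrable ((Metric.closedBall (0 : Mink) R).indicator (fun _ => B ^ 2)) μ := by
          rw [integrable_indicator_iff Metric.isClosed_closedBall.measurableSet]
          exact integrableOn_const (isCompact_closedBall _ _).measure_lt_top.ne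
        calc ∫ p, ‖G (s⁻¹ • p)‖ ^ 2 ∂μ ≤
            ∫ p, (Metric.closedBall (0 : Mink) R).indicator (fun _ => B ^ 2) p ∂μ :=
              integral_mono_of_nonneg (Eventually.of_forall fun p => by positivity) h8
                (Eventually.of_forall h5)
          _ = B ^ 2 * μ.real (Metric.closedBall 0 R) := by
              rw [integral_indicator Metric.isClosed_closedBall.measurableSet, setIntegral_const,
                smul_eq_mul, mul_comm]
      rw [h2, h1, mul_pow, h3]
      have h9 : s ^ (2 * p - 8) = (s ^ p) ^ 2 * (s ^ 8)⁻¹ := by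
        rw [Real.rpow_sub hs, mul_comm 2 p, Real.rpow_mul hs.le]
        norm_cast
      calc (s ^ p) ^ 2 * ∫ p, (s ^ 8)⁻¹ * ‖G (s⁻¹ • p)‖ ^ 2 ∂μ ≤
          (s ^ p) ^ 2 * ((s ^ 8)⁻¹ * (B ^ 2 * μ.real (Metric.closedBall 0 R))) :=
            mul_le_mul_of_nonneg_left h4 (by positivity)
        _ = s ^ (2 * p - 8) * (B ^ 2 * μ.real (Metric.closedBall 0 R)) := by
            rw [h9]
            ring
    refine le_antisymm ?_ (integral_nonneg fun p => by positivity)
    have hlim : Tendsto (fun s : ℝ => s ^ (2 * p - 8) * (B ^ 2 * μ.real (Metric.closedBall 0 R)))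
        (𝓝[>] 0) (𝓝 0) := by
      have h0 : Tendsto (fun s : ℝ => s ^ (2 * p - 8)) (𝓝 0) (𝓝 ((0 : ℝ) ^ (2 * p - 8))) :=
        (Real.continuousAt_rpow_const 0 (2 * p - 8) (Or.inr (by linarith))).tendsto
      rw [Real.zero_rpow (by linarith)] at h0
      have h1 := h0.mul_const (B ^ 2 * μ.real (Metric.closedBall 0 R))
      rw [zero_mul] at h1
      exact h1.mono_left nhdsWithin_le_nhds
    refine ge_of_tendsto hlim ?_
    have h1 : ∀ᶠ s : ℝ in 𝓝[>] 0, s ∈ Set.Ioo (0 : ℝ) 1 := Ioo_mem_nhdsGT one_pos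
    filter_upwards [h1] with s hs
    exact hb s hs.1 hs.2.le
  -- balls have measure zero
  have hball : ∀ R : ℝ, 0 < R → μ (Metric.closedBall 0 R) = 0 := by
    intro R hR
    let b : ContDiffBump (0 : Mink) := ⟨R, R + 1, hR, by linarith⟩
    have hbs : HasCompactSupport (fun x => ((b x : ℝ) : ℂ)) := by
      have := b.hasCompactSupport
      exact this.comp_left (g := fun t : ℝ => (t : ℂ)) (by simp)
    have hbc : ContDiff ℝ ((⊤ : ℕ∞) : WithTop ℕ∞) (fun x => ((b x : ℝ) : ℂ)) :=
      Complex.ofRealCLM.contDiff.comp b.contDiff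
    have h1 := key (hbs.toSchwartzMap hbc) hbs
    have h2 : Integrable (fun p => ‖(hbs.toSchwartzMap hbc) p‖ ^ 2) μ := by
      have hcs : HasCompactSupport (fun p => ‖(hbs.toSchwartzMap hbc) p‖ ^ 2) :=
        hbs.comp_left (g := fun z : ℂ => ‖z‖ ^ 2) (by simp)
      exact Continuous.integrable_of_hasCompactSupport
        ((hbs.toSchwartzMap hbc).continuous.norm.pow 2) hcs
    rw [integral_eq_zero_iff_of_nonneg (fun p => by positivity) h2] at h1
    have h3 : μ {p | ¬ (‖(hbs.toSchwartzMap hbc) p‖ ^ 2 = 0)} = 0 := h1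
    refine measure_mono_null ?_ h3
    intro p hp
    have h4 : b p = 1 := b.one_of_mem_closedBall hp
    show ¬ (‖((b p : ℝ) : ℂ)‖ ^ 2 = 0)
    rw [h4]; simp
  have hμ : μ = 0 := by
    rw [← Measure.measure_univ_eq_zero]
    have : (Set.univ : Set Mink) = ⋃ k : ℕ, Metric.closedBall 0 ((k : ℝ) + 1) := by
      symm
      rw [Set.eq_univ_iff_forall]
      intro p
      obtain ⟨k, hk⟩ := exists_nat_ge ‖p‖
      exact Set.mem_iUnion.2 ⟨k, by rw [mem_closedBall_zero_iff]; linarith⟩
    rw [this]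
    exact measure_iUnion_null fun k => hball _ (by positivity)
  have h9 := cvd_norm_sq Kd f
  rw [hμ, integral_zero_measure] at h9
  have h10 := pow_eq_zero_iff (two_ne_zero) |>.1 h9
  rw [cpl_apply, Completion.norm_coe] at h10
  exact norm_eq_zero.1 h10

section

variable (k : KC Q A a K C)
include k

lemma KC.K0 : K 0 = 0 := by have h := k.Ksmul 0 0; rwa [zero_smul, zero_smul] at h
lemma KC.C0 : C 0 = 0 := by have h := k.Csmul 0 0; rwa [zero_smul, zero_smul] at h

/-- `[K, C]` vanishes on covariant distributions -/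
theorem KC.z_zero (n : ℕ) : ∀ (p q : ℝ) (Y : 𝓢(Mink, ℂ) →L[ℂ] D), YB Q a p q Y → 4 < p + n →
    ∀ F, Zop K C (Y F) = 0 := by
  induction n with
  | zero =>
    intro p q Y hY hp F
    rw [Nat.cast_zero, add_zero] at hp
    unfold Zop
    rw [hY.zero hp F, k.K0, k.C0, k.K0, sub_zero]
  | succ n ih =>
    intro p q Y hY hp F
    have h1 := ih (p + 1) (q - 1) _ (YB.z k hY) (by push_cast at hp; linarith) F
    rw [cmp_apply] at h1
    have h2 : inner ℂ (Zop K C (Y F)) (Zop K C (Y F)) = 0 := by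
      rw [k.zs, h1, neg_zero, inner_zero_right]
    exact inner_self_eq_zero.1 h2

theorem YB.comm {p q : ℝ} {Y : 𝓢(Mink, ℂ) →L[ℂ] D} (hY : YB Q a p q Y) (F : 𝓢(Mink, ℂ)) :
    K (C (Y F)) = C (K (Y F)) := by
  obtain ⟨n, hn⟩ := exists_nat_gt (4 - p)
  have h := k.z_zero n p q Y hY (by linarith) F
  exact sub_eq_zero.1 h

end

end Vale.Agent.P352.H731

end
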