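import Vale.Agent.P352.H731.Nc4
import Vale.Agent.P352.H148.YbAx
import Vale.Agent.P352.H846.YbT

set_option linter.all false

noncomputable section

open MeasureTheory SchwartzMap Complex Filter Topology
open scoped SchwartzMap ComplexConjugate ENNReal NNReal LineDeriv

namespace Vale.Agent.P352.H731

open GF (Ix V Fn Sch ev pd bar sim bas o)
open H246 H496 H755 H746 H993 H15
open H148 (XK isSim_XK)
open UniformSpace (Completion)

variable {D : Type*} [NormedAddCommGroup D] [InnerProductSpace ℂ D]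
variable {Q : GF.Theory D} {A : (V → V) → D → D} {K C : D → D} {a : V}

/-- the Ward identity of special conformal transformations follows from those of the stabilizer -/
def WB (a : V) : Prop := ∀ (p q : ℝ) (β : 𝓢(Mink, ℂ) → 𝓢(Mink, ℂ) → ℂ),
  (∀ F F' G, β (F + F') G = β F G + β F' G) → (∀ F G G', β F (G + G') = β F G + β F G') →
  (∀ (c : ℝ) F G, β ((c : ℂ) • F) G = c * β F G) → (∀ (c : ℝ) F G, β F ((c : ℂ) • G) = c * β F G) →
  (∀ (w : Ix → V) (r l : ℝ) (c : V), (∀ m n, GF.eta n * w m n = -(GF.eta m * w n m)) →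
    (∀ n, ∑ m, a m * w m n = l * a n) →
    (∀ z, GF.mdot a z = 0 → ∃ t : ℝ, ∀ n, ∑ m, z m * w m n = t * a n) → ∀ F G,
    β (vfS w r c F) G + β F (vfS w r c G) + ((2 * (p * r + q * l) : ℝ) : ℂ) * β F G = 0) →
  ∀ F G, β (H746.kdL a (4 - (p - q)) F) G + β F (H746.kdL a (4 - (p - q)) G) = 0

section

variable (k : KC Q A a K C) {p q : ℝ} {Y Y' : 𝓢(Mink, ℂ) →L[ℂ] D}
include k

/-- the Ward identity -/
theorem YB.ward (hW : WB a) (hY : YB Q a p q Y) (hY' : YB Q a p q Y') (F G : 𝓢(Mink, ℂ)) :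
    inner ℂ (Y (H746.kdL a (4 - (p - q)) F)) (Y' G) +
      inner ℂ (Y F) (Y' (H746.kdL a (4 - (p - q)) G)) = 0 := by
  refine hW p q (fun F G => inner ℂ (Y F) (Y' G)) (fun F F' G => ?_) (fun F G G' => ?_)
    (fun c F G => ?_) (fun c F G => ?_) (fun w r l c hw hl hz F G => ?_) F G
  · show inner ℂ (Y (F + F')) (Y' G) = _
    rw [map_add, inner_add_left]
  · show inner ℂ (Y F) (Y' (G + G')) = _
    rw [map_add, inner_add_right]
  · show inner ℂ (Y ((c : ℂ) • F)) (Y' G) = _
    rw [map_smul, inner_smul_left, Complex.conj_ofReal]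
  · show inner ℂ (Y F) (Y' ((c : ℂ) • G)) = _
    rw [map_smul, inner_smul_right]
  · set X : V → V := fun z n => c n + r * z n + ∑ m, z m * w m n with hX
    have hsim : IsSim r X := ⟨c, w, hw, fun z n => rfl⟩
    have h1 := A_symm k.rep hsim (Y F) (Y' G)
    rw [hY.A_law k.rep hw hl hz (fun z n => rfl) F, hY'.A_law k.rep hw hl hz (fun z n => rfl) G,
      inner_smul_left, inner_smul_right, inner_add_left, inner_add_right, inner_smul_left,
      inner_smul_right, Complex.conj_ofReal, Complex.conj_I] at h1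
    have h2 : I * (inner ℂ (Y (vfS w r c F)) (Y' G) + inner ℂ (Y F) (Y' (vfS w r c G)) +
        ((2 * (p * r + q * l) : ℝ) : ℂ) * inner ℂ (Y F) (Y' G)) = 0 := by
      push_cast at h1 ⊢
      linear_combination -h1
    exact (mul_eq_zero.1 h2).resolve_left I_ne_zero

/-- one step of the induction -/
theorem YB.step (hW : WB a) (hY : YB Q a p q Y) (h0 : ∀ F, C (kapC k p q Y F) = 0)
    (F : 𝓢(Mink, ℂ)) : C (Y F) = 0 := by
  set χ := cmp k.cs Y with hχ
  have hc : YB Q a p q χ := YB.c k hY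
  have hcc : YB Q a p q (cmp k.cs χ) := YB.c k hc
  -- the action of `K` on `χ`
  have h1 : ∀ F, K (χ F) = (-I) • χ (H746.kdL a (4 - (p - q)) F) + (2 : ℂ) • C (χ (axL a F)) := by
    intro F
    have h := h0 F
    rw [kapC_apply, k.Csub, k.Cadd, k.Csmul, k.Csmul] at h
    have e := YB.comm k hY F
    show K (C (Y F)) = (-I) • C (Y (H746.kdL a (4 - (p - q)) F)) + (2 : ℂ) • C (C (Y (axL a F)))
    rw [e, neg_smul]
    have h' := sub_eq_zero.1 h
    rw [← h']
    abel
  have h2 : ∀ F, K (C (χ F)) = (-I) • C (χ (H746.kdL a (4 - (p - q)) F)) +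
      (2 : ℂ) • C (C (χ (axL a F))) := by
    intro F
    rw [YB.comm k hc F, h1, k.Cadd, k.Csmul, k.Csmul]
  have h3 : ∀ F G, inner ℂ (C (χ F)) (C (χ (axL a G))) = inner ℂ (C (χ (axL a F))) (C (χ G)) := by
    intro F G
    have e := k.ks (χ F) (C (χ G))
    have w : inner ℂ (χ (H746.kdL a (4 - (p - q)) F)) (C (χ G)) +
      inner ℂ (χ F) (C (χ (H746.kdL a (4 - (p - q)) G))) = 0 := YB.ward k hW hc hcc F G
    have s1 := k.cs (χ F) (C (χ (axL a G)))
    rw [h1, h2, inner_add_left, inner_add_right, inner_smul_left, inner_smul_left,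
      inner_smul_right, inner_smul_right] at e
    have c1 : (starRingEnd ℂ) (-I) = I := by rw [map_neg, Complex.conj_I, neg_neg]
    have c2 : (starRingEnd ℂ) (2 : ℂ) = 2 := by
      have : (2 : ℂ) = ((2 : ℝ) : ℂ) := by norm_num
      rw [this, Complex.conj_ofReal]
    rw [c1, c2] at e
    linear_combination s1 - (1/2 : ℂ) * e + (I / 2) * w
  have h4 : ∀ F, C (χ F) = 0 := by
    intro F
    refine H148.yb_ax_zero (Q := Q) (Y := fun F => C (χ F)) (fun F G => ?_) (fun c F => ?_)
      (fun w => ?_) (fun x F => ?_) k.nul (fun F G => ?_) F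
    · show C (χ (F + G)) = _
      rw [map_add, k.Cadd]
    · show C (χ (c • F)) = _
      rw [map_smul, k.Csmul]
    · exact continuous_const.inner (cmp k.cs χ).continuous
    · exact hcc.tau x F
    · have e : ∀ f, H993.axS a f = axL a f := by
        intro f
        unfold axL H993.axS
        rw [ContinuousLinearMap.sum_apply]
        rfl
      rw [e, e]
      exact h3 F G
  have h5 : inner ℂ (C (Y F)) (C (Y F)) = 0 := by
    rw [k.cs]
    show inner ℂ (Y F) (C (χ F)) = 0
    rw [h4, inner_zero_right]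
  exact inner_self_eq_zero.1 h5

/-- the downward induction -/
theorem YB.all (hW : WB a) (n : ℕ) : ∀ (p q : ℝ) (Y : 𝓢(Mink, ℂ) →L[ℂ] D), YB Q a p q Y →
    4 < p + n → ∀ F, C (Y F) = 0 := by
  induction n with
  | zero =>
    intro p q Y hY hp F
    rw [Nat.cast_zero, add_zero] at hp
    rw [hY.zero hp F, k.C0]
  | succ n ih =>
    intro p q Y hY hp F
    refine YB.step k hW hY (fun F => ?_) F
    exact ih (p + 1) (q - 1) _ (YB.kap k hY) (by push_cast at hp; linarith) F

omit k in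
/-- the continuous linear map of a weakly continuous family -/
lemma exists_clm {Y : 𝓢(Mink, ℂ) → D} (hY : H846.YB Q a p q Y) :
    ∃ Y' : 𝓢(Mink, ℂ) →L[ℂ] D, (∀ F, Y' F = Y F) ∧ YB Q a p q Y' := by
  have := barrelled_schwartz
  let L : 𝓢(Mink, ℂ) →ₗ[ℂ] D := { toFun := Y, map_add' := hY.add, map_smul' := hY.smul }
  have hc : Continuous L := cont_of_weak (E := 𝓢(Mink, ℂ)) (H := D) L (Z := Set.univ)
    dense_univ fun z _ => hY.cont z
  refine ⟨⟨L, hc⟩, fun F => rfl, ⟨fun x F => hY.tra x F, fun s r L hs hr hL hLa F => ?_⟩⟩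
  exact hY.cov s hs L hL r hr hLa F

/-- **The null charge of the virial current vanishes on covariant distributions** -/
theorem KC.key (hW : WB a) (p q : ℝ) (Y : 𝓢(Mink, ℂ) → D) (hY : H846.YB Q a p q Y)
    (F : 𝓢(Mink, ℂ)) : C (Y F) = 0 := by
  obtain ⟨Y', e, h⟩ := exists_clm hY
  obtain ⟨n, hn⟩ := exists_nat_gt (4 - p)
  rw [← e]
  exact YB.all k hW n p q Y' h (by linarith) F

end

end Vale.Agent.P352.H731

end
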