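import Vale.Agent.P352.H496.Defs
import Vale.Agent.P352.H755.G1

set_option linter.all false

noncomputable section

namespace Vale.Agent.P352.H731

open GF (Ix V bas o)
open H496 (IsNull Wdg)

/-! ### Null vectors -/

lemma md4 (x y : V) : GF.mdot x y = x 0 * y 0 - x 1 * y 1 - x 2 * y 2 - x 3 * y 3 := by
  simp only [GF.mdot, Fin.sum_univ_four, GF.eta, o]
  simp
  ring

lemma null0 {a : V} (ha : IsNull a) : 0 < a 0 := ha.2

/-- two null vectors with product `≤ 0` are parallel -/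
lemma null_par {a b : V} (ha : IsNull a) (hb : IsNull b) (h : GF.mdot a b ≤ 0) (y : V) :
    b 0 * GF.mdot a y = a 0 * GF.mdot b y := by
  have a0 := null0 ha
  have b0 := null0 hb
  have ha1 := ha.1
  have hb1 := hb.1
  rw [md4] at ha1 hb1 h
  have hab : 0 < a 0 * b 0 := mul_pos a0 b0
  have hS : (b 0 * a 1 - a 0 * b 1) ^ 2 + (b 0 * a 2 - a 0 * b 2) ^ 2 +
      (b 0 * a 3 - a 0 * b 3) ^ 2 ≤ 0 := by
    have e : (b 0 * a 1 - a 0 * b 1) ^ 2 + (b 0 * a 2 - a 0 * b 2) ^ 2 +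
        (b 0 * a 3 - a 0 * b 3) ^ 2 =
        2 * (a 0 * b 0) * (a 0 * b 0 - a 1 * b 1 - a 2 * b 2 - a 3 * b 3) := by
      linear_combination (-(b 0) ^ 2) * ha1 + (-(a 0) ^ 2) * hb1
    rw [e]
    nlinarith
  have h1 : b 0 * a 1 - a 0 * b 1 = 0 := by
    have q1 := sq_nonneg (b 0 * a 1 - a 0 * b 1)
    have q2 := sq_nonneg (b 0 * a 2 - a 0 * b 2)
    have q3 := sq_nonneg (b 0 * a 3 - a 0 * b 3)
    exact pow_eq_zero_iff (two_ne_zero) |>.1 (by linarith)
  have h2 : b 0 * a 2 - a 0 * b 2 = 0 := by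
    have q1 := sq_nonneg (b 0 * a 1 - a 0 * b 1)
    have q2 := sq_nonneg (b 0 * a 2 - a 0 * b 2)
    have q3 := sq_nonneg (b 0 * a 3 - a 0 * b 3)
    exact pow_eq_zero_iff (two_ne_zero) |>.1 (by linarith)
  have h3 : b 0 * a 3 - a 0 * b 3 = 0 := by
    have q1 := sq_nonneg (b 0 * a 1 - a 0 * b 1)
    have q2 := sq_nonneg (b 0 * a 2 - a 0 * b 2)
    have q3 := sq_nonneg (b 0 * a 3 - a 0 * b 3)
    exact pow_eq_zero_iff (two_ne_zero) |>.1 (by linarith)
  rw [md4, md4]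
  linear_combination (-y 1) * h1 - y 2 * h2 - y 3 * h3

/-- a null vector orthogonal to `y` and one that is not -/
lemma null_pos {a b y : V} (ha : IsNull a) (hb : IsNull b) (h : GF.mdot a y = 0)
    (h' : GF.mdot b y ≠ 0) : 0 < GF.mdot a b := by
  by_contra hc
  have e := null_par ha hb (not_lt.1 hc) y
  rw [h, mul_zero] at e
  exact h' ((mul_eq_zero.1 e.symm).resolve_left (null0 ha).ne')

/-- null vectors are not orthogonal to all -/
lemma exists_null_ne {y : V} (hy : y ≠ 0) : ∃ b, IsNull b ∧ GF.mdot b y ≠ 0 := by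
  by_contra hc
  have h : ∀ b, IsNull b → GF.mdot b y = 0 := fun b hb => by
    by_contra h
    exact hc ⟨b, hb, h⟩
  have k : ∀ (c : V), c 0 = 1 → c 1 ^ 2 + c 2 ^ 2 + c 3 ^ 2 = 1 →
      y 0 - c 1 * y 1 - c 2 * y 2 - c 3 * y 3 = 0 := by
    intro c c0 c1
    have hn : IsNull c := by
      refine ⟨?_, ?_⟩
      · rw [md4, c0]; linear_combination -c1
      · show 0 < c 0
        rw [c0]; exact one_pos
    have := h c hn
    rw [md4, c0] at this
    linear_combination this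
  have p1 := k ![1, 1, 0, 0] rfl (by simp)
  have m1 := k ![1, -1, 0, 0] rfl (by simp)
  have p2 := k ![1, 0, 1, 0] rfl (by simp)
  have p3 := k ![1, 0, 0, 1] rfl (by simp)
  simp at p1 m1 p2 p3
  apply hy
  funext n
  fin_cases n <;> simp <;> linarith

lemma md_lin (x y z : V) (c : ℝ) : GF.mdot x (y + c • z) = GF.mdot x y + c * GF.mdot x z := by
  rw [md4, md4, md4]
  simp only [Pi.add_apply, Pi.smul_apply, smul_eq_mul]
  ring

/-- vectors orthogonal to a timelike vector are spacelike -/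
lemma orth_neg {P s : V} (hP : 0 < GF.mdot P P) (hs : GF.mdot P s = 0) (h0 : s ≠ 0) :
    GF.mdot s s < 0 := by
  rw [md4] at hP hs ⊢
  have cs : (P 1 * s 1 + P 2 * s 2 + P 3 * s 3) ^ 2 ≤
      (P 1 ^ 2 + P 2 ^ 2 + P 3 ^ 2) * (s 1 ^ 2 + s 2 ^ 2 + s 3 ^ 2) := by
    nlinarith [sq_nonneg (P 1 * s 2 - P 2 * s 1), sq_nonneg (P 1 * s 3 - P 3 * s 1),
      sq_nonneg (P 2 * s 3 - P 3 * s 2)]
  have e : P 0 * s 0 = P 1 * s 1 + P 2 * s 2 + P 3 * s 3 := by linear_combination hs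
  rw [← e] at cs
  have hA : 0 ≤ s 1 ^ 2 + s 2 ^ 2 + s 3 ^ 2 := by positivity
  have hB : P 1 ^ 2 + P 2 ^ 2 + P 3 ^ 2 < P 0 ^ 2 := by nlinarith
  have hP0 : 0 < P 0 ^ 2 := lt_of_le_of_lt (by positivity) hB
  rcases hA.eq_or_lt with h | h
  · exfalso
    have h1 : s 1 = 0 := by nlinarith [sq_nonneg (s 1), sq_nonneg (s 2), sq_nonneg (s 3)]
    have h2 : s 2 = 0 := by nlinarith [sq_nonneg (s 1), sq_nonneg (s 2), sq_nonneg (s 3)]
    have h3 : s 3 = 0 := by nlinarith [sq_nonneg (s 1), sq_nonneg (s 2), sq_nonneg (s 3)]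
    rw [h1, h2, h3] at e
    have h4 : s 0 = 0 := by
      have h5 : P 0 ≠ 0 := fun h => by rw [h] at hP0; simp at hP0
      have h6 : P 0 * s 0 = 0 := by rw [e]; ring
      exact (mul_eq_zero.1 h6).resolve_left h5
    apply h0
    funext n
    fin_cases n
    · exact h4
    · exact h1
    · exact h2
    · exact h3
  · have h5 : P 0 ^ 2 * s 0 ^ 2 < P 0 ^ 2 * (s 1 ^ 2 + s 2 ^ 2 + s 3 ^ 2) := by
      have h6 : P 0 ^ 2 * s 0 ^ 2 = (P 0 * s 0) ^ 2 := by ring
      rw [h6]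
      exact lt_of_le_of_lt cs (mul_lt_mul_of_pos_right hB h)
    have h7 := lt_of_mul_lt_mul_left h5 hP0.le
    nlinarith

theorem exists_quad {a : V} (ha : IsNull a) (y : V) (hy : GF.mdot y y < 0)
    (hay : GF.mdot a y = 0) : ∃ b c d, IsNull b ∧ IsNull c ∧ IsNull d ∧ a + b = c + d ∧
      GF.mdot b y ≠ 0 ∧ GF.mdot c y ≠ 0 ∧ GF.mdot d y ≠ 0 := by
  have hy0 : y ≠ 0 := by
    intro h
    rw [h, md4] at hy
    simp at hy
  obtain ⟨b, hb, hby⟩ := exists_null_ne hy0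
  have hab := null_pos ha hb hay hby
  set P : V := a + b with hP
  have hPP : GF.mdot P P = 2 * GF.mdot a b := by
    have h1 := ha.1
    have h2 := hb.1
    rw [md4] at h1 h2
    rw [hP, md4, md4]
    simp only [Pi.add_apply]
    linear_combination h1 + h2
  have hP0 : 0 < GF.mdot P P := by rw [hPP]; linarith
  obtain ⟨s, hs, hs0⟩ := Submodule.exists_mem_ne_zero_of_ne_bot
    (LinearMap.ker_ne_bot_of_finrank_lt (K := ℝ)
      (f := ((H755.ml P).prod (H755.ml y) : V →L[ℝ] ℝ × ℝ).toLinearMap) (by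
        rw [Module.finrank_prod, Module.finrank_self]
        show 1 + 1 < Module.finrank ℝ (Fin 4 → ℝ)
        rw [Module.finrank_fin_fun]
        norm_num))
  have hs1 : GF.mdot P s = 0 ∧ GF.mdot y s = 0 := by
    have h := LinearMap.mem_ker.1 hs
    have h1 : (H755.ml P s, H755.ml y s) = (0, 0) := h
    rw [Prod.mk.injEq, H755.ml_apply, H755.ml_apply] at h1
    exact h1
  have hss := orth_neg hP0 hs1.1 hs0
  set r : ℝ := Real.sqrt (GF.mdot P P / (-GF.mdot s s)) with hr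
  have hr2 : r ^ 2 * GF.mdot s s = -GF.mdot P P := by
    rw [hr, Real.sq_sqrt (div_nonneg hP0.le (by linarith))]
    have hne : GF.mdot s s ≠ 0 := hss.ne
    rw [div_mul_eq_mul_div, div_neg, mul_div_assoc, div_self hne, mul_one]
  have key : ∀ e : ℝ, e ^ 2 = r ^ 2 → IsNull ((1/2 : ℝ) • (P + e • s)) := by
    intro e he
    have h1 : GF.mdot ((1/2 : ℝ) • (P + e • s)) ((1/2 : ℝ) • (P + e • s)) = 0 := by
      have e1 : GF.mdot ((1/2 : ℝ) • (P + e • s)) ((1/2 : ℝ) • (P + e • s)) =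
          (1/4) * (GF.mdot P P + 2 * e * GF.mdot P s + e ^ 2 * GF.mdot s s) := by
        rw [md4, md4, md4, md4]
        simp only [Pi.add_apply, Pi.smul_apply, smul_eq_mul]
        ring
      rw [e1, he, hr2, hs1.1]
      ring
    refine ⟨h1, ?_⟩
    show 0 < ((1/2 : ℝ) • (P + e • s)) 0
    by_contra hc
    -- `c·P > 0`
    set c : V := (1/2 : ℝ) • (P + e • s) with hcdef
    have h2 : GF.mdot P c = (1/2) * GF.mdot P P := by
      have e1 : GF.mdot P c = (1/2) * (GF.mdot P P + e * GF.mdot P s) := by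
        rw [hcdef, md4, md4, md4]
        simp only [Pi.add_apply, Pi.smul_apply, smul_eq_mul]
        ring
      rw [e1, hs1.1]; ring
    have hPpos : 0 < P 0 := by
      have := null0 ha
      have := null0 hb
      show 0 < a 0 + b 0
      linarith
    have cs : (P 1 * c 1 + P 2 * c 2 + P 3 * c 3) ^ 2 ≤
        (P 1 ^ 2 + P 2 ^ 2 + P 3 ^ 2) * (c 1 ^ 2 + c 2 ^ 2 + c 3 ^ 2) := by
      nlinarith [sq_nonneg (P 1 * c 2 - P 2 * c 1), sq_nonneg (P 1 * c 3 - P 3 * c 1),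
        sq_nonneg (P 2 * c 3 - P 3 * c 2)]
    have h3 : 0 < GF.mdot P c := by rw [h2]; linarith
    have h4 : P 0 * c 0 ≤ 0 := mul_nonpos_of_nonneg_of_nonpos hPpos.le (not_lt.1 hc)
    rw [md4] at h3 h1 hP0
    have h5 : 0 ≤ -(P 0 * c 0) := by linarith
    have h6 : -(P 0 * c 0) < -(P 1 * c 1 + P 2 * c 2 + P 3 * c 3) := by linarith
    have h7 : (P 0 * c 0) ^ 2 < (P 1 * c 1 + P 2 * c 2 + P 3 * c 3) ^ 2 := by
      have h7' := pow_lt_pow_left₀ h6 h5 two_ne_zero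
      rwa [neg_sq, neg_sq] at h7'
    have h8 : c 1 ^ 2 + c 2 ^ 2 + c 3 ^ 2 = c 0 ^ 2 := by linear_combination -h1
    rw [h8] at cs
    have h9 : (P 1 ^ 2 + P 2 ^ 2 + P 3 ^ 2) * c 0 ^ 2 ≤ P 0 ^ 2 * c 0 ^ 2 :=
      mul_le_mul_of_nonneg_right (by linarith [hP0, sq (P 0), sq (P 1), sq (P 2), sq (P 3)])
        (sq_nonneg _)
    have h10 : (P 0 * c 0) ^ 2 = P 0 ^ 2 * c 0 ^ 2 := by ring
    linarith
  have hsy : GF.mdot s y = 0 := by
    have := hs1.2
    rw [md4] at this ⊢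
    linear_combination this
  have hPy : GF.mdot P y = GF.mdot b y := by
    rw [hP, md4, md4]
    rw [md4] at hay
    simp only [Pi.add_apply]
    linear_combination hay
  have hval : ∀ e : ℝ, GF.mdot ((1/2 : ℝ) • (P + e • s)) y ≠ 0 := by
    intro e
    have e1 : GF.mdot ((1/2 : ℝ) • (P + e • s)) y = (1/2) * (GF.mdot P y + e * GF.mdot s y) := by
      rw [md4, md4, md4]
      simp only [Pi.add_apply, Pi.smul_apply, smul_eq_mul]
      ring
    rw [e1, hsy, hPy, mul_zero, add_zero]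
    exact mul_ne_zero (by norm_num) hby
  refine ⟨b, (1/2 : ℝ) • (P + r • s), (1/2 : ℝ) • (P + (-r) • s), hb, key r rfl,
    key (-r) (by ring), ?_, hby, hval _, hval _⟩
  rw [← hP]
  funext n
  simp only [Pi.add_apply, Pi.smul_apply, smul_eq_mul]
  ring

theorem exists_wdg {a y : V} (ha : IsNull a) (hy : GF.mdot y y < 0) (hay : GF.mdot a y ≠ 0) :
    ∃ b, IsNull b ∧ 0 < GF.mdot a b ∧ (y ∈ Wdg a b 0 ∨ y ∈ Wdg b a 0) := by
  set N : ℝ := Real.sqrt (y 1 ^ 2 + y 2 ^ 2 + y 3 ^ 2) with hN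
  have hN2 : N ^ 2 = y 1 ^ 2 + y 2 ^ 2 + y 3 ^ 2 := Real.sq_sqrt (by positivity)
  have hN0 : 0 ≤ N := Real.sqrt_nonneg _
  rw [md4] at hy
  have h1 : y 0 ^ 2 < N ^ 2 := by rw [hN2]; nlinarith
  have hNp : 0 < N := by
    rcases hN0.eq_or_lt with h | h
    · rw [← h] at h1; nlinarith [sq_nonneg (y 0)]
    · exact h
  have h2 := abs_lt_of_sq_lt_sq h1 hN0
  have h3 := abs_lt.1 h2
  have key : ∀ e : ℝ, e ^ 2 = 1 → IsNull ![N, e * y 1, e * y 2, e * y 3] ∧
      GF.mdot ![N, e * y 1, e * y 2, e * y 3] y = N * (y 0 - e * N) := by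
    intro e he
    refine ⟨⟨?_, hNp⟩, ?_⟩
    · rw [md4]
      simp
      linear_combination hN2 - (y 1 ^ 2 + y 2 ^ 2 + y 3 ^ 2) * he
    · rw [md4]
      simp
      linear_combination e * hN2
  have pos : ∀ b : V, IsNull b → GF.mdot a y * GF.mdot b y < 0 → 0 < GF.mdot a b := by
    intro b hb h
    by_contra hc
    have e := null_par ha hb (not_lt.1 hc) y
    have a0 := null0 ha
    have b0 := null0 hb
    have h4 : b 0 * (GF.mdot a y) ^ 2 = a 0 * (GF.mdot a y * GF.mdot b y) := by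
      linear_combination (GF.mdot a y) * e
    have h5 : 0 ≤ b 0 * (GF.mdot a y) ^ 2 := by positivity
    rw [h4] at h5
    nlinarith [mul_pos_of_neg_of_neg (neg_neg_of_pos a0) h]
  have sub0 : ∀ z : V, z - 0 = z := fun z => sub_zero z
  rcases lt_or_gt_of_ne hay with h | h
  · obtain ⟨k1, k2⟩ := key (-1) (by norm_num)
    have k3 : 0 < GF.mdot ![N, -1 * y 1, -1 * y 2, -1 * y 3] y := by
      rw [k2]
      exact mul_pos hNp (by linarith [h3.1])
    refine ⟨_, k1, pos _ k1 (mul_neg_of_neg_of_pos h k3), Or.inl ⟨?_, ?_⟩⟩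
    · rw [sub_zero]; exact h
    · rw [sub_zero]; exact k3
  · obtain ⟨k1, k2⟩ := key 1 (by norm_num)
    have k3 : GF.mdot ![N, 1 * y 1, 1 * y 2, 1 * y 3] y < 0 := by
      rw [k2]
      exact mul_neg_of_pos_of_neg hNp (by linarith [h3.2])
    refine ⟨_, k1, pos _ k1 (mul_neg_of_pos_of_neg h k3), Or.inr ⟨?_, ?_⟩⟩
    · rw [sub_zero]; exact k3
    · rw [sub_zero]; exact h

end Vale.Agent.P352.H731

end
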