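import Vale.Agent.P352.H731.RlDefs
import Vale.Agent.P352.H246.Dens
import Vale.Agent.P352.H246.Words

set_option linter.all false

noncomputable section

open MeasureTheory SchwartzMap Complex Filter Topology
open scoped SchwartzMap ComplexConjugate ENNReal LineDeriv

namespace Vale.Agent.P352.H731

open GF (Ix V Fn Sch ev pd bar sim one bas o)
open H246

variable {D : Type*} [NormedAddCommGroup D] [InnerProductSpace ℂ D]
variable {Q : GF.Theory D} {T : Ix → Ix → GF.Fld D}

/-- what is needed of a field for the commutator with the charge -/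
structure TLoc (Q : GF.Theory D) (T : Ix → Ix → GF.Fld D) (P : GF.Fld D) (f : 𝓢(Mink, ℂ)) :
    Prop where
  addv : ∀ v w, P (fl f) (v + w) = P (fl f) v + P (fl f) w
  loc : ∀ m n F v, SpSep F f → T m n (fl F) (P (fl f) v) = P (fl f) (T m n (fl F) v)

variable (hT : Q.IsStress T) {P : GF.Fld D} {f : 𝓢(Mink, ℂ)} (hP : TLoc Q T P f)

/-- the commutator functional -/
def Zc (n : Ix) (v : D) (m : Fin 4) : 𝓢(Mink, ℂ) →+ D where
  toFun F := T m n (fl F) (P (fl f) v) - P (fl f) (T m n (fl F) v)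
  map_zero' := by
    have h0 : ∀ w, T m n (fl 0) w = 0 := fun w => fld_zero (Q.bose_fld _ (hT.bose m n)) w
    have h1 : P (fl f) 0 = 0 := by
      have := hP.addv 0 0
      rw [add_zero] at this
      exact left_eq_add.mp this
    rw [h0, h0, h1, sub_zero]
  map_add' F G := by
    rw [fld_addf (Q.bose_fld _ (hT.bose m n)), fld_addf (Q.bose_fld _ (hT.bose m n)), hP.addv]
    abel

lemma Zc_apply (n : Ix) (v : D) (m : Fin 4) (F : 𝓢(Mink, ℂ)) :
    Zc hT hP n v m F = T m n (fl F) (P (fl f) v) - P (fl f) (T m n (fl F) v) := rfl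

include hP in
lemma TLoc.sum {ι : Type*} (s : Finset ι) (w : ι → D) :
    P (fl f) (∑ i ∈ s, w i) = ∑ i ∈ s, P (fl f) (w i) := by
  classical
  have h1 : P (fl f) 0 = 0 := by
    have := hP.addv 0 0
    rw [add_zero] at this
    exact left_eq_add.mp this
  induction s using Finset.induction_on with
  | empty => simpa using h1
  | insert i s hi ih => rw [Finset.sum_insert hi, Finset.sum_insert hi, hP.addv, ih]

lemma Zc_cons (n : Ix) (v : D) (F : 𝓢(Mink, ℂ)) :
    ∑ m, Zc hT hP n v m (∂_{eb m} F : 𝓢(Mink, ℂ)) = 0 := by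
  simp only [Zc_apply]
  rw [Finset.sum_sub_distrib, ← hP.sum]
  have h1 : ∀ w, ∑ m, T m n (fl (∂_{eb m} F : 𝓢(Mink, ℂ))) w = 0 := by
    intro w
    have := hT.conserved n (fl F) w (isTest_fl _)
    simpa only [pd_fl] using this
  rw [h1, h1]
  have h2 : P (fl f) 0 = 0 := by
    have := hP.addv 0 0
    rw [add_zero] at this
    exact left_eq_add.mp this
  rw [h2, sub_zero]

/-- a radius after which the commutator is constant -/
lemma exists_rad (hf : HasCompactSupport f) : ∃ c : ℝ, 1 ≤ c ∧ ∀ (P : GF.Fld D)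
    (hP : TLoc Q T P f) (n : Ix) (v : D), OutZero (Zc hT hP n v) c := by
  obtain ⟨r, hr0, hr⟩ := exists_ball f hf
  refine ⟨2 * r + 1, by linarith, fun P hP n v => ?_⟩
  intro m F i hi σ hσ _ hF
  rw [Zc_apply, hP.loc m n F v (CoreData.spSep_of_out hi hσ hF hr (by linarith only [])), sub_self]

/-- the time scaled cutoffs -/
def GR (R : ℝ) : 𝓢(Mink, ℂ) := if h : R ≠ 0 then FR R h else 0

lemma GR_eq {R : ℝ} (h : R ≠ 0) : GR R = FR R h := dif_pos h

lemma conj_GR (R : ℝ) : conjS (GR R) = GR R := by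
  unfold GR
  split_ifs with h
  · exact conjS_prodS _
  · ext x; simp

/-- comparison of the cutoffs -/
theorem com_const (hf : HasCompactSupport f) : ∃ R0 : ℝ, 1 ≤ R0 ∧ ∀ (P : GF.Fld D)
    (hP : TLoc Q T P f) (n : Ix) (v : D) R R', R0 ≤ R → R0 ≤ R' →
      ∀ h : R' ≠ 0, Zc hT hP n v 0 (GR R) = Zc hT hP n v 0 (F1 R' h) := by
  obtain ⟨c, hc, hout⟩ := exists_rad (Q := Q) hT hf
  refine ⟨c, hc, fun P hP n v R R' hR hR' h => ?_⟩
  have hR1 : 1 ≤ R := hc.trans hR
  have hR1' : 1 ≤ R' := hc.trans hR'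
  have h1 := cut_all (hout P hP n v) (Zc_cons hT hP n v) hR1 (by linarith) hR1' (by linarith)
  rw [GR_eq (by positivity)]
  exact h1

/-- the fields of `Q` -/
lemma tloc_fld (hT : Q.IsStress T) {A : GF.Fld D} (hA : Q.fld A) (f : 𝓢(Mink, ℂ)) :
    TLoc Q T A f where
  addv v w := fld_add hA f v w
  loc m n F v h := Q.loc (T m n) A _ _ v (hT.bose m n) hA (isTest_fl _) (isTest_fl _) (sep_fl h)

include hT

/-- the charge acts on the fields of `Q` -/
theorem charge_fld (hf : HasCompactSupport f) : ∃ R0 : ℝ, ∀ (A : GF.Fld D), Q.fld A →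
    ∀ (n : Ix) (v : D) R, R0 ≤ R → T o n (fl (GR R)) (A (fl f) v) =
      A (fl f) (T o n (fl (GR R)) v) + (I * GF.eta n) • A (fl (∂_{eb n} f : 𝓢(Mink, ℂ))) v := by
  obtain ⟨R0, h1, hc⟩ := com_const (Q := Q) hT hf
  refine ⟨R0, fun A hA n v R hR => ?_⟩
  have hP := tloc_fld hT hA f
  have e1 : ∀ R', R0 ≤ R' → ∀ h : R' ≠ 0, T o n (fl (GR R)) (A (fl f) v) -
      A (fl f) (T o n (fl (GR R)) v) =
      T o n (fl (F1 R' h)) (A (fl f) v) - A (fl f) (T o n (fl (F1 R' h)) v) :=
    fun R' hR' h => hc A hP n v R R' hR hR' h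
  have e2 : T o n (fl (GR R)) (A (fl f) v) - A (fl f) (T o n (fl (GR R)) v) =
      (I * GF.eta n) • A (fl (∂_{eb n} f : 𝓢(Mink, ℂ))) v := by
    refine ext_inner_left ℂ fun w => ?_
    have h2 := hT.charge cutF n A (fl f) v w isCutoff_cutF hA (isTest_fl f)
      (hasCompactSupport_fl hf)
    rw [pd_fl] at h2
    refine tendsto_nhds_unique (tendsto_const_nhds.congr' ?_) h2
    filter_upwards [eventually_ge_atTop (max 1 R0)] with R' hR'
    have h3 : 1 ≤ R' := (le_max_left _ _).trans hR'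
    have h4 : R' ≠ 0 := by positivity
    rw [e1 R' ((le_max_right _ _).trans hR') h4]
    simp only [cutF, dif_pos h4]
  rw [← e2]
  abel

/-- the time scaled charge of the vacuum tends to zero -/
theorem charge_vac (m n : Ix) : Tendsto (fun R => T m n (fl (GR R)) Q.vac) atTop (𝓝 0) := by
  have h : ∀ R, 1 ≤ R → ‖T m n (fl (GR R)) Q.vac‖ = R⁻¹ * ‖T m n (fl (GR 1)) Q.vac‖ := by
    intro R hR1
    have hR : 0 < R := by linarith
    have h1 := hT.cov m n R one 0 (fl (GR R)) Q.vac hR isLor_one (isTest_fl _)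
    rw [Q.U_vac _ _ _ hR isLor_one, fl_sim R hR isLor_one, GR_eq hR.ne', scale_FR hR] at h1
    have h2 : T m n (fl (FR R hR.ne')) Q.vac = Q.U R one 0
        (T m n (fl (((R⁻¹ : ℝ) : ℂ) • FR 1 one_ne_zero)) Q.vac) := by
      rw [h1]
      rw [Finset.sum_eq_single m, Finset.sum_eq_single n]
      · simp [one, bas]
      · intro l _ hl
        simp [one, bas, hl.symm]
      · intro hn
        exact absurd (Finset.mem_univ n) hn
      · intro k _ hk
        refine Finset.sum_eq_zero fun l _ => ?_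
        simp [one, bas, hk.symm]
      · intro hm
        exact absurd (Finset.mem_univ m) hm
    rw [GR_eq hR.ne', h2, U_nrm0 hR isLor_one, fld_smulf (Q.bose_fld _ (hT.bose m n)), norm_smul,
      norm_real, Real.norm_of_nonneg (by positivity), GR_eq one_ne_zero]
  rw [tendsto_zero_iff_norm_tendsto_zero]
  have h2 : Tendsto (fun R : ℝ => R⁻¹ * ‖T m n (fl (GR 1)) Q.vac‖) atTop (𝓝 0) := by
    have := tendsto_inv_atTop_zero (𝕜 := ℝ)
    simpa using this.mul_const ‖T m n (fl (GR 1)) Q.vac‖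
  refine h2.congr' ?_
  filter_upwards [eventually_ge_atTop 1] with R hR
  exact (h R hR).symm

end Vale.Agent.P352.H731

end
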