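import Vale.Agent.P352.GFDefs

open MeasureTheory Filter Topology

namespace Vale.Agent.P352.H731

open GF

noncomputable section

variable {D : Type*} [NormedAddCommGroup D] [InnerProductSpace ℂ D]

/-- `B` is a translation covariant operator valued tempered distribution on the domain `D` which is
relatively local to the fields of `Q`. -/
structure RelF (Q : Theory D) (B : Fld D) : Prop where
  lin : ∀ f g (c : ℂ) v, IsTest f → IsTest g → B (fun x => f x + c * g x) v = B f v + c • B g v
  cont : ∀ v, Continuous fun g => B (ev g) v
  transl : ∀ a f v, IsTest f → B f (Q.U 1 one a v) = Q.U 1 one a (B (fun x => f (sim 1 one a x)) v)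
  loc : ∀ C f g v, Q.fld C → IsTest f → IsTest g → Sep f g → B f (C g v) = C g (B f v)

end

end Vale.Agent.P352.H731
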