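import Mathlib

namespace Vale.Agent.P352.H731

open Filter Topology ComplexConjugate

/-- the tent -/
noncomputable def tent (n : ℕ) (i : ℤ) : ℝ := max 0 (1 - |(i : ℝ)| / n)

theorem tent_nonneg (n : ℕ) (i : ℤ) : 0 ≤ tent n i := le_max_left _ _

theorem tent_le_one (n : ℕ) (i : ℤ) : tent n i ≤ 1 := by
  unfold tent
  apply max_le zero_le_one
  have : 0 ≤ |(i : ℝ)| / n := by positivity
  linarith

theorem tent_zero {n : ℕ} (hn : 0 < n) {i : ℤ} (h : i ∉ Finset.Icc (-(n : ℤ)) n) : tent n i = 0 := by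
  unfold tent
  apply max_eq_left
  have h1 : (n : ℝ) ≤ |(i : ℝ)| := by
    rw [Finset.mem_Icc, not_and_or] at h
    have h2 : (n : ℤ) ≤ |i| := by
      rcases h with h | h
      · rw [abs_of_neg (by omega)]; omega
      · rw [abs_of_nonneg (by omega)]; omega
    exact_mod_cast h2
  have hn' : (0 : ℝ) < n := by exact_mod_cast hn
  have : 1 ≤ |(i : ℝ)| / n := by rw [le_div_iff₀ hn']; linarith
  linarith

theorem tent_lip {n : ℕ} (hn : 0 < n) (i j : ℤ) :
    |tent n i - tent n j| ≤ |((i - j : ℤ) : ℝ)| / n := by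
  unfold tent
  have hn' : (0 : ℝ) < n := by exact_mod_cast hn
  have h1 := abs_max_sub_max_le_abs (1 - |(i : ℝ)| / n) (1 - |(j : ℝ)| / n) 0
  rw [max_comm 0, max_comm 0]
  refine h1.trans ?_
  have e : 1 - |(i : ℝ)| / n - (1 - |(j : ℝ)| / n) = (|(j : ℝ)| - |(i : ℝ)|) / n := by ring
  rw [e, abs_div, abs_of_pos hn']
  refine div_le_div_of_nonneg_right ?_ hn'.le
  have := abs_abs_sub_abs_le_abs_sub (j : ℝ) (i : ℝ)
  rw [abs_sub_comm (j : ℝ) (i : ℝ)] at this
  push_cast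
  exact this

theorem tent_tendsto (i : ℤ) : Tendsto (fun n => tent n i) atTop (𝓝 1) := by
  have h1 : Tendsto (fun n : ℕ => 1 - |(i : ℝ)| / n) atTop (𝓝 (1 - 0)) :=
    tendsto_const_nhds.sub (tendsto_const_div_atTop_nhds_zero_nat _)
  have h2 := (tendsto_const_nhds (x := (0:ℝ))).max h1
  simpa [tent] using h2

/-- autocorrelation -/
noncomputable def ac (n : ℕ) (k : ℤ) : ℝ := ∑' i : ℤ, tent n i * tent n (i - k)

theorem tent_sq_summable {n : ℕ} (hn : 0 < n) : Summable fun i : ℤ => tent n i ^ 2 :=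
  summable_of_ne_finset_zero (s := Finset.Icc (-(n : ℤ)) n) fun i hi => by
    rw [tent_zero hn hi]; ring

theorem ac_summable {n : ℕ} (hn : 0 < n) (k : ℤ) :
    Summable fun i : ℤ => tent n i * tent n (i - k) :=
  summable_of_ne_finset_zero (s := Finset.Icc (-(n : ℤ)) n) fun i hi => by
    rw [tent_zero hn hi]; ring

/-- the indicator of the support -/
noncomputable def ind (n : ℕ) (i : ℤ) : ℝ := if i ∈ Finset.Icc (-(n : ℤ)) n then 1 else 0

theorem ind_nonneg (n : ℕ) (i : ℤ) : 0 ≤ ind n i := by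
  unfold ind
  split_ifs <;> norm_num

theorem ind_hasSum (n : ℕ) : HasSum (ind n) (2 * n + 1) := by
  have h1 : HasSum (ind n) (∑ i ∈ Finset.Icc (-(n : ℤ)) n, ind n i) :=
    hasSum_sum_of_ne_finset_zero fun i hi => by
      unfold ind
      rw [if_neg hi]
  have h2 : ∑ i ∈ Finset.Icc (-(n : ℤ)) n, ind n i = 2 * n + 1 := by
    have : ∑ i ∈ Finset.Icc (-(n : ℤ)) n, ind n i = ∑ i ∈ Finset.Icc (-(n : ℤ)) n, (1 : ℝ) := by
      refine Finset.sum_congr rfl fun i hi => ?_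
      unfold ind
      rw [if_pos hi]
    rw [this, Finset.sum_const, Int.card_Icc]
    have : ((n : ℤ) + 1 - -(n : ℤ)).toNat = 2 * n + 1 := by omega
    rw [this]
    simp
  rwa [h2] at h1

theorem sq_diff_le {n : ℕ} (hn : 0 < n) (k i : ℤ) : (tent n i - tent n (i - k)) ^ 2
    ≤ ((k : ℝ)^2 / (n : ℝ)^2) * (ind n i + ind n (i - k)) := by
  by_cases h : i ∈ Finset.Icc (-(n : ℤ)) n ∨ i - k ∈ Finset.Icc (-(n : ℤ)) n
  · have h1 := tent_lip hn i (i - k)
    have e : i - (i - k) = k := by ring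
    rw [e] at h1
    have h2 : (tent n i - tent n (i - k)) ^ 2 ≤ (k : ℝ)^2 / (n : ℝ)^2 := by
      rw [← sq_abs (tent n i - tent n (i - k))]
      calc |tent n i - tent n (i - k)| ^ 2 ≤ (|(k : ℝ)| / n) ^ 2 :=
            pow_le_pow_left₀ (abs_nonneg _) h1 2
        _ = (k : ℝ)^2 / (n : ℝ)^2 := by rw [div_pow, sq_abs]
    have h3 : 1 ≤ ind n i + ind n (i - k) := by
      rcases h with h | h
      · have h4 : ind n i = 1 := by unfold ind; rw [if_pos h]
        have := ind_nonneg n (i - k)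
        linarith
      · have h4 : ind n (i - k) = 1 := by unfold ind; rw [if_pos h]
        have := ind_nonneg n i
        linarith
    calc (tent n i - tent n (i - k)) ^ 2 ≤ (k : ℝ)^2 / (n : ℝ)^2 * 1 := by rw [mul_one]; exact h2
      _ ≤ _ := mul_le_mul_of_nonneg_left h3 (by positivity)
  · rw [not_or] at h
    rw [tent_zero hn h.1, tent_zero hn h.2, sub_self]
    have h1 := ind_nonneg n i
    have h2 := ind_nonneg n (i - k)
    have : 0 ≤ ((k : ℝ)^2 / (n : ℝ)^2) * (ind n i + ind n (i - k)) := by positivity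
    simpa using this

theorem sq_tsum {n : ℕ} (hn : 0 < n) (k : ℤ) :
    ∑' i : ℤ, (tent n i - tent n (i - k)) ^ 2 = 2 * (ac n 0 - ac n k) := by
  have s0 := tent_sq_summable hn
  have s1 : Summable fun i : ℤ => tent n (i - k) ^ 2 :=
    (Equiv.subRight k).summable_iff.2 s0
  have s2 := ac_summable hn k
  have e0 : ac n 0 = ∑' i : ℤ, tent n i ^ 2 := by
    unfold ac
    refine tsum_congr fun i => ?_
    rw [sub_zero, sq]
  have e1 : ∑' i : ℤ, tent n (i - k) ^ 2 = ∑' i : ℤ, tent n i ^ 2 :=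
    (Equiv.subRight k).tsum_eq fun i => tent n i ^ 2
  have e3 : (fun i : ℤ => (tent n i - tent n (i - k)) ^ 2)
      = fun i : ℤ => (tent n i ^ 2 + tent n (i - k) ^ 2) - 2 * (tent n i * tent n (i - k)) := by
    funext i
    ring
  rw [e3, (s0.add s1).tsum_sub (s2.mul_left 2), s0.tsum_add s1, e1, tsum_mul_left, e0]
  show _ = 2 * (∑' i : ℤ, tent n i ^ 2 - ∑' i : ℤ, tent n i * tent n (i - k))
  ring

theorem sq_tsum_le_aux {n : ℕ} (k : ℤ) {T I : ℤ → ℝ}
    (hle : ∀ i, (T i - T (i - k)) ^ 2 ≤ ((k : ℝ)^2 / (n : ℝ)^2) * (I i + I (i - k)))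
    (hI : HasSum I (2 * n + 1)) :
    ∑' i : ℤ, (T i - T (i - k)) ^ 2
      ≤ ((k : ℝ)^2 / (n : ℝ)^2) * ((2 * n + 1) + (2 * n + 1)) := by
  have hI' : HasSum (fun i : ℤ => I (i - k)) (2 * n + 1) := (Equiv.subRight k).hasSum_iff.2 hI
  have hs : HasSum (fun i : ℤ => ((k : ℝ)^2 / (n : ℝ)^2) * (I i + I (i - k)))
      (((k : ℝ)^2 / (n : ℝ)^2) * ((2 * n + 1) + (2 * n + 1))) := (hI.add hI').mul_left _
  have hs1 : Summable fun i : ℤ => (T i - T (i - k)) ^ 2 :=
    Summable.of_nonneg_of_le (fun i => sq_nonneg _) hle hs.summable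
  exact hasSum_le hle hs1.hasSum hs

theorem sq_tsum_le {n : ℕ} (hn : 0 < n) (k : ℤ) :
    ∑' i : ℤ, (tent n i - tent n (i - k)) ^ 2
      ≤ ((k : ℝ)^2 / (n : ℝ)^2) * ((2 * n + 1) + (2 * n + 1)) :=
  sq_tsum_le_aux k (sq_diff_le hn k) (ind_hasSum n)

theorem arith_aux {a b x y q : ℝ} (h1 : 2 * (b - a) ≤ x * (y + y)) (h0 : 0 ≤ 2 * (b - a))
    (h : q = x * y) : |a - b| ≤ q := by
  rw [abs_sub_comm, abs_of_nonneg (by linarith), h]
  linarith

theorem ac_diff {n : ℕ} (hn : 0 < n) (k : ℤ) :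
    |ac n k - ac n 0| ≤ (2 * n + 1) / (n : ℝ)^2 * (k : ℝ)^2 := by
  have hb := sq_tsum_le hn k
  have hb0 : 0 ≤ ∑' i : ℤ, (tent n i - tent n (i - k)) ^ 2 := tsum_nonneg fun i => sq_nonneg _
  rw [sq_tsum hn k] at hb hb0
  refine arith_aux hb hb0 ?_
  ring

/-- the double sum is the sum against the autocorrelation -/
theorem dbl {κ : ℤ → ℂ} (hsum : Summable κ) {n : ℕ} (hn : 0 < n) :
    ∑ i ∈ Finset.Icc (-(n : ℤ)) n, ∑ j ∈ Finset.Icc (-(n : ℤ)) n,
      ((tent n i : ℂ) * (tent n j : ℂ) * κ (i - j)) = ∑' k : ℤ, (ac n k : ℂ) * κ k := by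
  have e1 : ∀ i : ℤ, ∑ j ∈ Finset.Icc (-(n : ℤ)) n, ((tent n i : ℂ) * (tent n j : ℂ) * κ (i - j))
      = ∑' k : ℤ, ((tent n i * tent n (i - k) : ℝ) : ℂ) * κ k := by
    intro i
    rw [← (Equiv.subLeft i).tsum_eq]
    rw [tsum_eq_sum (s := Finset.Icc (-(n : ℤ)) n)]
    · refine Finset.sum_congr rfl fun j _ => ?_
      simp only [Equiv.subLeft_apply]
      have : i - (i - j) = j := by ring
      rw [this]
      push_cast
      rfl
    · intro j hj
      simp only [Equiv.subLeft_apply]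
      have : i - (i - j) = j := by ring
      rw [this, tent_zero hn hj]
      simp
  have hs : ∀ i ∈ Finset.Icc (-(n : ℤ)) n,
      Summable fun k : ℤ => ((tent n i * tent n (i - k) : ℝ) : ℂ) * κ k := by
    intro i _
    refine Summable.of_norm_bounded hsum.norm fun k => ?_
    rw [norm_mul, Complex.norm_real, Real.norm_eq_abs, abs_of_nonneg
      (mul_nonneg (tent_nonneg _ _) (tent_nonneg _ _))]
    have := mul_le_one₀ (tent_le_one n i) (tent_nonneg n (i - k)) (tent_le_one n (i - k))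
    have h2 := norm_nonneg (κ k)
    nlinarith
  rw [Finset.sum_congr rfl fun i _ => e1 i, ← Summable.tsum_finsetSum hs]
  refine tsum_congr fun k => ?_
  rw [← Finset.sum_mul]
  congr 1
  unfold ac
  rw [tsum_eq_sum (s := Finset.Icc (-(n : ℤ)) n)]
  · push_cast
    rfl
  · intro i hi
    rw [tent_zero hn hi, zero_mul]

/-- **(A)** -/
theorem seq_zero {κ L : ℤ → ℂ} {e C : ℝ} (hκ : ∀ k, ‖κ k‖ ≤ C * (1/2:ℝ) ^ k.natAbs)
    (hs : ∑' k, κ k = 0) (hL : Summable fun k => ‖L k‖)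
    (hpos : ∀ (s : Finset ℤ) (t : ℤ → ℂ),
      0 ≤ (∑ i ∈ s, ∑ j ∈ s, conj (t i) * t j * κ (i - j)).re
        + 2 * (∑ i ∈ s, conj (t i) * L i).re + e) : ∑' k, L k = 0 := by
  have hC : 0 ≤ C := by
    have := (norm_nonneg _).trans (hκ 0)
    simpa using this
  have hsum2 : Summable fun k : ℤ => (k : ℝ)^2 * (C * (1/2:ℝ) ^ k.natAbs) := by
    have hN : Summable fun k : ℕ => (k : ℝ)^2 * (C * (1/2:ℝ) ^ k) := by
      have := (summable_pow_mul_geometric_of_norm_lt_one 2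
        (show ‖(1/2:ℝ)‖ < 1 by norm_num)).mul_left C
      refine this.congr fun k => ?_
      ring
    refine Summable.of_nat_of_neg ?_ ?_
    · simpa using hN
    · simpa using hN
  have hsum : Summable κ := by
    refine Summable.of_norm_bounded (g := fun k : ℤ => C * (1/2:ℝ) ^ k.natAbs) ?_ hκ
    have hN : Summable fun k : ℕ => C * (1/2:ℝ) ^ k :=
      (summable_geometric_of_lt_one (by norm_num) (by norm_num)).mul_left C
    refine Summable.of_nat_of_neg ?_ ?_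
    · simpa using hN
    · simpa using hN
  set B : ℝ := ∑' k : ℤ, (k : ℝ)^2 * (C * (1/2:ℝ) ^ k.natAbs) with hB
  -- quadratic part
  have hT : ∀ n : ℕ, 0 < n → ‖∑ i ∈ Finset.Icc (-(n : ℤ)) n, ∑ j ∈ Finset.Icc (-(n : ℤ)) n,
      ((tent n i : ℂ) * (tent n j : ℂ) * κ (i - j))‖ ≤ (2 * n + 1) / (n : ℝ)^2 * B := by
    intro n hn
    rw [dbl hsum hn]
    have hbd : ∀ k : ℤ, ‖(((ac n k - ac n 0 : ℝ)) : ℂ) * κ k‖
        ≤ (2 * n + 1) / (n : ℝ)^2 * ((k : ℝ)^2 * (C * (1/2:ℝ) ^ k.natAbs)) := by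
      intro k
      rw [norm_mul, Complex.norm_real, Real.norm_eq_abs]
      calc |ac n k - ac n 0| * ‖κ k‖
          ≤ ((2 * n + 1) / (n : ℝ)^2 * (k : ℝ)^2) * (C * (1/2:ℝ) ^ k.natAbs) :=
            mul_le_mul (ac_diff hn k) (hκ k) (norm_nonneg _) (by positivity)
        _ = _ := by ring
    have hsd : Summable fun k : ℤ => (((ac n k - ac n 0 : ℝ)) : ℂ) * κ k :=
      Summable.of_norm_bounded (hsum2.mul_left _) hbd
    have e1 : ∑' k : ℤ, (ac n k : ℂ) * κ k = ∑' k : ℤ, (((ac n k - ac n 0 : ℝ)) : ℂ) * κ k := by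
      have h1 : ∑' k : ℤ, (ac n 0 : ℂ) * κ k = 0 := by rw [tsum_mul_left, hs, mul_zero]
      have h2 : ∀ k : ℤ, (ac n k : ℂ) * κ k
          = (((ac n k - ac n 0 : ℝ)) : ℂ) * κ k + (ac n 0 : ℂ) * κ k := fun k => by
        push_cast; ring
      simp_rw [h2]
      rw [hsd.tsum_add (hsum.mul_left _), h1, add_zero]
    rw [e1]
    refine (tsum_of_norm_bounded ((hsum2.mul_left _).hasSum) hbd).trans ?_
    rw [tsum_mul_left]
  have hq0 : Tendsto (fun n : ℕ => (2 * n + 1) / (n : ℝ)^2 * B) atTop (𝓝 0) := by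
    have h1 : Tendsto (fun n : ℕ => (2 / (n : ℝ) + 1 / (n:ℝ) * (1 / (n : ℝ))) * B) atTop
        (𝓝 ((0 + 0 * 0) * B)) :=
      ((tendsto_const_div_atTop_nhds_zero_nat 2).add
        ((tendsto_const_div_atTop_nhds_zero_nat 1).mul
          (tendsto_const_div_atTop_nhds_zero_nat 1))).mul_const B
    rw [zero_mul, add_zero, zero_mul] at h1
    refine h1.congr' ?_
    filter_upwards [eventually_gt_atTop 0] with n hn
    have hn' : (n : ℝ) ≠ 0 := by exact_mod_cast hn.ne'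
    field_simp
  -- linear part
  have hlin : Tendsto (fun n : ℕ => ∑ i ∈ Finset.Icc (-(n : ℤ)) n, (tent n i : ℂ) * L i) atTop
      (𝓝 (∑' k, L k)) := by
    have h1 : Tendsto (fun n : ℕ => ∑' i : ℤ, (tent n i : ℂ) * L i) atTop (𝓝 (∑' k, L k)) := by
      refine tendsto_tsum_of_dominated_convergence (bound := fun k => ‖L k‖) hL ?_ ?_
      · intro k
        have := ((Complex.continuous_ofReal.tendsto _).comp (tent_tendsto k)).mul_const (L k)
        simpa using this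
      · refine Eventually.of_forall fun n k => ?_
        rw [norm_mul, Complex.norm_real, Real.norm_eq_abs, abs_of_nonneg (tent_nonneg _ _)]
        have := tent_le_one n k
        have h2 := norm_nonneg (L k)
        nlinarith
    refine h1.congr' ?_
    filter_upwards [eventually_gt_atTop 0] with n hn
    rw [tsum_eq_sum (s := Finset.Icc (-(n : ℤ)) n)]
    intro i hi
    rw [tent_zero hn hi]
    simp
  -- the inequality in the limit
  have hlim : ∀ lam : ℂ, 0 ≤ 2 * (conj lam * ∑' k, L k).re + e := by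
    intro lam
    have h1 : Tendsto (fun n : ℕ => ‖lam‖^2 * ((2 * n + 1) / (n : ℝ)^2 * B)
        + 2 * (conj lam * ∑ i ∈ Finset.Icc (-(n : ℤ)) n, (tent n i : ℂ) * L i).re + e) atTop
        (𝓝 (‖lam‖^2 * 0 + 2 * (conj lam * ∑' k, L k).re + e)) := by
      refine ((hq0.const_mul _).add ?_).add_const _
      exact ((Complex.continuous_re.tendsto _).comp (hlin.const_mul (conj lam))).const_mul 2
    rw [mul_zero, zero_add] at h1
    refine ge_of_tendsto h1 ?_
    filter_upwards [eventually_gt_atTop 0] with n hn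
    have h2 := hpos (Finset.Icc (-(n : ℤ)) n) fun i => lam * tent n i
    have e1 : ∑ i ∈ Finset.Icc (-(n : ℤ)) n, ∑ j ∈ Finset.Icc (-(n : ℤ)) n,
        conj (lam * (tent n i : ℂ)) * (lam * (tent n j : ℂ)) * κ (i - j)
        = ((‖lam‖^2 : ℝ) : ℂ) * ∑ i ∈ Finset.Icc (-(n : ℤ)) n, ∑ j ∈ Finset.Icc (-(n : ℤ)) n,
          ((tent n i : ℂ) * (tent n j : ℂ) * κ (i - j)) := by
      rw [Finset.mul_sum]
      refine Finset.sum_congr rfl fun i _ => ?_
      rw [Finset.mul_sum]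
      refine Finset.sum_congr rfl fun j _ => ?_
      have : ((‖lam‖^2 : ℝ) : ℂ) = conj lam * lam := by
        rw [mul_comm, Complex.mul_conj, Complex.normSq_eq_norm_sq]
      rw [this, map_mul, Complex.conj_ofReal]
      ring
    have e2 : ∑ i ∈ Finset.Icc (-(n : ℤ)) n, conj (lam * (tent n i : ℂ)) * L i
        = conj lam * ∑ i ∈ Finset.Icc (-(n : ℤ)) n, (tent n i : ℂ) * L i := by
      rw [Finset.mul_sum]
      refine Finset.sum_congr rfl fun i _ => ?_
      rw [map_mul, Complex.conj_ofReal]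
      ring
    rw [e1, e2, Complex.re_ofReal_mul] at h2
    have h3 := (Complex.re_le_norm _).trans (hT n hn)
    have h4 : 0 ≤ ‖lam‖^2 := sq_nonneg _
    have h5 := mul_le_mul_of_nonneg_left h3 h4
    linarith
  by_contra hne
  set S := ∑' k, L k with hS
  have hpos2 : 0 < ‖S‖^2 := by
    have := norm_pos_iff.2 hne
    positivity
  have h6 := hlim (-(((|e| + 1) / ‖S‖^2 : ℝ) : ℂ) * S)
  have e3 : (conj (-(((|e| + 1) / ‖S‖^2 : ℝ) : ℂ) * S) * S).re = -(|e| + 1) := by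
    have : conj (-(((|e| + 1) / ‖S‖^2 : ℝ) : ℂ) * S) * S
        = ((-(|e| + 1) : ℝ) : ℂ) := by
      rw [map_mul, map_neg, Complex.conj_ofReal]
      have h7 : conj S * S = ((‖S‖^2 : ℝ) : ℂ) := by
        rw [mul_comm, Complex.mul_conj, Complex.normSq_eq_norm_sq]
      have h8 : -(((|e| + 1) / ‖S‖^2 : ℝ) : ℂ) * conj S * S
          = -(((|e| + 1) / ‖S‖^2 : ℝ) : ℂ) * (conj S * S) := by ring
      rw [h8, h7, ← Complex.ofReal_neg, ← Complex.ofReal_mul]
      congr 1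
      field_simp
    rw [this, Complex.ofReal_re]
  rw [e3] at h6
  have := le_abs_self e
  linarith [abs_nonneg e]

end Vale.Agent.P352.H731
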