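import Vale.Agent.P352.H731.Ten2
import Vale.Agent.P352.H731.Ten3

set_option linter.all false

noncomputable section

open MeasureTheory SchwartzMap Complex Filter Topology
open scoped SchwartzMap ComplexConjugate ENNReal LineDeriv

namespace Vale.Agent.P352.H731

open GF (Ix V Fn Sch ev pd bar sim bas)
open H246 H246R H15 H496 H993
open UniformSpace (Completion)

variable {D : Type*} [NormedAddCommGroup D] [InnerProductSpace ℂ D]
variable {Q : GF.Theory D} {T : Ix → Ix → GF.Fld D} {J : Ix → GF.Fld D}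
variable {A : (V → V) → D → D} {K : V → D → D}

/-- contraction of a tensor whose symmetric part is a multiple of the metric -/
lemma contract (X : Ix → Ix → D) (hX : ∀ k l, X k l + X l k =
    ((2 * if k = l then GF.eta k else 0 : ℝ) : ℂ) • X 0 0) (c : Ix → Ix → ℝ) :
    ∑ k, ∑ l, (c k l : ℂ) • X k l + ∑ k, ∑ l, (c l k : ℂ) • X k l =
      ((2 * ∑ k, c k k * GF.eta k : ℝ) : ℂ) • X 0 0 := by
  have h1 : ∑ k, ∑ l, (c l k : ℂ) • X k l = ∑ k, ∑ l, (c k l : ℂ) • X l k := Finset.sum_comm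
  rw [h1, ← Finset.sum_add_distrib]
  simp only [← Finset.sum_add_distrib, ← smul_add, hX]
  have h2 : ∀ k, ∑ l, (c k l : ℂ) • (((2 * if k = l then GF.eta k else 0 : ℝ) : ℂ) • X 0 0) =
      ((2 * (c k k * GF.eta k) : ℝ) : ℂ) • X 0 0 := by
    intro k
    rw [Finset.sum_eq_single k]
    · rw [if_pos rfl, smul_smul]
      congr 1
      push_cast
      ring
    · intro l _ hl
      rw [if_neg (Ne.symm hl)]
      simp
    · intro hk
      exact absurd (Finset.mem_univ k) hk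
  simp only [h2]
  rw [← Finset.sum_smul]
  congr 1
  push_cast
  rw [Finset.mul_sum]

section

variable (hJ : IsVirial Q T J)

lemma Kt_sym (h : ConfGen Q A K) (hb : BkCov Q J K) (m n : Ix) (f : 𝓢(Mink, ℂ)) :
    Kt hJ K m n f + Kt hJ K n m f =
      ((2 * if m = n then GF.eta m else 0 : ℝ) : ℂ) • Kt hJ K 0 0 f := by
  refine ext_inner_right ℂ fun v => ?_
  have h1 := (ten_ct0 hJ h hb).sym m n f v
  simp only [Ktf_fl, Completion.inner_coe] at h1
  rw [inner_add_left, h1, inner_smul_left, conj_ofReal]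
  congr 1
  split_ifs <;> push_cast <;> ring

lemma Kt00_cov (h : ConfGen Q A K) (hb : BkCov Q J K) {s : ℝ} (hs : 0 < s) {L : Ix → V}
    (hL : GF.IsLor L) (x : V) (f : 𝓢(Mink, ℂ)) :
    Kt hJ K 0 0 f = ((s ^ 2 : ℝ) : ℂ) • Q.U s L x (Kt hJ K 0 0 (simS s hs hL x f)) := by
  have h1 := Kt_cov hJ h hb hs hL x 0 0 f
  set g := simS s hs hL x f with hg
  have h2 := contract (fun k l => Q.U s L x (Kt hJ K k l g)) (fun k l => by
    show Q.U s L x (Kt hJ K k l g) + Q.U s L x (Kt hJ K l k g) = _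
    rw [← U_add hs hL, Kt_sym hJ h hb, U_smul hs hL]) (fun k l => s ^ 2 * L k 0 * L l 0)
  have h3 : ∑ k, ∑ l, ((s ^ 2 * L l 0 * L k 0 : ℝ) : ℂ) • Q.U s L x (Kt hJ K k l g) =
      ∑ k, ∑ l, ((s ^ 2 * L k 0 * L l 0 : ℝ) : ℂ) • Q.U s L x (Kt hJ K k l g) := by
    refine Finset.sum_congr rfl fun k _ => Finset.sum_congr rfl fun l _ => ?_
    congr 2
    ring
  rw [h3, ← h1] at h2
  have h4 : ∑ k, s ^ 2 * L k 0 * L k 0 * GF.eta k = s ^ 2 := by
    have h5 := lor_transpose hL 0 0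
    have h6 : bas 0 (GF.eta 0) 0 = 1 := by simp [bas, GF.eta, GF.o]
    rw [h6] at h5
    calc ∑ k, s ^ 2 * L k 0 * L k 0 * GF.eta k = s ^ 2 * ∑ k, GF.eta k * L k 0 * L k 0 := by
          rw [Finset.mul_sum]
          refine Finset.sum_congr rfl fun k _ => ?_
          ring
      _ = s ^ 2 := by rw [h5, mul_one]
  rw [h4] at h2
  have h7 : (2 : ℂ) • Kt hJ K 0 0 f =
      (2 : ℂ) • (((s ^ 2 : ℝ) : ℂ) • Q.U s L x (Kt hJ K 0 0 g)) := by
    rw [two_smul, h2, smul_smul]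
    congr 1
    push_cast
    ring
  exact smul_right_injective D two_ne_zero h7

lemma bk_eh (h : ConfGen Q A K) {a : V} (ha : IsNull a) (m : Ix) (f : 𝓢(Mink, ℂ)) :
    bk J K a (eh m) (fl f) Q.vac = ∑ k, ((GF.eta k * a k : ℝ) : ℂ) • Kt hJ K k m f := by
  rw [← Bx_null hJ h ha, ← Wx_eh]
  unfold Bx
  rw [Finset.sum_eq_single m]
  · have : GF.eta m * eh m m = 1 := by
      unfold eh
      rw [if_pos rfl, eta_sq]
    rw [this]
    simp
  · intro k _ hk
    unfold eh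
    rw [if_neg hk]
    simp
  · intro hn
    exact absurd (Finset.mem_univ m) hn

/-- the divergence of the antisymmetric part -/
lemma Kt_div (h : ConfGen Q A K) (hb : BkCov Q J K) (k : Ix) (f : 𝓢(Mink, ℂ)) :
    ∑ m, Kt hJ K k m (∂_{eb m} f : 𝓢(Mink, ℂ)) =
      (GF.eta k : ℂ) • Kt hJ K 0 0 (∂_{eb k} f : 𝓢(Mink, ℂ)) := by
  have hc := (ten_ct0 hJ h hb).asym
  have h1 := Gd_zero hc k f
  rw [Gd_apply] at h1
  simp only [hc.clm_apply, Ktf_fl] at h1
  have h2 : ∑ m, (Kt hJ K k m (∂_{eb m} f : 𝓢(Mink, ℂ)) -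
      Kt hJ K m k (∂_{eb m} f : 𝓢(Mink, ℂ))) = 0 := by
    apply Completion.coe_injective D
    have h3 := map_sum (Completion.toComplL (𝕜 := ℂ) (E := D)) (fun m =>
      (Kt hJ K k m (∂_{eb m} f : 𝓢(Mink, ℂ)) - Kt hJ K m k (∂_{eb m} f : 𝓢(Mink, ℂ))))
      Finset.univ
    refine Eq.trans h3 ?_
    rw [Completion.coe_zero, ← h1]
    refine Finset.sum_congr rfl fun m _ => ?_
    exact Completion.coe_sub _ _
  rw [Finset.sum_sub_distrib, sub_eq_zero] at h2
  have h4 : ∑ m, (Kt hJ K k m (∂_{eb m} f : 𝓢(Mink, ℂ)) +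
      Kt hJ K m k (∂_{eb m} f : 𝓢(Mink, ℂ))) =
      ((2 * GF.eta k : ℝ) : ℂ) • Kt hJ K 0 0 (∂_{eb k} f : 𝓢(Mink, ℂ)) := by
    simp only [Kt_sym hJ h hb]
    rw [Finset.sum_eq_single k]
    · rw [if_pos rfl]
    · intro l _ hl
      rw [if_neg (Ne.symm hl)]
      simp
    · intro hk
      exact absurd (Finset.mem_univ k) hk
  rw [Finset.sum_add_distrib, ← h2, ← two_smul ℂ] at h4
  apply smul_right_injective D (two_ne_zero (α := ℂ))
  show (2 : ℂ) • ∑ m, Kt hJ K k m (∂_{eb m} f : 𝓢(Mink, ℂ)) =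
    (2 : ℂ) • ((GF.eta k : ℂ) • Kt hJ K 0 0 (∂_{eb k} f : 𝓢(Mink, ℂ)))
  rw [h4, smul_smul]
  push_cast
  rfl

include hJ in
/-- **The tensor theorem**, the covariance of the bracket given. -/
theorem tens0 (h : ConfGen Q A K) (hb : BkCov Q J K) : ∃ Y : Fn → D,
    (∀ a b f, IsNull a → IsNull b → GF.IsTest f →
      bk J K a b f Q.vac + bk J K b a f Q.vac = ((2 * GF.mdot a b : ℝ) : ℂ) • Y f) ∧
    (∀ f g (c : ℂ), GF.IsTest f → GF.IsTest g → Y (fun x => f x + c * g x) = Y f + c • Y g) ∧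
    (Continuous fun g => Y (ev g)) ∧
    (∀ s L x f, 0 < s → GF.IsLor L → GF.IsTest f →
      Y f = ((s ^ 2 : ℝ) : ℂ) • Q.U s L x (Y fun z => f (sim s L x z))) ∧
    ∀ a f, IsNull a → GF.IsTest f →
      ∑ m, bk J K a (fun n => if n = m then GF.eta m else 0) (pd m f) Q.vac =
        Y (fun x => ∑ m, (a m : ℂ) * pd m f x) := by
  refine ⟨Ktf hJ h 0 0, ?_, ?_, ?_, ?_, ?_⟩
  · intro a b f ha hb' hf
    obtain ⟨F, rfl⟩ := exists_fl hf
    rw [← Bx_null hJ h ha, ← Bx_null hJ h hb', Bx_Kt, Bx_Kt, Ktf_fl]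
    have h1 := contract (fun m n => Kt hJ K m n F) (Kt_sym hJ h hb · · F)
      (fun m n => GF.eta m * a m * (GF.eta n * b n))
    have h2 : ∑ k, ∑ l, ((GF.eta l * a l * (GF.eta k * b k) : ℝ) : ℂ) • Kt hJ K k l F =
        ∑ k, ∑ l, ((GF.eta k * b k * (GF.eta l * a l) : ℝ) : ℂ) • Kt hJ K k l F := by
      refine Finset.sum_congr rfl fun k _ => Finset.sum_congr rfl fun l _ => ?_
      congr 2
      ring
    rw [h2] at h1
    rw [h1]
    congr 2
    unfold GF.mdot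
    congr 1
    refine Finset.sum_congr rfl fun m _ => ?_
    have := eta_sq m
    linear_combination (GF.eta m * a m * b m) * this
  · intro f g c hf hg
    exact Ktf_lin hJ h 0 0 f g c hf hg
  · exact Ktf_cont hJ h 0 0
  · intro s L x f hs hL hf
    obtain ⟨F, rfl⟩ := exists_fl hf
    rw [fl_sim s hs hL x, Ktf_fl, Ktf_fl]
    exact Kt00_cov hJ h hb hs hL x F
  · intro a f ha hf
    obtain ⟨F, rfl⟩ := exists_fl hf
    have e1 : (fun x => ∑ m, (a m : ℂ) * pd m (fl F) x) = fl (dS a F) := (fl_dS a F).symm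
    rw [e1]
    have e2 : ∀ m, bk J K a (fun n => if n = m then GF.eta m else 0) (pd m (fl F)) Q.vac =
        ∑ k, ((GF.eta k * a k : ℝ) : ℂ) • Kt hJ K k m (∂_{eb m} F : 𝓢(Mink, ℂ)) := by
      intro m
      rw [pd_fl]
      exact bk_eh hJ h ha m _
    simp only [e2]
    rw [Finset.sum_comm]
    simp only [← Finset.smul_sum, Kt_div hJ h hb]
    unfold Ktf
    rw [toS_fl]
    unfold dS
    rw [map_sum]
    refine Finset.sum_congr rfl fun m _ => ?_
    rw [map_smul, KtC_apply, smul_smul]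
    congr 1
    have := eta_sq m
    rw [← ofReal_mul]
    congr 1
    linear_combination (a m) * this

end

end Vale.Agent.P352.H731

end
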